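import Vale.Agent.P166.Haar2.Cavity.Perm

/-!
Cavity: demoting a few top coordinates to their blocks multiplies the partition function by the
Gibbs average of a Gaussian weight of those coordinates, and promotion costs a constant.
-/

noncomputable section

open MeasureTheory ProbabilityTheory Filter
open scoped BigOperators Topology

namespace Vale.Agent.P166.Haar2.Cavity

open Vale.Agent.P157 (gam)
open Vale.Agent.P157.Parisi (Cube scale)
open Vale.Agent.P168.Limit (logZ gav gav_sum logZ_tilt)

variable {N G L K : ℕ}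

/-- The number of coordinates of block `k`. -/
def blockCard (w : Fin N → Fin (K + 1)) (k : Fin (K + 1)) : ℕ :=
  (Finset.univ.filter fun i => w i = k).card

theorem frac_eq (w : Fin N → Fin (K + 1)) (k : Fin (K + 1)) :
    frac w k = (blockCard w k : ℝ) / N := rfl

theorem blockCard_pos {w : Fin N → Fin (K + 1)} {k : Fin (K + 1)} (h : 0 < frac w k) :
    0 < blockCard w k := by
  rcases Nat.eq_zero_or_pos (blockCard w k) with h0 | h0
  · simp [frac_eq, h0] at h
  · exact h0

theorem mom_eq_sum (P : Sys N G) (s : ℝ) (x : Fin L → ℝ) (B : RBase N) (I : Finset (Fin N)) :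
    mom P s x B I = ∑ i ∈ I, mom P s x B {i} := by
  unfold mom
  rw [← integral_finsetSum _ fun i _ => integrable_gav_mass P s x B {i}]
  refine integral_congr_ae (Eventually.of_forall fun z => ?_)
  show gav _ (fun σ => ∑ i ∈ I, rot z.1 σ i ^ 2) = _
  rw [gav_sum]
  refine Finset.sum_congr rfl fun i _ => congrArg _ (funext fun σ => ?_)
  simp [mass]

theorem mom_le_card (P : Sys N G) (s : ℝ) (x : Fin L → ℝ) (B : RBase N) (I : Finset (Fin N)) :
    mom P s x B I ≤ N := by
  calc mom P s x B I ≤ ∫ _z, (N : ℝ) ∂dzLaw G L B :=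
        integral_mono (integrable_gav_mass P s x B I) (integrable_const _) fun z =>
          (le_abs_self _).trans (Vale.Agent.P168.Limit.abs_gav_le_of_le _ fun σ => by
            rw [abs_of_nonneg (mass_nonneg I z.1 σ)]; exact mass_le I z.1 σ)
    _ = N := by simp

/-- The coordinates of a block have mean square at most the inverse of its fraction. -/
theorem mom_le_div (a : Fin (K + 1) → ℝ) (w : Fin N → Fin (K + 1)) (s : ℝ) (x : Fin L → ℝ)
    (B : RBase N) {c₀ : ℝ} (hc₀ : 0 < c₀) (I : Finset (Fin N)) (hI : ∀ i ∈ I, c₀ ≤ frac w (w i)) :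
    mom (stdSys a w) s x B I ≤ (I.card : ℝ) / c₀ := by
  rw [mom_eq_sum]
  have h1 : ∀ i ∈ I, mom (stdSys a w) s x B {i} ≤ 1 / c₀ := by
    intro i hi
    set S := Finset.univ.filter fun j => w j = w i
    have hS : mom (stdSys a w) s x B S = (S.card : ℝ) * mom (stdSys a w) s x B {i} := by
      rw [mom_eq_sum, Finset.sum_congr rfl fun j hj =>
        mom_single_eq a w s x B (Finset.mem_filter.1 hj).2, Finset.sum_const, nsmul_eq_mul]
    have hle := mom_le_card (stdSys a w) s x B S
    rw [hS] at hle
    have hN : (0 : ℝ) < N := Nat.cast_pos.2 (Fin.pos i)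
    have hc := hI i hi
    rw [frac_eq, le_div_iff₀ hN] at hc
    have hm := mom_nonneg (stdSys a w) s x B {i}
    have hc' : c₀ * N * mom (stdSys a w) s x B {i} ≤ N :=
      le_trans (mul_le_mul_of_nonneg_right hc hm) hle
    rw [le_div_iff₀ hc₀]
    nlinarith
  refine (Finset.sum_le_sum h1).trans (le_of_eq ?_)
  rw [Finset.sum_const, nsmul_eq_mul]
  ring

theorem promote_eq (w : Fin N → Fin (K + 1)) (k : Fin (K + 1)) (hk : k ≠ Fin.last K)
    (h : 0 < blockCard w k) :
    ∃ i, w i = k ∧ promote w i = Fin.last K ∧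
      (Finset.univ.filter fun j => promote w j = k) =
        (Finset.univ.filter fun j => w j = k).erase i := by
  set S := Finset.univ.filter fun j => w j = k with hS
  have hne : S.Nonempty := Finset.card_pos.1 h
  set i := S.min' hne
  have hi : w i = k := (Finset.mem_filter.1 (S.min'_mem hne)).2
  have hfirst : ∀ i' < i, w i' ≠ w i := fun i' hi' he =>
    absurd (S.min'_le i' (Finset.mem_filter.2 ⟨Finset.mem_univ _, he.trans hi⟩)) (not_le.2 hi')
  refine ⟨i, hi, if_pos hfirst, ?_⟩
  ext j
  simp only [Finset.mem_filter, Finset.mem_univ, true_and, Finset.mem_erase]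
  constructor
  · intro hj
    unfold promote at hj
    split_ifs at hj with hjf
    · exact absurd hj.symm hk
    · refine ⟨fun e => hjf (e ▸ hfirst), ?_⟩
      exact Finset.mem_filter.2 ⟨Finset.mem_univ _, hj⟩
  · rintro ⟨hne', hj⟩
    have hjk : w j = k := (Finset.mem_filter.1 hj).2
    have hnf : ¬ ∀ i' < j, w i' ≠ w j := fun hf =>
      hf i (lt_of_le_of_ne (S.min'_le j hj) (Ne.symm hne')) (hi.trans hjk.symm)
    rw [promote, if_neg hnf, hjk]

theorem blockCard_promote_top (w : Fin N → Fin (K + 1)) :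
    blockCard w (Fin.last K) ≤ blockCard (promote w) (Fin.last K) := by
  refine Finset.card_le_card fun i hi => ?_
  simp only [Finset.mem_filter, Finset.mem_univ, true_and] at hi ⊢
  unfold promote
  split_ifs
  · rfl
  · exact hi

open scoped Classical in
/-- The labelling which puts the chosen coordinates back into the blocks below the top. -/
def relab (w : Fin N → Fin (K + 1)) (c : Fin K → Fin N) (i : Fin N) : Fin (K + 1) :=
  if h : ∃ j, c j = i then h.choose.castSucc else promote w i

theorem relab_c (w : Fin N → Fin (K + 1)) {c : Fin K → Fin N} (hc : Function.Injective c)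
    (j : Fin K) : relab w c (c j) = j.castSucc := by
  have h : ∃ j', c j' = c j := ⟨j, rfl⟩
  rw [relab, dif_pos h, hc h.choose_spec]

theorem relab_of_notMem (w : Fin N → Fin (K + 1)) {c : Fin K → Fin N} {i : Fin N}
    (h : ∀ j, c j ≠ i) : relab w c i = promote w i :=
  dif_neg fun ⟨j, hj⟩ => h j hj

theorem blockCard_relab (w : Fin N → Fin (K + 1)) {c : Fin K → Fin N}
    (hc : Function.Injective c) (htop : ∀ j, promote w (c j) = Fin.last K)
    (hne : ∀ k, 0 < blockCard w k) (k : Fin (K + 1)) :
    blockCard (relab w c) k = blockCard w k := by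
  classical
  have low : ∀ j : Fin K, blockCard (relab w c) j.castSucc = blockCard w j.castSucc := by
    intro j
    have hjl : j.castSucc ≠ Fin.last K := (Fin.castSucc_lt_last j).ne
    obtain ⟨i, hi, -, he⟩ := promote_eq w j.castSucc hjl (hne _)
    have e : (Finset.univ.filter fun m => relab w c m = j.castSucc) =
        insert (c j) (Finset.univ.filter fun m => promote w m = j.castSucc) := by
      ext m
      simp only [Finset.mem_insert, Finset.mem_filter, Finset.mem_univ, true_and]
      by_cases hm : ∃ j', c j' = m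
      · obtain ⟨j', rfl⟩ := hm
        rw [relab_c w hc, htop j', Fin.castSucc_inj]
        constructor
        · intro h; exact Or.inl (by rw [h])
        · rintro (h | h)
          · exact hc h
          · exact absurd h.symm hjl
      · rw [relab_of_notMem w fun j' hj' => hm ⟨j', hj'⟩]
        exact ⟨Or.inr, fun h => h.resolve_left fun e => hm ⟨j, e.symm⟩⟩
    have hm : i ∈ Finset.univ.filter fun m => w m = j.castSucc :=
      Finset.mem_filter.2 ⟨Finset.mem_univ _, hi⟩
    rw [blockCard, e, Finset.card_insert_of_notMem (by simp [htop j, Ne.symm hjl]), he,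
      Finset.card_erase_of_mem hm]
    exact Nat.sub_add_cancel (hne _)
  refine Fin.lastCases ?_ low k
  have t : ∀ v : Fin N → Fin (K + 1), ∑ q, blockCard v q = N := fun v => by
    have := Finset.card_eq_sum_card_fiberwise
      (f := v) (s := (Finset.univ : Finset (Fin N))) (t := Finset.univ) fun i _ => Finset.mem_univ _
    simpa [blockCard] using this.symm
  have h1 := t (relab w c)
  have h2 := t w
  rw [Fin.sum_univ_castSucc, Finset.sum_congr rfl fun j _ => low j] at h1
  rw [Fin.sum_univ_castSucc] at h2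
  omega

theorem free_relab (a : Fin (K + 1) → ℝ) (w : Fin N → Fin (K + 1)) {c : Fin K → Fin N}
    (hc : Function.Injective c) (htop : ∀ j, promote w (c j) = Fin.last K)
    (hne : ∀ k, 0 < blockCard w k) (s : ℝ) (x : Fin L → ℝ) (B : RBase N) :
    (stdSys a (relab w c)).free s x B = (stdSys a w).free s x B := by
  classical
  have e : ∀ k, Fintype.card {i // relab w c i = k} = Fintype.card {i // w i = k} := fun k => by
    rw [Fintype.card_subtype, Fintype.card_subtype]
    exact blockCard_relab w hc htop hne k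
  set π : Equiv.Perm (Fin N) := Equiv.ofFiberEquiv fun k => Fintype.equivOfCardEq (e k)
  have hπ : w ∘ π = relab w c := funext fun i => Equiv.ofFiberEquiv_map _ i
  rw [← hπ, free_perm]

open scoped Classical in
/-- The promoted system with the chosen coordinates lowered by `θ`. -/
def tilted (a : Fin (K + 1) → ℝ) (w : Fin N → Fin (K + 1)) (c : Fin K → Fin N) (θ : Fin K → ℝ) :
    Sys N (K + 2) :=
  ⟨fun i => a (promote w i) - ∑ j, (if c j = i then θ j else 0),
    (stdSys a (promote w)).S, (stdSys a (promote w)).ν⟩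

theorem tilted_lam_c (a : Fin (K + 1) → ℝ) (w : Fin N → Fin (K + 1)) {c : Fin K → Fin N}
    (hc : Function.Injective c) (θ : Fin K → ℝ) (j : Fin K) :
    (tilted a w c θ).lam (c j) = a (promote w (c j)) - θ j := by
  classical
  simp [tilted, hc.eq_iff]

theorem tilted_lam_out (a : Fin (K + 1) → ℝ) (w : Fin N → Fin (K + 1)) {c : Fin K → Fin N}
    (θ : Fin K → ℝ) {i : Fin N} (h : ∀ j, c j ≠ i) :
    (tilted a w c θ).lam i = a (promote w i) := by
  classical
  simp [tilted, h]

/-- Outside the special coordinates the features of the two labellings agree. -/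
theorem core_S_eq (a : Fin (K + 1) → ℝ) (w : Fin N → Fin (K + 1)) (c : Fin K → Fin N)
    (θ : Fin K → ℝ) :
    (coreSys (tilted a w c θ) (Finset.univ.image c)).S =
      (coreSys (stdSys a (relab w c)) (Finset.univ.image c)).S := by
  funext g
  ext i
  simp only [coreSys, Finset.mem_sdiff, Finset.mem_image, Finset.mem_univ, true_and, not_exists]
  refine and_congr_left fun h => ?_
  refine Fin.cases ?_ (fun k => ?_) g <;> simp [tilted, stdSys, relab_of_notMem w h]

theorem card_image_le_K (c : Fin K → Fin N) : ((Finset.univ.image c).card : ℝ) ≤ K := by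
  exact_mod_cast Finset.card_image_le.trans (le_of_eq (Fintype.card_fin K))

/-- The promoted and the tilted systems against the demoted one. -/
theorem sandwich (a : Fin (K + 1) → ℝ) (w : Fin N → Fin (K + 1)) (x : Fin L → ℝ) (s : ℝ)
    (hx : ∀ i, |x i| ≤ 3) (B : RBase N) {c : Fin K → Fin N} (hc : Function.Injective c)
    (htop : ∀ j, promote w (c j) = Fin.last K) {c₀ : ℝ} (hc₀ : 0 < c₀)
    (hfr : ∀ k, c₀ ≤ frac w k) (θ : Fin K → ℝ) :
    ((∀ j, θ j ≤ a (Fin.last K) - a j.castSucc) →
      (stdSys a w).free s x B ≤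
        (tilted a w c θ).free s x B + 3 * s ^ 2 / N * ((K : ℝ) / c₀)) ∧
    (∀ d D : ℝ, 0 < d → (∀ j, d ≤ θ j ∧ θ j ≤ D ∧ a (Fin.last K) - a j.castSucc ≤ θ j) →
      (tilted a w c θ).free s x B ≤
        (stdSys a w).free s x B + 3 * s ^ 2 / N * (D / d * ((K : ℝ) / c₀)) ∧
      (stdSys a (promote w)).free s x B ≤
        (tilted a w c θ).free s x B + D / 2 * ((K : ℝ) / c₀)) := by
  classical
  set I := Finset.univ.image c with hI
  set P2 := stdSys a (relab w c) with hP2
  set T := tilted a w c θ with hT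
  have hne : ∀ k, 0 < blockCard w k := fun k => blockCard_pos (lt_of_lt_of_le hc₀ (hfr k))
  have hfree : P2.free s x B = (stdSys a w).free s x B := free_relab a w hc htop hne s x B
  have hν : ∀ P : Sys N (K + 2), P.ν = N → (N : ℝ) ≤ P.ν := fun P h => h ▸ le_rfl
  have hcS : (coreSys T I).S = (coreSys P2 I).S := core_S_eq a w c θ
  have hmem : ∀ i, i ∉ I → ∀ j, c j ≠ i := fun i hi j h =>
    hi (Finset.mem_image.2 ⟨j, Finset.mem_univ _, h⟩)
  have hout : ∀ i ∉ I, P2.lam i = T.lam i := fun i hi => by
    rw [hT, tilted_lam_out a w θ (hmem i hi)]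
    show a (relab w c i) = _
    rw [relab_of_notMem w (hmem i hi)]
  have hin : ∀ j, P2.lam (c j) = a j.castSucc ∧ T.lam (c j) = a (Fin.last K) - θ j := fun j => by
    refine ⟨?_, ?_⟩
    · show a (relab w c (c j)) = _
      rw [relab_c w hc]
    · rw [hT, tilted_lam_c a w hc, htop]
  have hfrac2 : ∀ k, c₀ ≤ frac (relab w c) k := fun k => by
    rw [frac_eq, blockCard_relab w hc htop hne, ← frac_eq]; exact hfr k
  have hM2 : mom P2 s x B I ≤ (K : ℝ) / c₀ :=
    (mom_le_div a (relab w c) s x B hc₀ I fun i _ => hfrac2 _).trans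
      (div_le_div_of_nonneg_right (card_image_le_K c) hc₀.le)
  have hM1 : mom (stdSys a (promote w)) s x B I ≤ (K : ℝ) / c₀ := by
    refine (mom_le_div a (promote w) s x B hc₀ I fun i hi => ?_).trans
      (div_le_div_of_nonneg_right (card_image_le_K c) hc₀.le)
    obtain ⟨j, -, rfl⟩ := Finset.mem_image.1 hi
    rw [htop, frac_eq]
    refine (hfr (Fin.last K)).trans ?_
    rw [frac_eq]
    exact div_le_div_of_nonneg_right (by exact_mod_cast blockCard_promote_top w) (Nat.cast_nonneg _)
  have he : 0 ≤ 3 * s ^ 2 / (N : ℝ) := by positivity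
  refine ⟨fun hθ => ?_, fun d D hd hθ => ?_⟩
  · have h1 := free_le_core_add P2 (hν P2 rfl) I s x hx B
    have h2 : (coreSys P2 I).free s x B ≤ (coreSys T I).free s x B := by
      have := free_lam_le (coreSys P2 I) (coreSys T I) hcS.symm rfl s x B (c := 0) fun i => by
        rw [add_zero]
        show P2.lam i ≤ T.lam i
        by_cases hi : i ∈ I
        · obtain ⟨j, -, rfl⟩ := Finset.mem_image.1 hi
          rw [(hin j).1, (hin j).2]
          linarith [hθ j]
        · rw [hout i hi]
      simpa using this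
    have h3 := free_core_le T I s x B
    have h4 := mul_le_mul_of_nonneg_left hM2 he
    rw [show P2.ν = (N : ℝ) from rfl] at h1
    linarith
  · have h1 := free_le_core_add T (hν T rfl) I s x hx B
    have h2 : (coreSys T I).free s x B ≤ (coreSys P2 I).free s x B := by
      have := free_lam_le (coreSys T I) (coreSys P2 I) hcS rfl s x B (c := 0) fun i => by
        rw [add_zero]
        show T.lam i ≤ P2.lam i
        by_cases hi : i ∈ I
        · obtain ⟨j, -, rfl⟩ := Finset.mem_image.1 hi
          rw [(hin j).1, (hin j).2]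
          linarith [(hθ j).2.2]
        · rw [hout i hi]
      simpa using this
    have h3 := free_core_le P2 I s x B
    have hdD : ∀ i ∈ I, d ≤ (stdSys a (promote w)).lam i - T.lam i ∧
        (stdSys a (promote w)).lam i - T.lam i ≤ D := by
      intro i hi
      obtain ⟨j, -, rfl⟩ := Finset.mem_image.1 hi
      rw [(hin j).2]
      show d ≤ a (promote w (c j)) - _ ∧ a (promote w (c j)) - _ ≤ D
      rw [htop]
      constructor <;> linarith [(hθ j).1, (hθ j).2.1]
    have ht := free_tilt T (stdSys a (promote w)).lam I s x B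
      (fun i hi => tilted_lam_out a w θ (hmem i hi)) (fun i hi => (hdD i hi).1)
      fun i hi => (hdD i hi).2
    have hB : (⟨(stdSys a (promote w)).lam, T.S, T.ν⟩ : Sys N (K + 2)) = stdSys a (promote w) := rfl
    rw [hB] at ht
    obtain ⟨htl, hth⟩ := ht
    have hD0 : 0 ≤ D * mom (stdSys a (promote w)) s x B I := by
      have := mom_nonneg T s x B I
      nlinarith [mul_nonneg hd.le this]
    have hD1 : D * mom (stdSys a (promote w)) s x B I ≤ D * ((K : ℝ) / c₀) := by
      rcases (Finset.univ : Finset (Fin K)).eq_empty_or_nonempty with h | ⟨j, -⟩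
      · have hI0 : I = ∅ := by rw [hI, h, Finset.image_empty]
        have hK : K = 0 := by simpa using congrArg Finset.card h
        subst hK
        rw [mom_eq_sum, hI0, Finset.sum_empty, Nat.cast_zero, zero_div]
      · exact mul_le_mul_of_nonneg_left hM1 (by linarith [(hθ j).1, (hθ j).2.1])
    have hmT : mom T s x B I ≤ D / d * ((K : ℝ) / c₀) := by
      rw [div_mul_eq_mul_div, le_div_iff₀ hd]
      linarith
    have h4 := mul_le_mul_of_nonneg_left hmT he
    rw [show T.ν = (N : ℝ) from rfl] at h1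
    exact ⟨by linarith, by linarith⟩

/-- The Gibbs average of the Gaussian weight is the tilted free energy. -/
theorem freshLog_demote (a : Fin (K + 1) → ℝ) (w : Fin N → Fin (K + 1)) (x : Fin L → ℝ) (s : ℝ)
    (B : RBase N) (coords : Fin (K + 1) → Fin N) (θ : Fin K → ℝ) :
    (stdSys a (promote w)).freshLog s x B 0 coords (stepX (Fin.snoc θ 0) 0 0 true) =
      (tilted a w (fun j => coords j.castSucc) θ).free s x B -
        (stdSys a (promote w)).free s x B := by
  classical
  set P := stdSys a (promote w)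
  set T := tilted a w (fun j => coords j.castSucc) θ
  have hq : ∀ z σ, T.ham s x B z σ =
      P.ham s x B z σ + -(∑ j, θ j * rot z.1 σ (coords j.castSucc) ^ 2) / 2 := by
    intro z σ
    have e : ∑ i, T.lam i * rot z.1 σ i ^ 2 = (∑ i, P.lam i * rot z.1 σ i ^ 2) -
        ∑ j, θ j * rot z.1 σ (coords j.castSucc) ^ 2 := by
      simp only [T, tilted, sub_mul, Finset.sum_sub_distrib, Finset.sum_mul, ite_mul, zero_mul]
      congr 1
      rw [Finset.sum_comm]
      simp
    have ep : T.pert s x z.1 z.2.1 σ = P.pert s x z.1 z.2.1 σ := rfl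
    simp only [Sys.ham, Sys.ham0, e, ep]
    ring
  have hlav : ∀ g : TIdx N 0 → ℝ,
      P.lavg s x B (fun U σ => stepX (Fin.snoc θ 0) 0 0 true
        (Sum.elim (fun j => rot U σ (coords j)) fun _ => testZ g σ)) =
      T.free s x B - P.free s x B := by
    intro g
    rw [Sys.free, Sys.free, ← integral_sub (integrable_logZ T s x B) (integrable_logZ P s x B)]
    refine integral_congr_ae (Eventually.of_forall fun z => ?_)
    show Real.log (gav _ _) = logZ (T.ham s x B z) - logZ (P.ham s x B z)
    rw [show T.ham s x B z = fun σ => P.ham s x B z σ +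
      -(∑ j, θ j * rot z.1 σ (coords j.castSucc) ^ 2) / 2 from funext (hq z),
      logZ_tilt]
    congr 2
    funext σ
    simp [stepX, Fin.sum_univ_castSucc]
  unfold Sys.freshLog
  simp only [hlav, integral_const, probReal_univ, one_smul]

theorem tendsto_rate : Tendsto (fun N : ℕ => 3 * scale N ^ 2 / (N : ℝ)) atTop (𝓝 0) := by
  have h := ((tendsto_rpow_neg_atTop (by norm_num : (0 : ℝ) < 1 / 4)).comp
    tendsto_natCast_atTop_atTop).const_mul 3
  rw [mul_zero] at h
  refine h.congr' ?_
  filter_upwards [eventually_gt_atTop 0] with N hN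
  have hN' : (0 : ℝ) < N := Nat.cast_pos.2 hN
  show 3 * (N : ℝ) ^ (-(1 / 4 : ℝ)) = _
  rw [scale, ← Real.rpow_natCast _ 2, ← Real.rpow_mul hN'.le, mul_div_assoc,
    ← Real.rpow_sub_one hN'.ne']
  norm_num

/-- Demotion. -/
theorem demote : DemoteStmt := by
  intro K A Q hQ hB coords hco δ₀ hδ₀
  refine ⟨δ₀, ⟨hδ₀, le_rfl⟩, ?_⟩
  obtain ⟨k₀, -, hk₀⟩ := Finset.exists_min_image Finset.univ A.c Finset.univ_nonempty
  set c₀ := A.c k₀ / 2 with hc₀def
  have hc₀ : 0 < c₀ := half_pos (A.pos k₀)
  set D := A.top - A.a 0 + 2 * δ₀ with hD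
  set M := (1 + D / (δ₀ / 2)) * ((K : ℝ) / c₀)
  have hev1 : ∀ᶠ j in atTop, ∀ k, |Q.a j k - A.a k| < δ₀ / 8 := eventually_all.2 fun k =>
    (hQ.atoms k).eventually (Metric.ball_mem_nhds _ (by linarith : 0 < δ₀ / 8))
  have hev2 : ∀ᶠ j in atTop, ∀ k, c₀ ≤ frac (Q.w j) k := eventually_all.2 fun k =>
    (hQ.fracs k).eventually (eventually_ge_nhds (by
      have := hk₀ k (Finset.mem_univ _)
      linarith [A.pos k₀]))
  have hev3 : ∀ᶠ j in atTop, 3 * scale (Q.N j) ^ 2 / (Q.N j : ℝ) * M ≤ δ₀ := by
    have h := (tendsto_rate.comp hQ.size).mul_const M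
    rw [zero_mul] at h
    exact h.eventually (eventually_le_nhds hδ₀)
  filter_upwards [hev1, hev2, hev3] with j ha hf he
  obtain ⟨hinj, htop⟩ := hco j
  set c : Fin K → Fin (Q.N j) := fun i => coords j i.castSucc
  have hc : Function.Injective c := fun i i' h => Fin.castSucc_injective K (hinj h)
  have hb : ∀ i : Fin K, A.gapTop i.castSucc - δ₀ ≤ Q.a j (Fin.last K) - Q.a j i.castSucc ∧
      Q.a j (Fin.last K) - Q.a j i.castSucc ≤ A.gapTop i.castSucc + δ₀ ∧
      0 ≤ A.gapTop i.castSucc ∧ A.gapTop i.castSucc + δ₀ ≤ D := by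
    intro i
    have h1 := abs_lt.1 (ha i.castSucc)
    have h2 := abs_lt.1 (ha (Fin.last K))
    have h3 : A.a i.castSucc ≤ A.a (Fin.last K) := A.mono.monotone (Fin.le_last _)
    have h4 : A.a 0 ≤ A.a i.castSucc := A.mono.monotone (Fin.zero_le _)
    simp only [hD, Atoms.gapTop, Atoms.top]
    exact ⟨by linarith, by linarith, by linarith, by linarith⟩
  have hD0 : 0 ≤ D := by
    have : A.a 0 ≤ A.a (Fin.last K) := A.mono.monotone (Fin.le_last _)
    simp only [hD, Atoms.top]
    linarith
  have hKc : 0 ≤ (K : ℝ) / c₀ := by positivity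
  have hr0 : 0 ≤ 3 * scale (Q.N j) ^ 2 / (Q.N j : ℝ) := by positivity
  have hup := (sandwich (Q.a j) (Q.w j) (Q.x j) (scale (Q.N j)) (hQ.box j) (unifBase (Q.N j))
    hc (fun i => htop _) hc₀ hf fun i => A.gapTop i.castSucc + -δ₀).1
    fun i => by linarith [(hb i).1]
  have hlo := ((sandwich (Q.a j) (Q.w j) (Q.x j) (scale (Q.N j)) (hQ.box j) (unifBase (Q.N j))
    hc (fun i => htop _) hc₀ hf fun i => A.gapTop i.castSucc + δ₀).2 (δ₀ / 2) D (half_pos hδ₀)
    fun i => ⟨by linarith [(hb i).2.2.1], (hb i).2.2.2, (hb i).2.1⟩).1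
  have hM1 : 3 * scale (Q.N j) ^ 2 / (Q.N j : ℝ) * ((K : ℝ) / c₀) ≤ δ₀ := by
    refine le_trans (mul_le_mul_of_nonneg_left ?_ hr0) he
    exact le_mul_of_one_le_left hKc (le_add_of_nonneg_right (by positivity))
  have hM2 : 3 * scale (Q.N j) ^ 2 / (Q.N j : ℝ) * (D / (δ₀ / 2) * ((K : ℝ) / c₀)) ≤ δ₀ := by
    refine le_trans (mul_le_mul_of_nonneg_left ?_ hr0) he
    exact mul_le_mul_of_nonneg_right (by linarith) hKc
  show (_ - δ₀ ≤ _) ∧ _
  simp only [freshLog_demote]
  constructor <;> linarith

/-- Promotion. -/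
theorem promote_bound : PromoteStmt := by
  intro K C₀ c₀ hc₀
  have hev : ∀ᶠ N : ℕ in atTop, 3 * scale N ^ 2 / (N : ℝ) ≤ 1 :=
    tendsto_rate.eventually (eventually_le_nhds one_pos)
  obtain ⟨N₀, hN₀⟩ := eventually_atTop.1 hev
  refine ⟨4 * (|C₀| + 1) * ((K : ℝ) / c₀), N₀, fun N hN a w x hak hx => ?_⟩
  have hr : 3 * scale N ^ 2 / (N : ℝ) ≤ 1 := hN₀ N hN
  have hfr : ∀ k, c₀ ≤ frac w k := fun k => (hak k).2.2
  choose c hcw hctop using fun j : Fin K =>
    let h := promote_eq w j.castSucc (Fin.castSucc_lt_last j).ne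
      (blockCard_pos (lt_of_lt_of_le hc₀ (hfr j.castSucc)))
    (⟨h.choose, h.choose_spec.1, h.choose_spec.2.1⟩ :
      ∃ i, w i = j.castSucc ∧ promote w i = Fin.last K)
  have hc : Function.Injective c := fun i i' h => by
    apply Fin.castSucc_injective K
    rw [← hcw i, ← hcw i', h]
  have hgap : ∀ j : Fin K, 0 ≤ a (Fin.last K) - a j.castSucc ∧
      a (Fin.last K) - a j.castSucc ≤ 2 * |C₀| := fun j => by
    have h1 := abs_le.1 (hak j.castSucc).1
    have h2 := abs_le.1 (hak (Fin.last K)).1
    exact ⟨by linarith [(hak j.castSucc).2.1], by linarith [le_abs_self C₀]⟩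
  have hS := fun θ => sandwich a w x (scale N) hx (unifBase N) hc hctop hc₀ hfr θ
  have hzero : tilted a w c (fun _ => 0) = stdSys a (promote w) := by
    simp [tilted, stdSys]
  have hup := (hS fun _ => 0).1 fun j => (hgap j).1
  rw [hzero] at hup
  obtain ⟨hlo, hbase⟩ := (hS fun j => a (Fin.last K) - a j.castSucc + 1).2 1 (2 * |C₀| + 1)
    one_pos fun j => ⟨by linarith [(hgap j).1], by linarith [(hgap j).2],
      by linarith [(hgap j).1]⟩
  have hKc : 0 ≤ (K : ℝ) / c₀ := by positivity
  have hC : 0 ≤ |C₀| * ((K : ℝ) / c₀) := mul_nonneg (abs_nonneg _) hKc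
  have e1 := mul_le_mul_of_nonneg_right hr hKc
  have e2 := mul_le_mul_of_nonneg_right hr
    (mul_nonneg (by positivity : (0 : ℝ) ≤ (2 * |C₀| + 1) / 1) hKc)
  rw [div_one] at hlo e2
  rw [abs_le]
  constructor <;> linarith

end Vale.Agent.P166.Haar2.Cavity
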