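import Vale.Agent.P166.Haar2.Cavity.Inner
import Vale.Agent.P166.Haar2.Cavity.Demote

/-!
Rotations inside a block and the annealed exponential moments of coordinates of a large block.
-/

noncomputable section

open MeasureTheory ProbabilityTheory
open scoped BigOperators Matrix

namespace Vale.Agent.P166.Haar2.Cavity

open Vale.Agent.P157 (gam dot)
open Vale.Agent.P157.Parisi (Cube)
open Vale.Agent.P168.Limit (logZ gw)

variable {N G L K : ℕ}

/-- Rotations moving only the coordinates in `T`. -/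
def Fixes (T : Finset (Fin N)) (B : OG N) : Prop := ∀ v i, i ∉ T → act B v i = v i

/-- A set of coordinates inside one block of everything. -/
def Uniform (P : Sys N G) (T : Finset (Fin N)) : Prop :=
  (∀ i ∈ T, ∀ j ∈ T, P.lam i = P.lam j) ∧ ∀ g, T ⊆ P.S g ∨ Disjoint T (P.S g)

lemma rot_mul (B U : OG N) (σ : Cube N) : rot (B * U) σ = act B (rot U σ) :=
  act_mul B U (spin σ)

lemma uniform_std (a : Fin (K + 1) → ℝ) (w : Fin N → Fin (K + 1)) (k : Fin (K + 1)) :
    Uniform (stdSys a w) (Finset.univ.filter fun i => w i = k) := by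
  refine ⟨fun i hi j hj => ?_, fun g => ?_⟩
  · simp only [Finset.mem_filter, Finset.mem_univ, true_and] at hi hj
    simp [stdSys, hi, hj]
  · induction g using Fin.cases with
    | zero => exact Or.inl (Finset.subset_univ _)
    | succ k' =>
      by_cases h : k = k'
      · exact Or.inl (by simp [stdSys, h])
      · refine Or.inr (Finset.disjoint_left.2 fun i hi hi' => h ?_)
        simp only [stdSys, Fin.cons_succ, Finset.mem_filter, Finset.mem_univ, true_and] at hi hi'
        exact hi.symm.trans hi'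

lemma fixes_sum_block {T : Finset (Fin N)} {B : OG N} (hB : Fixes T B) (u v : Fin N → ℝ) :
    ∑ i ∈ T, act B u i * act B v i = ∑ i ∈ T, u i * v i := by
  have h := act_dot B u v
  simp only [dotProduct] at h
  rw [← Finset.sum_sdiff (Finset.subset_univ T) (f := fun i => act B u i * act B v i),
    ← Finset.sum_sdiff (Finset.subset_univ T) (f := fun i => u i * v i),
    Finset.sum_congr rfl fun i hi => by
      rw [hB u i (Finset.mem_sdiff.1 hi).2, hB v i (Finset.mem_sdiff.1 hi).2]] at h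
  exact add_left_cancel h

lemma ov_mul_left (P : Sys N G) {T : Finset (Fin N)} {B : OG N} (hT : Uniform P T)
    (hB : Fixes T B) (U : OG N) (g : Fin G) (σ τ : Cube N) :
    movl P (B * U) (fun _ => 1) g σ τ = movl P U (fun _ => 1) g σ τ := by
  simp only [movl, one_mul, rot_mul]
  congr 1
  rcases hT.2 g with h | h
  · rw [← Finset.sum_sdiff h, ← Finset.sum_sdiff h (f := fun i => rot U σ i * rot U τ i),
      fixes_sum_block hB]
    congr 1
    exact Finset.sum_congr rfl fun i hi => by
      rw [hB _ i (Finset.mem_sdiff.1 hi).2, hB _ i (Finset.mem_sdiff.1 hi).2]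
  · exact Finset.sum_congr rfl fun i hi => by
      rw [hB _ i (Finset.disjoint_right.1 h hi), hB _ i (Finset.disjoint_right.1 h hi)]

lemma base0_mul_left (P : Sys N G) {T : Finset (Fin N)} {B : OG N} (hT : Uniform P T)
    (hB : Fixes T B) (U : OG N) : base0 P (B * U) = base0 P U := by
  funext σ
  simp only [base0, rot_mul]
  congr 2
  rw [← Finset.sum_sdiff (Finset.subset_univ T),
    ← Finset.sum_sdiff (Finset.subset_univ T) (f := fun i => P.lam i * rot U σ i ^ 2)]
  congr 1
  · exact Finset.sum_congr rfl fun i hi => by rw [hB _ i (Finset.mem_sdiff.1 hi).2]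
  · rcases T.eq_empty_or_nonempty with rfl | ⟨i₀, hi₀⟩
    · simp
    · have hc : ∀ u : Fin N → ℝ,
          ∑ i ∈ T, P.lam i * u i ^ 2 = P.lam i₀ * ∑ i ∈ T, u i ^ 2 := fun u => by
        rw [Finset.mul_sum]
        exact Finset.sum_congr rfl fun i hi => by rw [hT.1 i hi i₀ hi₀]
      rw [hc, hc]
      simp only [pow_two, fixes_sum_block hB]

lemma pcov_mul_left (P : Sys N G) (hν : 0 ≤ P.ν) (s : ℝ) (x : Fin L → ℝ) {T : Finset (Fin N)}
    {B : OG N} (hT : Uniform P T) (hB : Fixes T B) (U : OG N) (σ τ : Cube N) :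
    ∑ c, pcoef P s x (B * U) σ c * pcoef P s x (B * U) τ c =
      ∑ c, pcoef P s x U σ c * pcoef P s x U τ c := by
  have h1 := pcov_filter P hν s x (B * U) (fun _ => 1) σ τ
  have h2 := pcov_filter P hν s x U (fun _ => 1) σ τ
  simp only [Finset.prod_const_one, mul_one] at h1 h2
  simp only [h1, h2, ov_mul_left P hT hB]

lemma Fi_mul_left (P : Sys N G) (hν : 0 ≤ P.ν) (s : ℝ) (x : Fin L → ℝ) {T : Finset (Fin N)}
    {B : OG N} (hT : Uniform P T) (hB : Fixes T B) (U : OG N) (δ : Cube N → ℝ) :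
    Fi P s x (B * U) δ = Fi P s x U δ := by
  unfold Fi Fig
  simp only [id_eq, pert_eq_field, base0_mul_left P hT hB]
  exact Vale.Agent.P157.Parisi.Cavity.integral_field_congr (pcoef P s x (B * U)) (pcoef P s x U)
    (pcov_mul_left P hν s x hT hB U)
    (Vale.Agent.P157.Parisi.Cavity.measurable_logZ_shift fun σ => base0 P U σ + δ σ)

lemma Gm_mul_left (P : Sys N G) (hν : 0 ≤ P.ν) (s : ℝ) (x : Fin L → ℝ) {T : Finset (Fin N)}
    {B : OG N} (hT : Uniform P T) (hB : Fixes T B) (U : OG N) (f : Cube N → ℝ) :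
    Gm P s x (B * U) f = Gm P s x U f := by
  unfold Gm
  simp only [pert_eq_field, base0_mul_left P hT hB]
  exact Vale.Agent.P157.Parisi.Cavity.integral_field_congr (pcoef P s x (B * U)) (pcoef P s x U)
    (pcov_mul_left P hν s x hT hB U)
    (F := fun v => Vale.Agent.P168.Limit.gav (fun σ => base0 P U σ + v σ) f)
    (by unfold Vale.Agent.P168.Limit.gav gw; fun_prop)

lemma refl_fixes {T : Finset (Fin N)} {w : Fin N → ℝ} (hw : ∀ i, i ∉ T → w i = 0) :
    Fixes T (refl w) := fun v i hi => by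
  rw [act_refl]; simp [hw i hi]

/-- The reflection along the difference carries one vector to the other inside a larger vector. -/
lemma refl_sub_apply (a b r : Fin N → ℝ) (hab : a ⬝ᵥ a = b ⬝ᵥ b) (har : a ⬝ᵥ r = 0)
    (hbr : b ⬝ᵥ r = 0) : act (refl (a - b)) (a + r) = b + r := by
  by_cases h : a = b
  · subst h; simp [act_refl]
  have h1 : (a - b) ⬝ᵥ (a + r) = a ⬝ᵥ a - a ⬝ᵥ b := by
    rw [sub_dotProduct, dotProduct_add, dotProduct_add, har, hbr, dotProduct_comm b a]; ring
  have h2 : (a - b) ⬝ᵥ (a - b) = 2 * (a ⬝ᵥ a - a ⬝ᵥ b) := by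
    rw [sub_dotProduct, dotProduct_sub, dotProduct_sub, dotProduct_comm b a, ← hab]; ring
  have h3 : (a - b) ⬝ᵥ (a - b) ≠ 0 := fun e => h (sub_eq_zero.1 (dotProduct_self_eq_zero.1 e))
  rw [act_refl, h1, ← h2, div_self h3, one_smul]
  abel

/-- Gaussian moment of a square. -/
lemma integral_exp_sq {c : ℝ} (hc : c < 1 / 2) :
    Integrable (fun z : ℝ => Real.exp (c * z ^ 2)) (gaussianReal 0 1) ∧
      ∫ z, Real.exp (c * z ^ 2) ∂gaussianReal 0 1 = 1 / Real.sqrt (1 - 2 * c) := by
  have hden : (0 : ℝ) < 1 / 2 - c := by linarith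
  have hpdf : ∀ z : ℝ, gaussianPDFReal 0 1 z * Real.exp (c * z ^ 2) =
      (√(2 * Real.pi))⁻¹ * Real.exp (-(1 / 2 - c) * z ^ 2) := by
    intro z
    rw [gaussianPDFReal, mul_assoc, ← Real.exp_add]
    simp only [NNReal.coe_one, mul_one, sub_zero]
    congr 2
    ring
  constructor
  · rw [gaussianReal_of_var_ne_zero _ one_ne_zero,
      integrable_withDensity_iff_integrable_smul' (measurable_gaussianPDF _ _)
        (Filter.Eventually.of_forall fun _ => gaussianPDF_lt_top)]
    simp only [toReal_gaussianPDF, smul_eq_mul, hpdf]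
    exact (integrable_exp_neg_mul_sq hden).const_mul _
  · rw [integral_gaussianReal_eq_integral_smul one_ne_zero]
    simp only [smul_eq_mul, hpdf]
    rw [integral_const_mul, integral_gaussian, ← Real.sqrt_inv, ← Real.sqrt_mul (by positivity),
      one_div (Real.sqrt (1 - 2 * c)), ← Real.sqrt_inv]
    congr 1
    have hp : Real.pi ≠ 0 := Real.pi_ne_zero
    have h1 : (1 : ℝ) - 2 * c ≠ 0 := by linarith
    field_simp

/-- The coordinate along a Gaussian direction of a block. -/
def dirT (T : Finset (Fin N)) (f : Fin N) (g : Fin N → ℝ) (i : Fin N) : ℝ :=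
  if ∑ j ∈ T, g j ^ 2 = 0 then ev f i
  else (if i ∈ T then g i else 0) / Real.sqrt (∑ j ∈ T, g j ^ 2)

lemma dirT_unit (T : Finset (Fin N)) (f : Fin N) (g : Fin N → ℝ) :
    dirT T f g ⬝ᵥ dirT T f g = 1 := by
  by_cases h : ∑ j ∈ T, g j ^ 2 = 0
  · rw [show dirT T f g = ev f from funext fun i => if_pos h, ev_dot]; simp [ev]
  have h0 : 0 ≤ ∑ j ∈ T, g j ^ 2 := Finset.sum_nonneg fun j _ => sq_nonneg _
  simp only [dotProduct, dirT, if_neg h, ← pow_two, div_pow, Real.sq_sqrt h0, ← Finset.sum_div,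
    ite_pow, zero_pow two_ne_zero]
  rw [div_eq_one_iff_eq h, Finset.sum_ite_mem, Finset.univ_inter]

lemma dirT_supp {T : Finset (Fin N)} {f : Fin N} (hf : f ∈ T) (g : Fin N → ℝ) {i : Fin N}
    (hi : i ∉ T) : dirT T f g i = 0 := by
  unfold dirT
  split_ifs with h
  · exact Pi.single_eq_of_ne (fun e : i = f => hi (e ▸ hf)) _
  · exact zero_div _

lemma measurable_dirT (T : Finset (Fin N)) (f : Fin N) (i : Fin N) :
    Measurable fun g : Fin N → ℝ => dirT T f g i := by
  have hS : Measurable fun g : Fin N → ℝ => ∑ j ∈ T, g j ^ 2 :=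
    Finset.measurable_sum _ fun j _ => (measurable_pi_apply j).pow_const 2
  unfold dirT
  refine Measurable.ite (hS (measurableSet_singleton 0)) measurable_const ?_
  exact (by split_ifs <;> fun_prop : Measurable fun g : Fin N → ℝ => if i ∈ T then g i else 0).div
    (hS.sqrt)

/-- Exponential moment of the square of a coordinate along a random direction of the block. -/
lemma dir_moment {T : Finset (Fin N)} {f : Fin N} (hf : f ∈ T) {η : ℝ} (hη : 0 ≤ η)
    (hsmall : η * N ≤ (T.card : ℝ) / 32) (v : Fin N → ℝ) (hv : ∑ i, v i ^ 2 ≤ N) :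
    ∫ g, Real.exp (η * (dirT T f g ⬝ᵥ v) ^ 2) ∂gam (Fin N) ≤ 3 := by
  set M : ℝ := (T.card : ℝ) with hM
  have hM0 : 0 < M := by
    rw [hM]; exact_mod_cast Finset.card_pos.2 ⟨f, hf⟩
  set vT : Fin N → ℝ := fun i => if i ∈ T then v i else 0 with hvT
  set n2 : ℝ := ∑ i, vT i ^ 2 with hn2
  have hn0 : 0 ≤ n2 := Finset.sum_nonneg fun i _ => sq_nonneg _
  have hn2N : n2 ≤ N := le_trans (Finset.sum_le_sum fun i _ => by
    simp only [hvT]; split_ifs <;> simp [sq_nonneg]) hv
  obtain ⟨u, hu, hvu⟩ : ∃ u : Fin N → ℝ, ∑ i, u i ^ 2 = 1 ∧ ∀ i, vT i = Real.sqrt n2 * u i := by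
    by_cases h : n2 = 0
    · refine ⟨ev f, by simp [ev, Pi.single_apply], fun i => ?_⟩
      rw [h, Real.sqrt_zero, zero_mul]
      exact pow_eq_zero_iff two_ne_zero |>.1
        ((Finset.sum_eq_zero_iff_of_nonneg fun j _ => sq_nonneg (vT j)).1 h i (Finset.mem_univ i))
    · have hs : Real.sqrt n2 ≠ 0 := (Real.sqrt_ne_zero hn0).2 h
      refine ⟨fun i => vT i / Real.sqrt n2, ?_, fun i => by field_simp⟩
      simp only [div_pow, Real.sq_sqrt hn0, ← Finset.sum_div]
      exact div_self h
  set c2 : ℝ := 2 * η / M * n2 with hc2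
  have hc0 : 0 ≤ c2 := mul_nonneg (div_nonneg (mul_nonneg zero_le_two hη) hM0.le) hn0
  have hc1 : c2 ≤ 1 / 4 := by
    rw [hc2, div_mul_eq_mul_div, div_le_iff₀ hM0]
    nlinarith [mul_le_mul_of_nonneg_left hn2N hη]
  have hbound : ∀ g : Fin N → ℝ, Real.exp (η * (dirT T f g ⬝ᵥ v) ^ 2) ≤
      Real.exp (c2 * dot g u ^ 2) +
        Real.exp (η * N + M / 2) * ∏ i, Real.exp (if i ∈ T then -g i ^ 2 else 0) := by
    intro g
    set S := ∑ j ∈ T, g j ^ 2 with hS
    have hprod : ∏ i, Real.exp (if i ∈ T then -g i ^ 2 else 0) = Real.exp (-S) := by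
      rw [← Real.exp_sum, Finset.sum_ite_mem, Finset.univ_inter, hS, Finset.sum_neg_distrib]
    rw [hprod, ← Real.exp_add]
    have ht : (dirT T f g ⬝ᵥ v) ^ 2 ≤ N := by
      refine (dot_sq_le _ _).trans ?_
      rw [dirT_unit, one_mul]
      simpa [dotProduct, sq] using hv
    by_cases hb : M / 2 ≤ S
    · refine le_add_of_le_of_nonneg (Real.exp_le_exp.2 ?_) (Real.exp_pos _).le
      have hS0 : 0 < S := lt_of_lt_of_le (half_pos hM0) hb
      have hd : dirT T f g ⬝ᵥ v = dot g vT / Real.sqrt S := by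
        simp only [dotProduct, dot, dirT, ← hS, if_neg hS0.ne', div_mul_eq_mul_div,
          ← Finset.sum_div, hvT]
        congr 1
        exact Finset.sum_congr rfl fun i _ => by split_ifs <;> simp
      have hdu : dot g vT ^ 2 = n2 * dot g u ^ 2 := by
        simp only [dot, hvu, ← mul_assoc, mul_comm (g _) (Real.sqrt n2)]
        simp only [mul_assoc, ← Finset.mul_sum, mul_pow, Real.sq_sqrt hn0]
      rw [hd, div_pow, Real.sq_sqrt hS0.le, hc2, hdu, ← mul_div_assoc, div_le_iff₀ hS0]
      have : 0 ≤ η * (n2 * dot g u ^ 2) := by positivity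
      calc η * (n2 * dot g u ^ 2) ≤ η * (n2 * dot g u ^ 2) * (2 * S / M) :=
            le_mul_of_one_le_right this (by rw [le_div_iff₀ hM0]; linarith)
        _ = _ := by ring
    · refine le_add_of_nonneg_of_le (Real.exp_pos _).le (Real.exp_le_exp.2 ?_)
      linarith [mul_le_mul_of_nonneg_left ht hη, not_le.1 hb]
  have hI1 : Integrable (fun g => Real.exp (c2 * dot g u ^ 2)) (gam (Fin N)) :=
    Vale.Agent.P157.Parisi.Cavity.integrable_dot_unit hu
      (φ := fun z => Real.exp (c2 * z ^ 2)) (integral_exp_sq (by linarith)).1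
  have h1 : ∀ i, Integrable (fun z : ℝ => Real.exp (if i ∈ T then -z ^ 2 else 0))
      (gaussianReal 0 1) ∧
      ∫ z, Real.exp (if i ∈ T then -z ^ 2 else 0) ∂gaussianReal 0 1 =
        if i ∈ T then 1 / Real.sqrt 3 else 1 := by
    intro i
    obtain ⟨a1, a2⟩ := integral_exp_sq (c := -1) (by norm_num)
    split_ifs
    · simp only [neg_mul, one_mul] at a1 a2
      exact ⟨a1, a2.trans (by norm_num)⟩
    · simp
  have hI2 : Integrable (fun g : Fin N → ℝ => ∏ i, Real.exp (if i ∈ T then -g i ^ 2 else 0))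
      (gam (Fin N)) :=
    Integrable.fintype_prod (f := fun i z => Real.exp (if i ∈ T then -z ^ 2 else 0))
      fun i => (h1 i).1
  refine (integral_mono_of_nonneg (ae_of_all _ fun g => (Real.exp_pos _).le)
    (hI1.add (hI2.const_mul _)) (ae_of_all _ hbound)).trans ?_
  simp only [Pi.add_apply]
  rw [integral_add hI1 (hI2.const_mul _), integral_const_mul,
    integral_fintype_prod_eq_prod (fun i (z : ℝ) => Real.exp (if i ∈ T then -z ^ 2 else 0)),
    Finset.prod_congr rfl fun i _ => (h1 i).2, Finset.prod_ite_mem, Finset.univ_inter,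
    Finset.prod_const,
    Vale.Agent.P157.Parisi.Cavity.integral_dot_unit hu (φ := fun z => Real.exp (c2 * z ^ 2))
      (by fun_prop), (integral_exp_sq (by linarith)).2]
  have e1 : 1 / Real.sqrt (1 - 2 * c2) ≤ 2 := by
    have h2 : (1 / 2 : ℝ) ≤ Real.sqrt (1 - 2 * c2) :=
      Real.le_sqrt_of_sq_le (by nlinarith)
    rw [div_le_iff₀ (by linarith)]
    linarith
  have e2 : Real.exp (η * N + M / 2) * (1 / Real.sqrt 3) ^ T.card ≤ 1 := by
    have hk : Real.exp (17 / 32) * (1 / Real.sqrt 3) ≤ 1 := by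
      rw [mul_one_div, div_le_one (by positivity)]
      refine Real.le_sqrt_of_sq_le ?_
      rw [← Real.exp_nat_mul, show ((2 : ℕ) : ℝ) * (17 / 32) = 1 + 1 / 16 by norm_num, Real.exp_add]
      have a := Real.exp_one_lt_d9
      have b : Real.exp (1 / 16) ≤ 1 / (1 - 1 / 16) :=
        Real.exp_bound_div_one_sub_of_interval (by norm_num) (by norm_num)
      nlinarith [Real.exp_pos 1, Real.exp_pos (1 / 16 : ℝ)]
    calc Real.exp (η * N + M / 2) * (1 / Real.sqrt 3) ^ T.card
        ≤ Real.exp (T.card * (17 / 32)) * (1 / Real.sqrt 3) ^ T.card :=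
          mul_le_mul_of_nonneg_right (Real.exp_le_exp.2 (by rw [← hM]; linarith)) (by positivity)
      _ = (Real.exp (17 / 32) * (1 / Real.sqrt 3)) ^ T.card := by rw [mul_pow, ← Real.exp_nat_mul]
      _ ≤ 1 := pow_le_one₀ (by positivity) hk
  linarith

/-- Exponential moment of one coordinate of a block of linear size. -/
theorem coord_exp (P : Sys N G) (hν : 0 ≤ P.ν) (s : ℝ) (x : Fin L → ℝ) {T : Finset (Fin N)}
    (hT : Uniform P T) {f : Fin N} (hf : f ∈ T) {η : ℝ} (hη : 0 ≤ η)
    (hsmall : η * N ≤ (T.card : ℝ) / 32) :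
    ∫ U, Gm P s x U (fun σ => Real.exp (η * rot U σ f ^ 2)) ∂orthHaar N ≤ 3 := by
  set μ := orthHaar N
  set F : (Fin N → ℝ) → OG N → ℝ := fun g U =>
    Gm P s x U fun σ => Real.exp (η * (dirT T f g ⬝ᵥ rot U σ) ^ 2) with hF
  have hinv : ∀ g, ∫ U, Gm P s x U (fun σ => Real.exp (η * rot U σ f ^ 2)) ∂μ = ∫ U, F g U ∂μ := by
    intro g
    set r := dirT T f g
    set B : OG N := refl (ev f - r)
    have hB : Fixes T B := refl_fixes fun i hi => by
      rw [Pi.sub_apply, show r i = 0 from dirT_supp hf g hi, sub_zero]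
      exact Pi.single_eq_of_ne (fun e : i = f => hi (e ▸ hf)) _
    have hBf : act B (ev f) = r := by
      have := refl_sub_apply (ev f) r 0 (by rw [ev_dot, dirT_unit]; simp [ev])
        (dotProduct_zero _) (dotProduct_zero _)
      simpa using this
    have hrot : ∀ U σ, rot (B * U) σ f = r ⬝ᵥ rot U σ := fun U σ => by
      rw [rot_mul, ← ev_dot f (act B (rot U σ))]
      conv_lhs => rw [show act B (rot U σ) = act B⁻¹ (rot U σ) from by rw [refl_inv]]
      rw [dotProduct_comm, act_inv_dot, hBf, dotProduct_comm]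
    rw [← integral_mul_left_eq_self (μ := μ)
      (fun U => Gm P s x U fun σ => Real.exp (η * rot U σ f ^ 2)) B]
    refine integral_congr_ae (ae_of_all _ fun U => ?_)
    simp only [hF, hrot, Gm_mul_left P hν s x hT hB]
    rfl
  have ht : ∀ g U σ, (dirT T f g ⬝ᵥ rot U σ) ^ 2 ≤ N := fun g U σ => by
    refine (dot_sq_le _ _).trans ?_
    rw [dirT_unit, one_mul]
    simp [dotProduct, ← sq, sum_rot_sq]
  have hm : ∀ σ, Measurable fun q : (Fin N → ℝ) × OG N =>
      Real.exp (η * (dirT T f q.1 ⬝ᵥ rot q.2 σ) ^ 2) := fun σ => by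
    refine Measurable.exp (((Finset.measurable_sum _ fun i _ => ?_).pow_const 2).const_mul η)
    exact ((measurable_dirT T f i).comp measurable_fst).mul
      ((continuous_rot σ i).measurable.comp measurable_snd)
  have hI : Integrable (Function.uncurry F) ((gam (Fin N)).prod μ) :=
    integrable_Gm P s x _ Prod.snd measurable_snd
      (fun q σ => Real.exp (η * (dirT T f q.1 ⬝ᵥ rot q.2 σ) ^ 2)) hm
      (fun _ => Real.exp (η * N)) (integrable_const _) fun q σ => by
        rw [Real.abs_exp]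
        exact Real.exp_le_exp.2 (mul_le_mul_of_nonneg_left (ht q.1 q.2 σ) hη)
  have e : ∫ U, Gm P s x U (fun σ => Real.exp (η * rot U σ f ^ 2)) ∂μ =
      ∫ g, ∫ U, F g U ∂μ ∂gam (Fin N) := by
    rw [integral_congr_ae (ae_of_all _ fun g => (hinv g).symm)]
    simp
  rw [e, integral_integral_swap hI]
  refine (integral_mono hI.integral_prod_right (integrable_const (3 : ℝ)) fun U => ?_).trans
    (by simp)
  simp only [hF, Gm_eq_sum, Function.uncurry_apply_pair]
  have hi : ∀ σ, Integrable (fun g => Real.exp (η * (dirT T f g ⬝ᵥ rot U σ) ^ 2))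
      (gam (Fin N)) := fun σ =>
    Integrable.of_bound (Measurable.aestronglyMeasurable
      (Measurable.comp (g := fun q : (Fin N → ℝ) × OG N =>
        Real.exp (η * (dirT T f q.1 ⬝ᵥ rot q.2 σ) ^ 2)) (f := fun g => (g, U)) (hm σ)
        measurable_prodMk_right)) (Real.exp (η * N)) (ae_of_all _ fun g => by
        rw [Real.norm_eq_abs, Real.abs_exp]
        exact Real.exp_le_exp.2 (mul_le_mul_of_nonneg_left (ht g U σ) hη))
  rw [integral_finsetSum _ fun σ _ => (hi σ).const_mul _]
  refine (Finset.sum_le_sum fun σ _ => ?_).trans_eq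
    (show ∑ σ, pw P s x U σ * 3 = (3 : ℝ) by rw [← Finset.sum_mul, sum_pw, one_mul])
  rw [integral_const_mul]
  exact mul_le_mul_of_nonneg_left
    (dir_moment hf hη hsmall _ (sum_rot_sq U σ).le) (pw_nonneg P s x U σ)

lemma continuous_Qc (f : Fin (K + 1) → Fin N) (σ : Cube N) :
    Continuous fun U : OG N => Qc f U σ :=
  continuous_finsetSum _ fun j _ => (continuous_rot σ (f j)).pow 2

lemma Qc_nonneg (f : Fin (K + 1) → Fin N) (U : OG N) (σ : Cube N) : 0 ≤ Qc f U σ :=
  Finset.sum_nonneg fun _ _ => sq_nonneg _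

lemma Qc_le (f : Fin (K + 1) → Fin N) (U : OG N) (σ : Cube N) :
    Qc f U σ ≤ (K + 1 : ℝ) * N :=
  (Finset.sum_le_sum fun j _ => rot_sq_le U σ (f j)).trans_eq (by simp)

lemma integrable_Gm_Qc (P : Sys N G) (s : ℝ) (x : Fin L → ℝ) (f : Fin (K + 1) → Fin N) (η : ℝ) :
    Integrable (fun U => Gm P s x U fun σ => Real.exp (η * Qc f U σ)) (orthHaar N) ∧
      Integrable (fun U => Gm P s x U (Qc f U)) (orthHaar N) :=
  ⟨integrable_Gm P s x (orthHaar N) id measurable_id (fun U σ => Real.exp (η * Qc f U σ))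
      (fun σ => ((continuous_Qc f σ).measurable.const_mul η).exp)
      (fun _ => Real.exp (|η| * ((K + 1 : ℝ) * N))) (integrable_const _) fun U σ => by
        rw [Real.abs_exp]
        exact Real.exp_le_exp.2 ((mul_le_mul_of_nonneg_right (le_abs_self η) (Qc_nonneg f U σ)).trans
          (mul_le_mul_of_nonneg_left (Qc_le f U σ) (abs_nonneg η))),
    integrable_Gm P s x (orthHaar N) id measurable_id (fun U => Qc f U)
      (fun σ => (continuous_Qc f σ).measurable) (fun _ => (K + 1 : ℝ) * N) (integrable_const _)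
      fun U σ => by rw [abs_of_nonneg (Qc_nonneg f U σ)]; exact Qc_le f U σ⟩

/-- Exponential moments of squared coordinates of a block of linear size. -/
theorem coords_exp (P : Sys N G) (hν : 0 ≤ P.ν) (s : ℝ) (x : Fin L → ℝ) {T : Finset (Fin N)}
    (hT : Uniform P T) (f : Fin (K + 1) → Fin N) (hf : ∀ j, f j ∈ T) {c η : ℝ}
    (hcard : c * N ≤ T.card) (hη : 0 ≤ η) (hηc : η * (K + 1) ≤ c / 32) :
    ∫ U, Gm P s x U (fun σ => Real.exp (η * Qc f U σ)) ∂orthHaar N ≤ 3 := by
  set n : ℝ := (K + 1 : ℝ) with hn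
  have hn0 : 0 < n := by positivity
  have hsmall : η * n * N ≤ (T.card : ℝ) / 32 := by
    nlinarith [mul_le_mul_of_nonneg_right hηc (Nat.cast_nonneg N : (0 : ℝ) ≤ N)]
  have hconv : ∀ U σ, Real.exp (η * Qc f U σ) ≤
      ∑ j, (1 / n) * Real.exp (η * n * rot U σ (f j) ^ 2) := fun U σ => by
    have h := convexOn_exp.map_sum_le (t := (Finset.univ : Finset (Fin (K + 1))))
      (w := fun _ => 1 / n) (p := fun j => η * n * rot U σ (f j) ^ 2)
      (fun _ _ => by positivity) (by simp [hn]; field_simp) fun _ _ => Set.mem_univ _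
    simp only [smul_eq_mul] at h
    refine le_trans (le_of_eq ?_) h
    congr 1
    rw [Qc, Finset.mul_sum]
    exact Finset.sum_congr rfl fun j _ => by field_simp
  have hi : ∀ j, Integrable (fun U => Gm P s x U fun σ => Real.exp (η * n * rot U σ (f j) ^ 2))
      (orthHaar N) := fun j =>
    integrable_Gm P s x (orthHaar N) id measurable_id
      (fun U σ => Real.exp (η * n * rot U σ (f j) ^ 2))
      (fun σ => (((continuous_rot σ (f j)).measurable.pow_const 2).const_mul _).exp)
      (fun _ => Real.exp (η * n * N)) (integrable_const _) fun U σ => by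
        rw [Real.abs_exp]
        exact Real.exp_le_exp.2 (mul_le_mul_of_nonneg_left (rot_sq_le U σ (f j)) (by positivity))
  have hsum : ∀ U, Gm P s x U (fun σ => ∑ j, (1 / n) * Real.exp (η * n * rot U σ (f j) ^ 2)) =
      ∑ j, (1 / n) * Gm P s x U fun σ => Real.exp (η * n * rot U σ (f j) ^ 2) := fun U => by
    simp only [Gm_eq_sum, Finset.mul_sum]
    rw [Finset.sum_comm]
    exact Finset.sum_congr rfl fun j _ => Finset.sum_congr rfl fun σ _ => by ring
  refine (integral_mono (integrable_Gm_Qc P s x f η).1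
    (integrable_finsetSum _ fun j _ => (hi j).const_mul (1 / n))
    fun U => (Gm_mono P s x U (hconv U)).trans_eq (hsum U)).trans ?_
  rw [integral_finsetSum _ fun j _ => (hi j).const_mul (1 / n)]
  refine (Finset.sum_le_sum (g := fun _ => (1 / n) * 3) fun j _ => ?_).trans_eq (by simp [hn]; field_simp)
  rw [integral_const_mul]
  exact mul_le_mul_of_nonneg_left
    (coord_exp P hν s x hT (hf j) (by positivity) hsmall) (by positivity)

/-- Second moments of coordinates of a block of linear size. -/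
theorem coords_sq (P : Sys N G) (hν : 0 ≤ P.ν) (s : ℝ) (x : Fin L → ℝ) {T : Finset (Fin N)}
    (hT : Uniform P T) (f : Fin (K + 1) → Fin N) (hf : ∀ j, f j ∈ T) {c : ℝ} (hc : 0 < c)
    (hcard : c * N ≤ T.card) :
    ∫ U, Gm P s x U (Qc f U) ∂orthHaar N ≤ 96 * (K + 1) / c := by
  set η : ℝ := c / (32 * (K + 1)) with hη
  have hη0 : 0 < η := by positivity
  have h := coords_exp P hν s x hT f hf hcard hη0.le (le_of_eq (by rw [hη]; field_simp))
  calc ∫ U, Gm P s x U (Qc f U) ∂orthHaar N
      ≤ ∫ U, (1 / η) * Gm P s x U (fun σ => Real.exp (η * Qc f U σ)) ∂orthHaar N := by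
        refine integral_mono (integrable_Gm_Qc P s x f η).2
          ((integrable_Gm_Qc P s x f η).1.const_mul _) fun U => ?_
        dsimp only
        rw [← Gm_const_mul]
        refine Gm_mono P s x U fun σ => ?_
        rw [one_div_mul_eq_div, le_div_iff₀ hη0]
        linarith [Real.add_one_le_exp (η * Qc f U σ)]
    _ ≤ (1 / η) * 3 := by
        rw [integral_const_mul]; exact mul_le_mul_of_nonneg_left h (by positivity)
    _ = 96 * (K + 1) / c := by rw [hη]; field_simp; ring

lemma permOG_fixes {T : Finset (Fin N)} {π : Equiv.Perm (Fin N)} (h : ∀ i, i ∉ T → π i = i) :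
    Fixes T (permOG π) := fun v i hi => by
  simp [act, permOG, Matrix.mulVec, dotProduct, h i hi]

/-- The weight may be read at any distinct coordinates of a block. -/
theorem freshLog_coords (P : Sys N G) (hν : 0 ≤ P.ν) (s : ℝ) (x : Fin L → ℝ)
    {T : Finset (Fin N)} (hT : Uniform P T) (f f' : Fin (K + 1) → Fin N)
    (hf : Function.Injective f) (hf' : Function.Injective f') (hfT : ∀ j, f j ∈ T)
    (hfT' : ∀ j, f' j ∈ T) {θ b : Fin (K + 1) → ℝ} (hθ : ∀ j, 0 ≤ θ j) {κ : ℝ} (hκ : 0 ≤ κ)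
    (lin : Bool) (k : ℕ) :
    P.freshLog s x (unifBase N) k f (stepX θ b κ lin) =
      P.freshLog s x (unifBase N) k f' (stepX θ b κ lin) := by
  classical
  set F : Fin (K + 1) → {i // i ∈ T} := fun j => ⟨f j, hfT j⟩
  set F' : Fin (K + 1) → {i // i ∈ T} := fun j => ⟨f' j, hfT' j⟩
  have hF : Function.Injective F := fun i j h => hf (congrArg Subtype.val h)
  have hF' : Function.Injective F' := fun i j h => hf' (congrArg Subtype.val h)
  set e := (Equiv.ofInjective F hF).symm.trans (Equiv.ofInjective F' hF')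
  set π₀ : Equiv.Perm {i // i ∈ T} := e.extendSubtype
  set π : Equiv.Perm (Fin N) := Equiv.Perm.ofSubtype π₀
  have hπ : ∀ j, π (f j) = f' j := fun j => by
    show Equiv.Perm.ofSubtype π₀ (f j) = _
    rw [Equiv.Perm.ofSubtype_apply_of_mem π₀ (hfT j)]
    show ((π₀ (F j)) : Fin N) = _
    rw [Equiv.extendSubtype_apply_of_mem e (F j) ⟨j, rfl⟩]
    show ((Equiv.ofInjective F' hF') ((Equiv.ofInjective F hF).symm ⟨F j, _⟩)).1.1 = _
    rw [Equiv.ofInjective_symm_apply]
    rfl
  have hB := permOG_fixes (π := π) (T := T) fun i hi =>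
    Equiv.Perm.ofSubtype_apply_of_not_mem π₀ hi
  have key : ∀ g : TIdx N k → ℝ, ∫ U, Fi P s x U (Lw θ b κ lin f g U) ∂orthHaar N =
      ∫ U, Fi P s x U (Lw θ b κ lin f' g U) ∂orthHaar N := fun g => by
    rw [← integral_mul_left_eq_self (μ := orthHaar N)
      (fun U => Fi P s x U (Lw θ b κ lin f g U)) (permOG π)]
    refine integral_congr_ae (ae_of_all _ fun U => ?_)
    show Fi P s x (permOG π * U) _ = _
    rw [Fi_mul_left P hν s x hT hB]
    congr 1
    funext σ
    simp only [Lw, rot_permOG, hπ]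
  have h := freshLog_eq P s x θ b κ lin hθ hκ k f
  have h' := freshLog_eq P s x θ b κ lin hθ hκ k f'
  simp only [key] at h
  linarith

end Vale.Agent.P166.Haar2.Cavity
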