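import Vale.Agent.P166.Haar2.Basic
import Vale.Agent.P166.Haar2.Statements
import Vale.Agent.P168.Limit.GG

/-!
Cavity: removing a few special coordinates from the perturbation costs at most
`3 s² / ν` times their mean squared mass, and adds nothing.
-/

noncomputable section

open MeasureTheory ProbabilityTheory
open scoped BigOperators

namespace Vale.Agent.P166.Haar2.Cavity

open Vale.Agent.P157 (gam)
open Vale.Agent.P157.Parisi (Cube)
open Vale.Agent.P168.Limit (logZ gav gw gav_le_logZ_sub gav_mono gav_const_mul gav_sum gav_const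
  abs_gav_le_of_le hasDerivAt_gav gaussPi_ibp)

variable {N G L : ℕ}

/-- The system whose features avoid the coordinates of `I`. -/
def coreSys (P : Sys N G) (I : Finset (Fin N)) : Sys N G :=
  ⟨P.lam, fun g => P.S g \ I, P.ν⟩

/-- The squared mass of the coordinates of `I`. -/
def mass (I : Finset (Fin N)) (U : OG N) (σ : Cube N) : ℝ :=
  ∑ i ∈ I, rot U σ i ^ 2

/-- The mean squared mass of the coordinates of `I`. -/
def mom (P : Sys N G) (s : ℝ) (x : Fin L → ℝ) (B : RBase N) (I : Finset (Fin N)) : ℝ :=
  ∫ z, gav (P.ham s x B z) (mass I z.1) ∂dzLaw G L B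

theorem mass_nonneg (I : Finset (Fin N)) (U : OG N) (σ : Cube N) : 0 ≤ mass I U σ :=
  Finset.sum_nonneg fun _ _ => sq_nonneg _

theorem mass_le (I : Finset (Fin N)) (U : OG N) (σ : Cube N) : mass I U σ ≤ N :=
  sum_block_le U σ I

theorem continuous_mass (I : Finset (Fin N)) (σ : Cube N) :
    Continuous fun U : OG N => mass I U σ :=
  continuous_finsetSum _ fun i _ => (continuous_rot σ i).pow 2

theorem measurable_mass_z {B : RBase N} (I : Finset (Fin N)) (σ : Cube N) :
    Measurable fun z : Dz G L B => mass I z.1 σ :=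
  (continuous_mass I σ).measurable.comp measurable_fst

theorem integrable_gav_mass (P : Sys N G) (s : ℝ) (x : Fin L → ℝ) (B : RBase N)
    (I : Finset (Fin N)) :
    Integrable (fun z => gav (P.ham s x B z) (mass I z.1)) (dzLaw G L B) :=
  Integrable.of_bound
    (measurable_gav P s x B (fun z σ => mass I z.1 σ) (measurable_mass_z I)).aestronglyMeasurable
    N (Filter.Eventually.of_forall fun z => by
      rw [Real.norm_eq_abs]
      exact abs_gav_le_of_le _ fun σ => by
        rw [abs_of_nonneg (mass_nonneg I z.1 σ)]; exact mass_le I z.1 σ)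

theorem mom_nonneg (P : Sys N G) (s : ℝ) (x : Fin L → ℝ) (B : RBase N) (I : Finset (Fin N)) :
    0 ≤ mom P s x B I :=
  integral_nonneg fun z => by
    refine le_trans (le_of_eq (gav_const (P.ham s x B z) 0).symm) ?_
    exact gav_mono _ fun σ => mass_nonneg I z.1 σ

open scoped Classical in
/-- The feature of a word which meets `I`, with its strength. -/
def rim (P : Sys N G) (I : Finset (Fin N)) (s : ℝ) (x : Fin L → ℝ) (U : OG N) (σ : Cube N)
    (c : PIdx G N L) : ℝ :=
  if ∃ p, c.2 p ∈ I then s * x c.1 * coef G c.1.val * P.feat U σ c else 0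

open scoped Classical in
/-- Changing the sign of the Gaussians of the words which meet `I`. -/
def flipJ (I : Finset (Fin N)) (J : PIdx G N L → ℝ) (c : PIdx G N L) : ℝ :=
  if ∃ p, c.2 p ∈ I then -J c else J c

theorem feat_core (P : Sys N G) (I : Finset (Fin N)) (U : OG N) (σ : Cube N) (c : PIdx G N L)
    [Decidable (∃ p, c.2 p ∈ I)] :
    (coreSys P I).feat U σ c = if ∃ p, c.2 p ∈ I then 0 else P.feat U σ c := by
  by_cases h : ∃ p, c.2 p ∈ I
  · obtain ⟨p, hp⟩ := h
    rw [if_pos ⟨p, hp⟩]
    refine Finset.prod_eq_zero (Finset.mem_univ p) ?_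
    rw [if_neg]
    simp [coreSys, hp]
  · rw [if_neg h]
    push Not at h
    refine Finset.prod_congr rfl fun p _ => ?_
    simp [coreSys, h p]

/-- The field of the words which meet `I`. -/
def rimField (P : Sys N G) (I : Finset (Fin N)) (s : ℝ) (x : Fin L → ℝ) (U : OG N)
    (J : PIdx G N L → ℝ) (σ : Cube N) : ℝ :=
  ∑ c : PIdx G N L, J c * rim P I s x U σ c

theorem ham0_split (P : Sys N G) (I : Finset (Fin N)) (s : ℝ) (x : Fin L → ℝ) (U : OG N)
    (J : PIdx G N L → ℝ) (σ : Cube N) :
    P.ham0 s x U J σ = (coreSys P I).ham0 s x U J σ + rimField P I s x U J σ ∧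
      P.ham0 s x U (flipJ I J) σ =
        (coreSys P I).ham0 s x U J σ - rimField P I s x U J σ := by
  classical
  have e : ∀ c : PIdx G N L,
      (J c * (s * x c.1 * coef G c.1.val * P.feat U σ c) =
        J c * (s * x c.1 * coef G c.1.val * (coreSys P I).feat U σ c) +
          J c * rim P I s x U σ c) ∧
      (flipJ I J c * (s * x c.1 * coef G c.1.val * P.feat U σ c) =
        J c * (s * x c.1 * coef G c.1.val * (coreSys P I).feat U σ c) -
          J c * rim P I s x U σ c) := by
    intro c
    rw [feat_core]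
    unfold rim flipJ
    split_ifs <;> constructor <;> ring
  constructor
  · unfold Sys.ham0 Sys.pert rimField
    rw [Finset.sum_congr rfl fun c _ => (e c).1, Finset.sum_add_distrib]
    simp only [coreSys]
    ring
  · unfold Sys.ham0 Sys.pert rimField
    rw [Finset.sum_congr rfl fun c _ => (e c).2, Finset.sum_sub_distrib]
    simp only [coreSys]
    ring

theorem measurePreserving_flipJ (I : Finset (Fin N)) :
    MeasurePreserving (flipJ (G := G) (L := L) I) (gam (PIdx G N L)) (gam (PIdx G N L)) := by
  classical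
  have h : ∀ c : PIdx G N L, MeasurePreserving
      (fun t : ℝ => if ∃ p, c.2 p ∈ I then -t else t) (gaussianReal 0 1) (gaussianReal 0 1) := by
    intro c
    by_cases hc : ∃ p, c.2 p ∈ I
    · simp only [hc, if_true]
      exact ⟨measurable_neg, by rw [gaussianReal_map_neg, neg_zero]⟩
    · simp only [hc, if_false]
      exact MeasurePreserving.id _
  exact measurePreserving_pi _ _ h

/-- Removing the special coordinates from the perturbation lowers the free energy. -/
theorem free_core_le (P : Sys N G) (I : Finset (Fin N)) (s : ℝ) (x : Fin L → ℝ) (B : RBase N) :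
    (coreSys P I).free s x B ≤ P.free s x B := by
  set T : Dz G L B → Dz G L B := Prod.map id (Prod.map (flipJ I) id) with hT
  have hmp : MeasurePreserving T (dzLaw G L B) (dzLaw G L B) :=
    (MeasurePreserving.id (orthHaar N)).prod
      ((measurePreserving_flipJ I).prod (MeasurePreserving.id B.law))
  have hflip : ∫ z, logZ (P.ham s x B (T z)) ∂dzLaw G L B = P.free s x B := by
    have h := integral_map (μ := dzLaw G L B) hmp.measurable.aemeasurable
      (measurable_logZ P s x B).aestronglyMeasurable
    rw [hmp.map_eq] at h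
    exact h.symm
  have hi : Integrable (fun z => logZ (P.ham s x B (T z))) (dzLaw G L B) :=
    hmp.integrable_comp_of_integrable (integrable_logZ P s x B)
  have hp : ∀ z, 2 * logZ ((coreSys P I).ham s x B z) ≤
      logZ (P.ham s x B z) + logZ (P.ham s x B (T z)) := by
    intro z
    set H := (coreSys P I).ham s x B z
    set D := rimField P I s x z.1 z.2.1
    have e1 : P.ham s x B z = fun σ => H σ + D σ := funext fun σ => by
      simp only [H, D, Sys.ham, (ham0_split P I s x z.1 z.2.1 σ).1]; ring
    have e2 : P.ham s x B (T z) = fun σ => H σ + -1 * D σ := funext fun σ => by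
      simp only [H, D, hT, Sys.ham, Prod.map_fst, Prod.map_snd, id_eq,
        (ham0_split P I s x z.1 z.2.1 σ).2]
      ring
    rw [e1, e2]
    have a1 := gav_le_logZ_sub H D
    have a2 := gav_le_logZ_sub H (fun σ => -1 * D σ)
    rw [gav_const_mul] at a2
    linarith
  have h2 : 2 * (coreSys P I).free s x B ≤ P.free s x B + P.free s x B := by
    calc 2 * (coreSys P I).free s x B
        = ∫ z, 2 * logZ ((coreSys P I).ham s x B z) ∂dzLaw G L B := by
          rw [integral_const_mul]; rfl
      _ ≤ ∫ z, (logZ (P.ham s x B z) + logZ (P.ham s x B (T z))) ∂dzLaw G L B :=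
          integral_mono ((integrable_logZ (coreSys P I) s x B).const_mul 2)
            ((integrable_logZ P s x B).add hi) hp
      _ = P.free s x B + P.free s x B := by
          rw [integral_add (integrable_logZ P s x B) hi, hflip]; rfl
  linarith

open scoped Classical in
/-- The squared strengths of the words through `I` sum to at most `3 s² mass / ν`. -/
theorem sum_rim_sq_le (P : Sys N G) (hν : (N : ℝ) ≤ P.ν) (I : Finset (Fin N)) (s : ℝ)
    (x : Fin L → ℝ) (hx : ∀ i, |x i| ≤ 3) (U : OG N) (σ : Cube N) :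
    ∑ c : PIdx G N L, rim P I s x U σ c ^ 2 ≤ 3 * s ^ 2 / P.ν * mass I U σ := by
  have hν0 : 0 ≤ P.ν := le_trans (Nat.cast_nonneg N) hν
  have hm0 : 0 ≤ mass I U σ / P.ν := div_nonneg (mass_nonneg I U σ) hν0
  let a : Fin G → Fin N → ℝ := fun g j => (if j ∈ P.S g then rot U σ j ^ 2 else 0) / P.ν
  have ha0 : ∀ g j, 0 ≤ a g j := fun g j => div_nonneg (by split_ifs <;> positivity) hν0
  have hale : ∀ g j, a g j ≤ rot U σ j ^ 2 / P.ν := fun g j =>
    div_le_div_of_nonneg_right (by split_ifs <;> first | exact le_rfl | positivity) hν0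
  have ha1 : ∀ g, ∑ j, a g j ≤ 1 := by
    intro g
    refine (Finset.sum_le_sum fun j _ => hale g j).trans ?_
    rw [← Finset.sum_div, sum_rot_sq]
    exact div_le_one_of_le₀ hν hν0
  have hfeat : ∀ c : PIdx G N L, P.feat U σ c ^ 2 = ∏ p, a p.1 (c.2 p) := by
    intro c
    rw [Sys.feat, ← Finset.prod_pow]
    refine Finset.prod_congr rfl fun p _ => ?_
    simp only [a]
    split_ifs
    · rw [div_pow, Real.sq_sqrt hν0]
    · simp
  have hword : ∀ i : Fin L, ∑ w : Word G i.val → Fin N,
      (if ∃ p, w p ∈ I then ∏ p, a p.1 (w p) else 0) ≤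
        (Fintype.card (Word G i.val) : ℝ) * (mass I U σ / P.ν) := by
    intro i
    calc ∑ w : Word G i.val → Fin N, (if ∃ p, w p ∈ I then ∏ p, a p.1 (w p) else 0)
        ≤ ∑ w : Word G i.val → Fin N, ∑ p₀, (if w p₀ ∈ I then ∏ p, a p.1 (w p) else 0) := by
          refine Finset.sum_le_sum fun w _ => ?_
          have h0 : ∀ p₀ ∈ (Finset.univ : Finset (Word G i.val)),
              0 ≤ (if w p₀ ∈ I then ∏ p, a p.1 (w p) else 0) := fun p₀ _ => by
            split_ifs
            · exact Finset.prod_nonneg fun p _ => ha0 _ _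
            · exact le_rfl
          split_ifs with h
          · obtain ⟨p₀, hp₀⟩ := h
            exact (le_of_eq (if_pos hp₀).symm).trans (Finset.single_le_sum h0 (Finset.mem_univ p₀))
          · exact Finset.sum_nonneg h0
      _ = ∑ p₀ : Word G i.val, ∏ p : Word G i.val, ∑ j, (if p = p₀ then (if j ∈ I then a p.1 j else 0) else a p.1 j) := by
          rw [Finset.sum_comm]
          refine Finset.sum_congr rfl fun p₀ _ => ?_
          rw [Fintype.prod_sum]
          refine Finset.sum_congr rfl fun w _ => ?_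
          by_cases hw : w p₀ ∈ I
          · rw [if_pos hw]
            refine Finset.prod_congr rfl fun p _ => ?_
            by_cases h : p = p₀
            · subst h; simp [hw]
            · simp [h]
          · rw [if_neg hw, eq_comm]
            refine Finset.prod_eq_zero (Finset.mem_univ p₀) ?_
            simp [hw]
      _ ≤ ∑ _p₀ : Word G i.val, mass I U σ / P.ν := by
          refine Finset.sum_le_sum fun p₀ _ => ?_
          rw [← Finset.mul_prod_erase _ _ (Finset.mem_univ p₀)]
          have h1 : ∀ p ∈ (Finset.univ : Finset (Word G i.val)).erase p₀,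
              ∑ j, (if p = p₀ then (if j ∈ I then a p.1 j else 0) else a p.1 j) = ∑ j, a p.1 j :=
            fun p hp => Finset.sum_congr rfl fun j _ => if_neg (Finset.ne_of_mem_erase hp)
          rw [Finset.prod_congr rfl h1]
          refine le_trans (mul_le_mul ?_ (Finset.prod_le_one
            (fun p _ => Finset.sum_nonneg fun j _ => ha0 _ _) fun p _ => ha1 _)
            (Finset.prod_nonneg fun p _ => Finset.sum_nonneg fun j _ => ha0 _ _) hm0)
            (mul_one _).le
          rw [mass, Finset.sum_div]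
          simp only [if_true]
          rw [← Finset.sum_filter, Finset.filter_mem_eq_inter, Finset.univ_inter]
          exact Finset.sum_le_sum fun j _ => hale _ _
      _ = _ := by rw [Finset.sum_const, Finset.card_univ, nsmul_eq_mul]
  have hcoef : ∀ i : Fin L, coef G i.val ^ 2 * (Fintype.card (Word G i.val) : ℝ) ≤
      (1 / 4 : ℝ) ^ (i.val + 1) := by
    intro i
    have hd : (Fintype.card (Word G i.val) : ℝ) = ((∑ g, mexp G i.val g : ℕ) : ℝ) := by
      simp [Fintype.card_sigma]
    rw [hd, coef]
    set d := ((∑ g, mexp G i.val g : ℕ) : ℝ)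
    have hd0 : 0 ≤ d := Nat.cast_nonneg _
    have h4 : ((1 / 2 : ℝ) ^ (i.val + 1)) ^ 2 = (1 / 4 : ℝ) ^ (i.val + 1) := by
      rw [← pow_mul, mul_comm, pow_mul]
      norm_num
    have h1 : d / (1 + d) ^ 2 ≤ 1 := div_le_one_of_le₀ (by nlinarith) (sq_nonneg _)
    calc ((1 / 2 : ℝ) ^ (i.val + 1) / (1 + d)) ^ 2 * d
        = (1 / 4 : ℝ) ^ (i.val + 1) * (d / (1 + d) ^ 2) := by rw [div_pow, h4]; ring
      _ ≤ (1 / 4 : ℝ) ^ (i.val + 1) * 1 := mul_le_mul_of_nonneg_left h1 (by positivity)
      _ = (1 / 4 : ℝ) ^ (i.val + 1) := mul_one _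
  have hgeo : ∑ i : Fin L, (1 / 4 : ℝ) ^ (i.val + 1) ≤ 1 / 3 := by
    rw [Fin.sum_univ_eq_sum_range (fun i => (1 / 4 : ℝ) ^ (i + 1))]
    suffices h : ∀ n : ℕ,
        ∑ i ∈ Finset.range n, (1 / 4 : ℝ) ^ (i + 1) ≤ 1 / 3 - (1 / 3) * (1 / 4) ^ n from
      (h L).trans (sub_le_self _ (by positivity))
    intro n
    induction n with
    | zero => simp
    | succ n ih => rw [Finset.sum_range_succ, pow_succ]; linarith
  calc ∑ c : PIdx G N L, rim P I s x U σ c ^ 2
      = ∑ i : Fin L, (s * x i * coef G i.val) ^ 2 *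
          ∑ w : Word G i.val → Fin N, (if ∃ p, w p ∈ I then ∏ p, a p.1 (w p) else 0) := by
        rw [Fintype.sum_sigma]
        refine Finset.sum_congr rfl fun i _ => ?_
        rw [Finset.mul_sum]
        refine Finset.sum_congr rfl fun w _ => ?_
        rw [rim]
        split_ifs
        · rw [mul_pow, hfeat]
        · simp
    _ ≤ ∑ i : Fin L, (s * x i * coef G i.val) ^ 2 *
          ((Fintype.card (Word G i.val) : ℝ) * (mass I U σ / P.ν)) :=
        Finset.sum_le_sum fun i _ => mul_le_mul_of_nonneg_left (hword i) (sq_nonneg _)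
    _ ≤ ∑ i : Fin L, 9 * s ^ 2 * (mass I U σ / P.ν) * (1 / 4 : ℝ) ^ (i.val + 1) := by
        refine Finset.sum_le_sum fun i _ => ?_
        have hx9 : x i ^ 2 ≤ 9 := by nlinarith [abs_le.1 (hx i)]
        calc (s * x i * coef G i.val) ^ 2 *
              ((Fintype.card (Word G i.val) : ℝ) * (mass I U σ / P.ν))
            = x i ^ 2 * (s ^ 2 * (mass I U σ / P.ν)) *
                (coef G i.val ^ 2 * (Fintype.card (Word G i.val) : ℝ)) := by ring
          _ ≤ 9 * (s ^ 2 * (mass I U σ / P.ν)) * (1 / 4 : ℝ) ^ (i.val + 1) :=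
              mul_le_mul (mul_le_mul_of_nonneg_right hx9 (by positivity)) (hcoef i)
                (by positivity) (by positivity)
          _ = _ := by ring
    _ ≤ 9 * s ^ 2 * (mass I U σ / P.ν) * (1 / 3) := by
        rw [← Finset.mul_sum]
        exact mul_le_mul_of_nonneg_left hgeo (by positivity)
    _ = 3 * s ^ 2 / P.ν * mass I U σ := by ring

/-- The derivative in one Gaussian of the Gibbs average of its feature. -/
def rimCov (P : Sys N G) (I : Finset (Fin N)) (s : ℝ) (x : Fin L → ℝ) (B : RBase N)
    (c : PIdx G N L) (z : Dz G L B) : ℝ :=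
  gav (P.ham s x B z) (fun σ => rim P I s x z.1 σ c ^ 2) -
    gav (P.ham s x B z) (fun σ => rim P I s x z.1 σ c) ^ 2

theorem abs_rim_le (P : Sys N G) (I : Finset (Fin N)) (s : ℝ) (x : Fin L → ℝ) (U : OG N)
    (σ : Cube N) (c : PIdx G N L) :
    |rim P I s x U σ c| ≤ |s * x c.1 * coef G c.1.val| * featBd P c := by
  unfold rim
  split_ifs
  · rw [abs_mul]
    exact mul_le_mul_of_nonneg_left (abs_feat_le P U σ c) (abs_nonneg _)
  · rw [abs_zero]
    exact mul_nonneg (abs_nonneg _) ((abs_nonneg _).trans (abs_feat_le P U σ c))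

theorem measurable_rim (P : Sys N G) (I : Finset (Fin N)) (s : ℝ) (x : Fin L → ℝ)
    (σ : Cube N) (c : PIdx G N L) : Measurable fun U => rim P I s x U σ c := by
  classical
  unfold rim
  split_ifs
  · exact (continuous_const.mul (continuous_feat P σ c)).measurable
  · exact measurable_const

theorem integral_coord_gav (P : Sys N G) (I : Finset (Fin N)) (s : ℝ) (x : Fin L → ℝ)
    (B : RBase N) (c : PIdx G N L) :
    ∫ z, z.2.1 c * gav (P.ham s x B z) (fun σ => rim P I s x z.1 σ c) ∂dzLaw G L B =
      ∫ z, rimCov P I s x B c z ∂dzLaw G L B := by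
  classical
  set K := |s * x c.1 * coef G c.1.val| * featBd P c
  have hm : ∀ σ, Measurable fun z : Dz G L B => rim P I s x z.1 σ c := fun σ =>
    (measurable_rim P I s x σ c).comp measurable_fst
  have hg : Measurable fun z => gav (P.ham s x B z) (fun σ => rim P I s x z.1 σ c) :=
    measurable_gav P s x B (fun z σ => rim P I s x z.1 σ c) hm
  have hg2 : Measurable fun z => rimCov P I s x B c z :=
    (measurable_gav P s x B (fun z σ => rim P I s x z.1 σ c ^ 2) fun σ => (hm σ).pow_const 2).sub
      (hg.pow_const 2)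
  have hgb : ∀ z, |gav (P.ham s x B z) (fun σ => rim P I s x z.1 σ c)| ≤ K := fun z =>
    abs_gav_le_of_le _ fun σ => abs_rim_le P I s x z.1 σ c
  have hcb : ∀ z, |rimCov P I s x B c z| ≤ 2 * K ^ 2 := fun z => by
    have e1 : |gav (P.ham s x B z) (fun σ => rim P I s x z.1 σ c ^ 2)| ≤ K ^ 2 :=
      abs_gav_le_of_le _ fun σ => by
        rw [abs_pow]; exact pow_le_pow_left₀ (abs_nonneg _) (abs_rim_le P I s x z.1 σ c) 2
    have e2 : |gav (P.ham s x B z) (fun σ => rim P I s x z.1 σ c) ^ 2| ≤ K ^ 2 := by
      rw [abs_pow]; exact pow_le_pow_left₀ (abs_nonneg _) (hgb z) 2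
    unfold rimCov
    linarith [abs_sub (gav (P.ham s x B z) (fun σ => rim P I s x z.1 σ c ^ 2))
      (gav (P.ham s x B z) (fun σ => rim P I s x z.1 σ c) ^ 2)]
  have hcoord : Integrable (fun z : Dz G L B => |z.2.1 c| * K) (dzLaw G L B) :=
    ((((Vale.Agent.P168.Toolkit.integrable_eval_gaussPi c).abs.mul_const K).comp_fst
      B.law).comp_snd (orthHaar N))
  have h1 : Integrable (fun z => z.2.1 c * gav (P.ham s x B z) (fun σ => rim P I s x z.1 σ c))
      (dzLaw G L B) :=
    hcoord.mono' ((((measurable_pi_apply c).comp (measurable_fst.comp measurable_snd)).mul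
      hg).aestronglyMeasurable) (Filter.Eventually.of_forall fun z => by
        rw [Real.norm_eq_abs, abs_mul]
        exact mul_le_mul_of_nonneg_left (hgb z) (abs_nonneg _))
  have h2 : Integrable (rimCov P I s x B c) (dzLaw G L B) :=
    Integrable.of_bound hg2.aestronglyMeasurable (2 * K ^ 2)
      (Filter.Eventually.of_forall fun z => by rw [Real.norm_eq_abs]; exact hcb z)
  unfold dzLaw at h1 h2 ⊢
  rw [integral_prod _ h1, integral_prod _ h2]
  refine integral_congr_ae ?_
  filter_upwards [h1.prod_right_ae, h2.prod_right_ae] with U h1U h2U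
  rw [integral_prod_symm _ h1U, integral_prod_symm _ h2U]
  refine integral_congr_ae (Filter.Eventually.of_forall fun ω => ?_)
  have hJ : Measurable fun J : PIdx G N L → ℝ => (U, J, ω) :=
    measurable_const.prodMk (measurable_id.prodMk measurable_const)
  refine gaussPi_ibp c (hg.comp hJ) (hg2.comp hJ) (fun J => hgb (U, J, ω))
    (fun J => hcb (U, J, ω)) fun J t => ?_
  by_cases hc : ∃ p, c.2 p ∈ I
  swap
  · have hz : ∀ V τ, rim P I s x V τ c = 0 := fun V τ => if_neg hc
    have hv : ∀ z, rimCov P I s x B c z = 0 := fun z => by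
      simp [rimCov, hz, gav_const]
    simp only [hz, gav_const, hv]
    exact hasDerivAt_const t 0
  have hψ : ∀ τ, s * x c.1 * coef G c.1.val * P.feat U τ c = rim P I s x U τ c := fun τ =>
    (if_pos hc).symm
  have hline : ∀ u, P.ham s x B (U, Function.update J c u, ω) = fun τ =>
      P.ham s x B (U, Function.update J c 0, ω) τ + u * rim P I s x U τ c := by
    intro u
    funext τ
    simp only [Sys.ham, Sys.ham0, Sys.pert, ← Finset.add_sum_erase _ _ (Finset.mem_univ c),
      Function.update_self, hψ]
    rw [Finset.sum_congr rfl fun e he =>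
      show Function.update J c u e * (s * x e.1 * coef G e.1.val * P.feat U τ e) =
          Function.update J c 0 e * (s * x e.1 * coef G e.1.val * P.feat U τ e) by
        rw [Function.update_of_ne (Finset.ne_of_mem_erase he),
          Function.update_of_ne (Finset.ne_of_mem_erase he)]]
    ring
  have h := hasDerivAt_gav (P.ham s x B (U, Function.update J c 0, ω))
    (fun τ => rim P I s x U τ c) (fun τ => rim P I s x U τ c) t
  simp only [← hline] at h
  refine h.congr_deriv ?_
  simp only [rimCov, sq]

/-- Adding the special coordinates to the perturbation costs at most their mass. -/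
theorem free_le_core_add (P : Sys N G) (hν : (N : ℝ) ≤ P.ν) (I : Finset (Fin N)) (s : ℝ)
    (x : Fin L → ℝ) (hx : ∀ i, |x i| ≤ 3) (B : RBase N) :
    P.free s x B ≤ (coreSys P I).free s x B + 3 * s ^ 2 / P.ν * mom P s x B I := by
  classical
  have hm : ∀ c, ∀ σ, Measurable fun z : Dz G L B => rim P I s x z.1 σ c := fun c σ =>
    (measurable_rim P I s x σ c).comp measurable_fst
  have hterm : ∀ c : PIdx G N L, Integrable (fun z : Dz G L B =>
      z.2.1 c * gav (P.ham s x B z) (fun σ => rim P I s x z.1 σ c)) (dzLaw G L B) := fun c =>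
    ((((Vale.Agent.P168.Toolkit.integrable_eval_gaussPi c).abs.mul_const
      (|s * x c.1 * coef G c.1.val| * featBd P c)).comp_fst B.law).comp_snd (orthHaar N)).mono'
      ((((measurable_pi_apply c).comp (measurable_fst.comp measurable_snd)).mul
        (measurable_gav P s x B (fun z σ => rim P I s x z.1 σ c) (hm c))).aestronglyMeasurable)
      (Filter.Eventually.of_forall fun z => by
        rw [Real.norm_eq_abs, abs_mul]
        exact mul_le_mul_of_nonneg_left
          (abs_gav_le_of_le _ fun σ => abs_rim_le P I s x z.1 σ c) (abs_nonneg _))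
  have hcov : ∀ c : PIdx G N L, Integrable
      (fun z : Dz G L B => gav (P.ham s x B z) (fun σ => rim P I s x z.1 σ c ^ 2))
      (dzLaw G L B) := fun c =>
    Integrable.of_bound (measurable_gav P s x B (fun z σ => rim P I s x z.1 σ c ^ 2)
      fun σ => (hm c σ).pow_const 2).aestronglyMeasurable
      ((|s * x c.1 * coef G c.1.val| * featBd P c) ^ 2)
      (Filter.Eventually.of_forall fun z => by
        rw [Real.norm_eq_abs]
        exact abs_gav_le_of_le _ fun σ => by
          rw [abs_pow]; exact pow_le_pow_left₀ (abs_nonneg _) (abs_rim_le P I s x z.1 σ c) 2)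
  have hcovI : ∀ c : PIdx G N L, Integrable (rimCov P I s x B c) (dzLaw G L B) := fun c => by
    refine (hcov c).mono' ((measurable_gav P s x B (fun z σ => rim P I s x z.1 σ c ^ 2)
      fun σ => (hm c σ).pow_const 2).sub ((measurable_gav P s x B
      (fun z σ => rim P I s x z.1 σ c) (hm c)).pow_const 2)).aestronglyMeasurable
      (Filter.Eventually.of_forall fun z => ?_)
    have h := gav_mono (P.ham s x B z)
      (f := fun σ => 2 * gav (P.ham s x B z) (fun σ => rim P I s x z.1 σ c) * rim P I s x z.1 σ c)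
      (g := fun σ => rim P I s x z.1 σ c ^ 2 + gav (P.ham s x B z)
        (fun σ => rim P I s x z.1 σ c) ^ 2) fun σ => two_mul_le_add_sq _ _ |>.trans_eq (by ring)
    rw [gav_const_mul, Vale.Agent.P168.Limit.gav_add, gav_const] at h
    rw [Real.norm_eq_abs, abs_le, rimCov]
    constructor <;> nlinarith [sq_nonneg (gav (P.ham s x B z) fun σ => rim P I s x z.1 σ c)]
  have hz : ∀ z, logZ (P.ham s x B z) ≤ logZ ((coreSys P I).ham s x B z) +
      ∑ c, z.2.1 c * gav (P.ham s x B z) (fun σ => rim P I s x z.1 σ c) := by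
    intro z
    have e : (fun σ => P.ham s x B z σ + -1 * rimField P I s x z.1 z.2.1 σ) =
        (coreSys P I).ham s x B z := funext fun σ => by
      simp only [Sys.ham, (ham0_split P I s x z.1 z.2.1 σ).1]; ring
    have h := gav_le_logZ_sub (P.ham s x B z) (fun σ => -1 * rimField P I s x z.1 z.2.1 σ)
    rw [e, gav_const_mul] at h
    have e2 : gav (P.ham s x B z) (rimField P I s x z.1 z.2.1) =
        ∑ c, z.2.1 c * gav (P.ham s x B z) (fun σ => rim P I s x z.1 σ c) := by
      unfold rimField
      rw [gav_sum]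
      exact Finset.sum_congr rfl fun c _ => gav_const_mul _ _ _
    rw [e2] at h
    linarith
  calc P.free s x B
      ≤ ∫ z, (logZ ((coreSys P I).ham s x B z) +
          ∑ c, z.2.1 c * gav (P.ham s x B z) (fun σ => rim P I s x z.1 σ c)) ∂dzLaw G L B :=
        integral_mono (integrable_logZ P s x B)
          ((integrable_logZ (coreSys P I) s x B).add
            (integrable_finsetSum _ fun c _ => hterm c)) hz
    _ = (coreSys P I).free s x B + ∫ z, ∑ c, rimCov P I s x B c z ∂dzLaw G L B := by
        rw [integral_add (integrable_logZ (coreSys P I) s x B)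
          (integrable_finsetSum _ fun c _ => hterm c),
          integral_finsetSum _ fun c _ => hterm c,
          integral_finsetSum _ fun c _ => hcovI c]
        congr 1
        exact Finset.sum_congr rfl fun c _ => integral_coord_gav P I s x B c
    _ ≤ (coreSys P I).free s x B +
          ∫ z, 3 * s ^ 2 / P.ν * gav (P.ham s x B z) (mass I z.1) ∂dzLaw G L B := by
        refine add_le_add le_rfl (integral_mono (integrable_finsetSum _ fun c _ => hcovI c)
          ((integrable_gav_mass P s x B I).const_mul _) fun z => ?_)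
        calc ∑ c, rimCov P I s x B c z
            ≤ ∑ c, gav (P.ham s x B z) (fun σ => rim P I s x z.1 σ c ^ 2) :=
              Finset.sum_le_sum fun c _ => by unfold rimCov; exact sub_le_self _ (sq_nonneg _)
          _ = gav (P.ham s x B z) (fun σ => ∑ c, rim P I s x z.1 σ c ^ 2) := by rw [gav_sum]
          _ ≤ gav (P.ham s x B z) (fun σ => 3 * s ^ 2 / P.ν * mass I z.1 σ) :=
              gav_mono _ fun σ => sum_rim_sq_le P hν I s x hx z.1 σ
          _ = 3 * s ^ 2 / P.ν * gav (P.ham s x B z) (mass I z.1) := gav_const_mul _ _ _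
    _ = (coreSys P I).free s x B + 3 * s ^ 2 / P.ν * mom P s x B I := by
        rw [integral_const_mul]; rfl

/-- Systems differing only in their eigenvalues on `I`: the free energies differ by the mass. -/
theorem free_tilt (P : Sys N G) (l : Fin N → ℝ) (I : Finset (Fin N)) (s : ℝ) (x : Fin L → ℝ)
    (B : RBase N) (hout : ∀ i ∉ I, P.lam i = l i) {d D : ℝ}
    (hd : ∀ i ∈ I, d ≤ l i - P.lam i) (hD : ∀ i ∈ I, l i - P.lam i ≤ D) :
    d / 2 * mom P s x B I ≤ (⟨l, P.S, P.ν⟩ : Sys N G).free s x B - P.free s x B ∧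
      (⟨l, P.S, P.ν⟩ : Sys N G).free s x B - P.free s x B ≤
        D / 2 * mom ⟨l, P.S, P.ν⟩ s x B I := by
  set P' : Sys N G := ⟨l, P.S, P.ν⟩
  let q : OG N → Cube N → ℝ := fun U σ => 1 / 2 * ∑ i ∈ I, (l i - P.lam i) * rot U σ i ^ 2
  have hq : ∀ z σ, P'.ham s x B z σ = P.ham s x B z σ + q z.1 σ := by
    intro z σ
    have e : P'.pert s x z.1 z.2.1 σ = P.pert s x z.1 z.2.1 σ := rfl
    have hsum : ∑ i ∈ I, (l i - P.lam i) * rot z.1 σ i ^ 2 =
        ∑ i, (l i - P.lam i) * rot z.1 σ i ^ 2 :=
      Finset.sum_subset (Finset.subset_univ I) fun i _ hi => by rw [hout i hi, sub_self, zero_mul]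
    simp only [Sys.ham, Sys.ham0, q, e, hsum]
    rw [Finset.sum_congr rfl fun i _ => sub_mul (l i) (P.lam i) (rot z.1 σ i ^ 2),
      Finset.sum_sub_distrib]
    show _ + (1 / 2 * ∑ i, l i * _ + _) = _
    ring
  have hqlo : ∀ U σ, d / 2 * mass I U σ ≤ q U σ := fun U σ => by
    have := Finset.sum_le_sum fun i (hi : i ∈ I) =>
      mul_le_mul_of_nonneg_right (hd i hi) (sq_nonneg (rot U σ i))
    rw [← Finset.mul_sum] at this
    simp only [q, mass]
    linarith
  have hqhi : ∀ U σ, q U σ ≤ D / 2 * mass I U σ := fun U σ => by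
    have := Finset.sum_le_sum fun i (hi : i ∈ I) =>
      mul_le_mul_of_nonneg_right (hD i hi) (sq_nonneg (rot U σ i))
    rw [← Finset.mul_sum] at this
    simp only [q, mass]
    linarith
  have e1 : P'.free s x B - P.free s x B =
      ∫ z, (logZ (P'.ham s x B z) - logZ (P.ham s x B z)) ∂dzLaw G L B :=
    (integral_sub (integrable_logZ P' s x B) (integrable_logZ P s x B)).symm
  have hi := (integrable_logZ P' s x B).sub (integrable_logZ P s x B)
  constructor
  · rw [e1, mom, ← integral_const_mul]
    refine integral_mono ((integrable_gav_mass P s x B I).const_mul _) hi fun z => ?_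
    have h := gav_le_logZ_sub (P.ham s x B z) (q z.1)
    rw [show (fun σ => P.ham s x B z σ + q z.1 σ) = P'.ham s x B z from
      funext fun σ => (hq z σ).symm] at h
    refine le_trans ?_ h
    rw [← gav_const_mul]
    exact gav_mono _ fun σ => hqlo z.1 σ
  · rw [e1, mom, ← integral_const_mul]
    refine integral_mono hi ((integrable_gav_mass P' s x B I).const_mul _) fun z => ?_
    have h := gav_le_logZ_sub (P'.ham s x B z) (fun σ => -1 * q z.1 σ)
    rw [show (fun σ => P'.ham s x B z σ + -1 * q z.1 σ) = P.ham s x B z from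
      funext fun σ => by rw [hq z σ]; ring, gav_const_mul] at h
    have h2 : gav (P'.ham s x B z) (q z.1) ≤ D / 2 * gav (P'.ham s x B z) (mass I z.1) := by
      rw [← gav_const_mul]
      exact gav_mono _ fun σ => hqhi z.1 σ
    simp only [Pi.sub_apply]
    linarith

end Vale.Agent.P166.Haar2.Cavity
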