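import Vale.Agent.P166.Haar2.Basic
import Vale.Agent.P157.Parisi.Cavity.Gauss

/-!
Gaussian fields of the perturbations: covariances, annealed bounds with the variance kept as a
function of the configuration, and the comparison of two systems through a mask.
-/

noncomputable section

open MeasureTheory ProbabilityTheory
open scoped BigOperators

namespace Vale.Agent.P166.Haar2.Cavity

open Vale.Agent.P157 (gam)
open Vale.Agent.P157.Parisi (Cube)
open Vale.Agent.P168.Limit (logZ gav gw)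
open Vale.Agent.P168.Limit.SelfAvg (field)

variable {X : Type*} [Fintype X] [Nonempty X]

lemma logZ_mono {H H' : X → ℝ} (h : ∀ a, H a ≤ H' a) : logZ H ≤ logZ H' :=
  Real.log_le_log (Vale.Agent.P168.Limit.sum_exp_pos _)
    (Finset.sum_le_sum fun a _ => Real.exp_le_exp.2 (h a))

lemma logZ_add_const (H : X → ℝ) (c : ℝ) : logZ (fun a => H a + c) = logZ H + c := by
  unfold logZ
  simp only [Real.exp_add, ← Finset.sum_mul]
  rw [Real.log_mul (Vale.Agent.P168.Limit.sum_exp_pos _).ne' (Real.exp_pos c).ne', Real.log_exp]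

/-- Convexity along a line, for a small tilt against a larger one. -/
lemma logZ_tilt_small (H O : X → ℝ) {e η : ℝ} (he : 0 ≤ e) (heη : e ≤ η) (hη : 0 < η) :
    logZ (fun a => H a + e * O a) - logZ H ≤ e / η * (logZ (fun a => H a + η * O a) - logZ H) ∧
      logZ H - logZ (fun a => H a - e * O a) ≤
        e / η * (logZ (fun a => H a + η * O a) - logZ H) := by
  have tan : ∀ (M : X → ℝ) (d : ℝ), logZ M + d * gav M O ≤ logZ fun a => M a + d * O a := by
    intro M d
    have h := Vale.Agent.P168.Limit.SelfAvg.gav_le_logZ_sub' M fun a => d * O a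
    rw [Vale.Agent.P168.Limit.gav_const_mul] at h
    linarith
  have key : ∀ u : ℝ, 0 ≤ u → u ≤ η →
      logZ (fun a => H a + u * O a) - logZ H ≤
        u / η * (logZ (fun a => H a + η * O a) - logZ H) := by
    intro u hu huη
    set M : X → ℝ := fun a => H a + u * O a with hM
    have h1 := tan M (-u)
    have h2 := tan M (η - u)
    rw [show (fun a => M a + -u * O a) = H from funext fun a => by simp [hM]] at h1
    rw [show (fun a => M a + (η - u) * O a) = fun a => H a + η * O a from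
      funext fun a => by simp only [hM]; ring] at h2
    rw [div_mul_eq_mul_div, le_div_iff₀ hη]
    nlinarith [mul_le_mul_of_nonneg_left h1 (sub_nonneg.2 huη), mul_le_mul_of_nonneg_left h2 hu]
  refine ⟨key e he heη, ?_⟩
  have h1 := tan H (-e)
  have h2 := tan H η
  rw [show (fun a => H a + -e * O a) = fun a => H a - e * O a from funext fun a => by ring] at h1
  rw [div_mul_eq_mul_div, le_div_iff₀ hη]
  nlinarith [mul_le_mul_of_nonneg_left h1 hη.le, mul_le_mul_of_nonneg_left h2 he]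

/-- A centred field raises the mean of `log Z`, by at most the tilt by half its variance. -/
theorem field_gap_var {ι : Type*} [Fintype ι] (A : X → ℝ) (φ : X → ι → ℝ) :
    logZ A ≤ ∫ z, (logZ fun a => A a + field φ z a) ∂gam ι ∧
      ∫ z, (logZ fun a => A a + field φ z a) ∂gam ι ≤
        logZ fun a => A a + (∑ i, φ a i ^ 2) / 2 := by
  refine ⟨(Vale.Agent.P168.Limit.SelfAvg.field_gap A φ (v := ∑ a, ∑ i, φ a i ^ 2) fun a =>
    Finset.single_le_sum (f := fun b => ∑ i, φ b i ^ 2)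
      (fun b _ => Finset.sum_nonneg fun i _ => sq_nonneg _) (Finset.mem_univ a)).1, ?_⟩
  set A' : X → ℝ := fun a => A a + (∑ i, φ a i ^ 2) / 2 with hA'
  set G : (ι → ℝ) → ℝ := fun z =>
    gav A' fun a => Real.exp (field φ z a - (∑ i, φ a i ^ 2) / 2) with hG
  have hi : ∀ a, Integrable (fun z : ι → ℝ => Real.exp (field φ z a - (∑ i, φ a i ^ 2) / 2))
      (gam ι) := fun a => by
    simp only [sub_eq_add_neg, Real.exp_add]
    exact (Vale.Agent.P168.Toolkit.integrable_exp_linear (φ a)).mul_const _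
  have hG1 : ∫ z, G z ∂gam ι = 1 := by
    simp only [hG, gav]
    rw [integral_finsetSum _ fun a _ => (hi a).const_mul _]
    refine (Finset.sum_congr rfl fun a _ => ?_).trans (Vale.Agent.P168.Limit.sum_gw A')
    rw [integral_const_mul]
    simp only [sub_eq_add_neg, Real.exp_add, field]
    rw [integral_mul_const, Vale.Agent.P168.Toolkit.integral_exp_linear, ← Real.exp_add,
      add_neg_cancel, Real.exp_zero, mul_one]
  have hGi : Integrable G (gam ι) := integrable_finsetSum _ fun a _ => (hi a).const_mul _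
  refine (integral_mono (Vale.Agent.P168.Limit.SelfAvg.integrable_logZ_field A φ)
    ((integrable_const (logZ A' - 1)).add hGi) fun z => ?_).trans (le_of_eq ?_)
  · have h1 := Vale.Agent.P168.Limit.SelfAvg.logZ_tilt' A' fun a =>
      field φ z a - (∑ i, φ a i ^ 2) / 2
    rw [show (fun a => A' a + (field φ z a - (∑ i, φ a i ^ 2) / 2)) = fun a => A a + field φ z a
      from funext fun a => by simp only [hA']; ring] at h1
    have h2 := Real.log_le_sub_one_of_pos
      (Vale.Agent.P168.Limit.gav_exp_pos A' fun a => field φ z a - (∑ i, φ a i ^ 2) / 2)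
    simp only [hG, Pi.add_apply]
    linarith
  · simp only [Pi.add_apply]
    rw [integral_add (integrable_const _) hGi, hG1]
    simp

/-- Integrating out a part of a field. -/
lemma split_le {ι₀ κ : Type*} [Fintype ι₀] [Fintype κ] (A : X → ℝ) (φ₀ : X → ι₀ → ℝ)
    (ψ : X → κ → ℝ) :
    ∫ z, (logZ fun a => A a + field φ₀ z a) ∂gam ι₀ ≤
        ∫ z, (logZ fun a => A a + field (fun b => Sum.elim (φ₀ b) (ψ b)) z a) ∂gam (ι₀ ⊕ κ) ∧
      ∫ z, (logZ fun a => A a + field (fun b => Sum.elim (φ₀ b) (ψ b)) z a) ∂gam (ι₀ ⊕ κ) ≤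
        ∫ z, (logZ fun a => (A a + (∑ i, ψ a i ^ 2) / 2) + field φ₀ z a) ∂gam ι₀ := by
  set Φ : X → ι₀ ⊕ κ → ℝ := fun b => Sum.elim (φ₀ b) (ψ b) with hΦ
  set T := MeasurableEquiv.sumPiEquivProdPi (fun _ : ι₀ ⊕ κ => ℝ) with hT
  have hmp : MeasurePreserving T (gam (ι₀ ⊕ κ)) ((gam ι₀).prod (gam κ)) :=
    measurePreserving_sumPiEquivProdPi fun _ : ι₀ ⊕ κ => gaussianReal 0 1
  set F : (ι₀ → ℝ) × (κ → ℝ) → ℝ :=
    fun p => logZ fun a => (A a + field φ₀ p.1 a) + field ψ p.2 a with hF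
  have e : (fun z => logZ fun a => A a + field Φ z a) = fun z => F (T z) := by
    funext z
    simp only [hF, hΦ, hT, field, Fintype.sum_sum_type, Sum.elim_inl, Sum.elim_inr, add_assoc]
    rfl
  have iF : Integrable F ((gam ι₀).prod (gam κ)) := by
    rw [← hmp.integrable_comp_emb T.measurableEmbedding]
    have h := Vale.Agent.P168.Limit.SelfAvg.integrable_logZ_field A Φ
    rw [e] at h
    exact h
  rw [e, hmp.integral_comp T.measurableEmbedding F, integral_prod F iF]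
  have hg := fun z => field_gap_var (fun a => A a + field φ₀ z a) ψ
  refine ⟨integral_mono (Vale.Agent.P168.Limit.SelfAvg.integrable_logZ_field A φ₀)
    iF.integral_prod_left fun z => (hg z).1, integral_mono iF.integral_prod_left
    (Vale.Agent.P168.Limit.SelfAvg.integrable_logZ_field _ φ₀) fun z => (hg z).2.trans_eq ?_⟩
  congr 1
  funext a
  ring

/-- Fields with a common part: the excess of the first costs a tilt by half its variance. -/
theorem field_le {ι κ ι₀ κ₁ κ₂ : Type*} [Fintype ι] [Fintype κ] [Fintype ι₀] [Fintype κ₁]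
    [Fintype κ₂] (A : X → ℝ) (φ₁ : X → ι → ℝ) (φ₂ : X → κ → ℝ) (φ₀ : X → ι₀ → ℝ)
    (ψ₁ : X → κ₁ → ℝ) (ψ₂ : X → κ₂ → ℝ)
    (h₁ : ∀ a b, ∑ i, φ₁ a i * φ₁ b i = ∑ i, φ₀ a i * φ₀ b i + ∑ i, ψ₁ a i * ψ₁ b i)
    (h₂ : ∀ a b, ∑ i, φ₂ a i * φ₂ b i = ∑ i, φ₀ a i * φ₀ b i + ∑ i, ψ₂ a i * ψ₂ b i) :
    ∫ z, (logZ fun a => A a + field φ₁ z a) ∂gam ι ≤
      ∫ z, (logZ fun a => (A a + (∑ i, ψ₁ a i ^ 2) / 2) + field φ₂ z a) ∂gam κ := by
  classical
  set Ψ : X → ι₀ ⊕ κ₁ → ℝ := fun a => Sum.elim (φ₀ a) (ψ₁ a)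
  set Φ : X → ι₀ ⊕ κ₂ → ℝ := fun a => Sum.elim (φ₀ a) (ψ₂ a)
  rw [Vale.Agent.P157.Parisi.Cavity.integral_field_congr φ₁ Ψ
      (fun a b => by simp [Ψ, h₁, Fintype.sum_sum_type])
      (Vale.Agent.P157.Parisi.Cavity.measurable_logZ_shift A),
    Vale.Agent.P157.Parisi.Cavity.integral_field_congr φ₂ Φ
      (fun a b => by simp [Φ, h₂, Fintype.sum_sum_type])
      (Vale.Agent.P157.Parisi.Cavity.measurable_logZ_shift _)]
  set A' : X → ℝ := fun a => A a + (∑ i, ψ₁ a i ^ 2) / 2 with hA'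
  refine le_trans (split_le A φ₀ ψ₁).2 (split_le A' φ₀ ψ₂).1

variable {N N' G L : ℕ}

/-- The coefficients of the perturbation. -/
def pcoef (P : Sys N G) (s : ℝ) (x : Fin L → ℝ) (U : OG N) (σ : Cube N) (c : PIdx G N L) : ℝ :=
  s * x c.1 * coef G c.1.val * P.feat U σ c

/-- Block overlaps weighted by a mask. -/
def movl (P : Sys N G) (U : OG N) (w : Fin N → ℝ) (g : Fin G) (σ τ : Cube N) : ℝ :=
  (∑ i ∈ P.S g, w i * (rot U σ i * rot U τ i)) / P.ν

lemma pert_eq_field (P : Sys N G) (s : ℝ) (x : Fin L → ℝ) (U : OG N) (J : PIdx G N L → ℝ)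
    (σ : Cube N) : P.pert s x U J σ = field (pcoef P s x U) J σ :=
  Finset.sum_congr rfl fun _ _ => mul_comm _ _

lemma pcov_filter (P : Sys N G) (hν : 0 ≤ P.ν) (s : ℝ) (x : Fin L → ℝ) (U : OG N) (w : Fin N → ℝ)
    (σ τ : Cube N) :
    ∑ c : PIdx G N L, (pcoef P s x U σ c * pcoef P s x U τ c) * ∏ p, w (c.2 p) =
      ∑ i : Fin L, (s * x i * coef G i.val) ^ 2 * ∏ g, movl P U w g σ τ ^ mexp G i.val g := by
  rw [Fintype.sum_sigma]
  refine Finset.sum_congr rfl fun i _ => ?_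
  have key : ∀ p : Word G i.val, ∀ j : Fin N,
      ((if j ∈ P.S p.1 then rot U σ j / Real.sqrt P.ν else 0) *
        (if j ∈ P.S p.1 then rot U τ j / Real.sqrt P.ν else 0)) * w j =
      if j ∈ P.S p.1 then w j * (rot U σ j * rot U τ j) / P.ν else 0 := by
    intro p j
    split_ifs
    · rw [div_mul_div_comm, Real.mul_self_sqrt hν]; ring
    · ring
  have e : ∀ g, movl P U w g σ τ = ∑ j, if j ∈ P.S g then w j * (rot U σ j * rot U τ j) / P.ν
      else 0 := fun g => by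
    rw [movl, Finset.sum_div, ← Finset.sum_filter]
    congr 1
    ext j
    simp
  calc ∑ c : Word G i.val → Fin N,
      (pcoef P s x U σ ⟨i, c⟩ * pcoef P s x U τ ⟨i, c⟩) * ∏ p, w (c p)
      = ∑ c : Word G i.val → Fin N, (s * x i * coef G i.val) ^ 2 *
          ∏ p : Word G i.val, (if c p ∈ P.S p.1 then
            w (c p) * (rot U σ (c p) * rot U τ (c p)) / P.ν else 0) := by
        refine Finset.sum_congr rfl fun c _ => ?_
        simp only [← key, Finset.prod_mul_distrib, pcoef, Sys.feat]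
        ring
    _ = (s * x i * coef G i.val) ^ 2 * ∏ p : Word G i.val, movl P U w p.1 σ τ := by
        rw [← Finset.mul_sum]
        simp only [e]
        rw [Fintype.prod_sum]
    _ = _ := by
        rw [Fintype.prod_sigma]
        simp

lemma sum_quarter_le : ∀ L : ℕ, ∑ i : Fin L, (1 / 4 : ℝ) ^ (i.val + 1) ≤ 1 / 3
  | 0 => by simp
  | L + 1 => by
    rw [Fin.sum_univ_succ]
    have h := sum_quarter_le L
    have e : ∑ i : Fin L, (1 / 4 : ℝ) ^ (i.succ.val + 1) =
        1 / 4 * ∑ i : Fin L, (1 / 4 : ℝ) ^ (i.val + 1) := by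
      rw [Finset.mul_sum]
      exact Finset.sum_congr rfl fun i _ => by rw [Fin.val_succ, pow_succ' _ (i.val + 1)]
    rw [e, Fin.val_zero, zero_add, pow_one]
    linarith

/-- A masked diagonal overlap against the full one. -/
lemma mask_gap (P : Sys N G) (hν : (N : ℝ) ≤ P.ν) (hN : 0 < P.ν) (U : OG N) (m : Fin N → ℝ)
    (hm : ∀ i, m i ∈ Set.Icc (0 : ℝ) 1) (g : Fin G) (σ : Cube N) :
    0 ≤ movl P U m g σ σ ∧ movl P U m g σ σ ≤ movl P U (fun _ => 1) g σ σ ∧
      movl P U (fun _ => 1) g σ σ ≤ 1 ∧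
      movl P U (fun _ => 1) g σ σ - movl P U m g σ σ ≤
        (∑ i, (1 - m i) * rot U σ i ^ 2) / P.ν := by
  simp only [movl, one_mul, ← pow_two]
  refine ⟨div_nonneg (Finset.sum_nonneg fun i _ => mul_nonneg (hm i).1 (sq_nonneg _)) hN.le,
    div_le_div_of_nonneg_right (Finset.sum_le_sum fun i _ =>
      mul_le_of_le_one_left (sq_nonneg _) (hm i).2) hN.le,
    (div_le_one hN).2 ((sum_block_le U σ _).trans hν), ?_⟩
  rw [← sub_div, ← Finset.sum_sub_distrib]
  refine div_le_div_of_nonneg_right ?_ hN.le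
  calc ∑ i ∈ P.S g, (rot U σ i ^ 2 - m i * rot U σ i ^ 2)
      = ∑ i ∈ P.S g, (1 - m i) * rot U σ i ^ 2 := Finset.sum_congr rfl fun i _ => by ring
    _ ≤ _ := Finset.sum_le_sum_of_subset_of_nonneg (Finset.subset_univ _) fun i _ _ =>
        mul_nonneg (sub_nonneg.2 (hm i).2) (sq_nonneg _)

/-- One monomial: its total degree is absorbed by its coefficient. -/
lemma term_le {s y : ℝ} (hy : |y| ≤ 3) (G i : ℕ) (o q : Fin G → ℝ) (D : ℝ) (hD : 0 ≤ D)
    (h : ∀ g, 0 ≤ q g ∧ q g ≤ o g ∧ o g ≤ 1 ∧ o g - q g ≤ D) :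
    (s * y * coef G i) ^ 2 * ((∏ g, o g ^ mexp G i g) - ∏ g, q g ^ mexp G i g) ≤
      9 * s ^ 2 * D * (1 / 4) ^ (i + 1) := by
  have hp : ∀ (T : Finset (Word G i)), 0 ≤ ∏ p ∈ T, q p.1 ∧
      (∏ p ∈ T, q p.1) ≤ ∏ p ∈ T, o p.1 ∧ (∏ p ∈ T, o p.1) ≤ 1 ∧
      (∏ p ∈ T, o p.1) - ∏ p ∈ T, q p.1 ≤ T.card * D := by
    classical
    intro T
    induction T using Finset.induction_on with
    | empty => simp
    | insert p T hpT ih =>
      rw [Finset.prod_insert hpT, Finset.prod_insert hpT, Finset.card_insert_of_notMem hpT]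
      obtain ⟨i0, i1, i2, i3⟩ := ih
      obtain ⟨g0, g1, g2, g3⟩ := h p.1
      refine ⟨mul_nonneg g0 i0, mul_le_mul g1 i1 i0 (g0.trans g1),
        mul_le_one₀ g2 (i0.trans i1) i2, ?_⟩
      push_cast
      nlinarith [mul_le_mul_of_nonneg_left i3 (g0.trans g1),
        mul_le_mul_of_nonneg_right g3 i0, mul_le_mul_of_nonneg_left i3 hD,
        mul_le_mul_of_nonneg_right g2 (sub_nonneg.2 i1),
        mul_le_mul_of_nonneg_left (i1.trans i2) hD]
  obtain ⟨-, -, -, h4⟩ := hp Finset.univ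
  have e : ∀ v : Fin G → ℝ, ∏ g, v g ^ mexp G i g = ∏ p : Word G i, v p.1 := fun v => by
    rw [Fintype.prod_sigma]; simp
  rw [e o, e q]
  have hc : ((Finset.univ : Finset (Word G i)).card : ℝ) = (∑ g, mexp G i g : ℕ) := by simp
  rw [hc] at h4
  set n : ℝ := ((∑ g, mexp G i g : ℕ) : ℝ) with hn
  have hn0 : 0 ≤ n := Nat.cast_nonneg _
  have hy2 : y ^ 2 ≤ 9 := by nlinarith [abs_le.1 hy]
  have hcn : coef G i ^ 2 * n ≤ (1 / 4) ^ (i + 1) := by
    rw [coef, ← hn, div_pow, ← pow_mul, mul_comm (i + 1) 2, pow_mul, div_mul_eq_mul_div,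
      div_le_iff₀ (by positivity)]
    rw [show ((1 : ℝ) / 2) ^ 2 = 1 / 4 by norm_num]
    nlinarith [pow_pos (by norm_num : (0 : ℝ) < 1 / 4) (i + 1), sq_nonneg n]
  calc (s * y * coef G i) ^ 2 * ((∏ p : Word G i, o p.1) - ∏ p : Word G i, q p.1)
      ≤ (s * y * coef G i) ^ 2 * (n * D) := mul_le_mul_of_nonneg_left h4 (sq_nonneg _)
    _ = s ^ 2 * D * y ^ 2 * (coef G i ^ 2 * n) := by ring
    _ ≤ s ^ 2 * D * 9 * (1 / 4) ^ (i + 1) := mul_le_mul
        (mul_le_mul_of_nonneg_left hy2 (mul_nonneg (sq_nonneg s) hD)) hcn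
        (mul_nonneg (sq_nonneg _) hn0) (by positivity)
    _ = _ := by ring

/-- The mean log-partition function of any configurations carried to the cube. -/
def Fig (P : Sys N G) (s : ℝ) (x : Fin L → ℝ) (U : OG N) (π : X → Cube N) (A : X → ℝ) : ℝ :=
  ∫ J, (logZ fun a => A a + P.pert s x U J (π a)) ∂gam (PIdx G N L)

lemma Fig_mono (P : Sys N G) (s : ℝ) (x : Fin L → ℝ) (U : OG N) (π : X → Cube N) {A A' : X → ℝ}
    (h : ∀ a, A a ≤ A' a) : Fig P s x U π A ≤ Fig P s x U π A' := by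
  unfold Fig
  simp only [pert_eq_field]
  exact integral_mono (Vale.Agent.P168.Limit.SelfAvg.integrable_logZ_field A fun a => pcoef P s x U (π a))
    (Vale.Agent.P168.Limit.SelfAvg.integrable_logZ_field A' fun a => pcoef P s x U (π a))
    fun J => logZ_mono fun a => add_le_add (h a) le_rfl

/-- Two systems agreeing under masks differ by a tilt carried by the masked coordinates. -/
theorem Fig_compare (P : Sys N G) (P' : Sys N' G) (hν : (N : ℝ) ≤ P.ν) (_hν' : (N' : ℝ) ≤ P'.ν)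
    (hN : 0 < P.ν) (hN' : 0 < P'.ν) (s : ℝ) (x : Fin L → ℝ) (hx : ∀ i, |x i| ≤ 3)
    (U : OG N) (U' : OG N') (π : X → Cube N) (π' : X → Cube N') (m : Fin N → ℝ) (m' : Fin N' → ℝ)
    (hm : ∀ i, m i ∈ Set.Icc (0 : ℝ) 1) (hm' : ∀ i, m' i ∈ Set.Icc (0 : ℝ) 1)
    (hcore : ∀ g a b, movl P U m g (π a) (π b) = movl P' U' m' g (π' a) (π' b)) (A : X → ℝ) :
    Fig P s x U π A ≤ Fig P' s x U' π'
      fun a => A a + 2 * s ^ 2 / P.ν * ∑ i, (1 - m i) * rot U (π a) i ^ 2 := by
  classical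
  set r : (c : PIdx G N L) → ℝ := fun c => ∏ p, m (c.2 p) with hr
  set r' : (c : PIdx G N' L) → ℝ := fun c => ∏ p, m' (c.2 p) with hr'
  have hr01 : ∀ c, r c ∈ Set.Icc (0 : ℝ) 1 := fun c =>
    ⟨Finset.prod_nonneg fun p _ => (hm _).1,
      Finset.prod_le_one (fun p _ => (hm _).1) fun p _ => (hm _).2⟩
  have hr01' : ∀ c, r' c ∈ Set.Icc (0 : ℝ) 1 := fun c =>
    ⟨Finset.prod_nonneg fun p _ => (hm' _).1,
      Finset.prod_le_one (fun p _ => (hm' _).1) fun p _ => (hm' _).2⟩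
  set φ₀ : X → PIdx G N L → ℝ := fun a c => Real.sqrt (r c) * pcoef P s x U (π a) c with hφ₀
  set ψ₁ : X → PIdx G N L → ℝ := fun a c => Real.sqrt (1 - r c) * pcoef P s x U (π a) c with hψ₁
  set ψ₂ : X → PIdx G N' L → ℝ :=
    fun a c => Real.sqrt (1 - r' c) * pcoef P' s x U' (π' a) c with hψ₂
  have h₀ : ∀ a b, ∑ c, φ₀ a c * φ₀ b c =
      ∑ c, (pcoef P s x U (π a) c * pcoef P s x U (π b) c) * r c := fun a b =>
    Finset.sum_congr rfl fun c _ => by
      rw [hφ₀, mul_mul_mul_comm, Real.mul_self_sqrt (hr01 c).1]; ring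
  have h₁ : ∀ a b, ∑ c, pcoef P s x U (π a) c * pcoef P s x U (π b) c =
      ∑ c, φ₀ a c * φ₀ b c + ∑ c, ψ₁ a c * ψ₁ b c := fun a b => by
    rw [h₀, ← Finset.sum_add_distrib]
    refine Finset.sum_congr rfl fun c _ => ?_
    simp only [hψ₁]
    rw [mul_mul_mul_comm, Real.mul_self_sqrt (sub_nonneg.2 (hr01 c).2)]
    ring
  have h₂ : ∀ a b, ∑ c, pcoef P' s x U' (π' a) c * pcoef P' s x U' (π' b) c =
      ∑ c, φ₀ a c * φ₀ b c + ∑ c, ψ₂ a c * ψ₂ b c := fun a b => by
    have e : ∑ c, φ₀ a c * φ₀ b c =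
        ∑ c, (pcoef P' s x U' (π' a) c * pcoef P' s x U' (π' b) c) * r' c := by
      rw [h₀, pcov_filter P (le_of_lt hN), pcov_filter P' (le_of_lt hN')]
      simp only [hcore]
    rw [e, ← Finset.sum_add_distrib]
    refine Finset.sum_congr rfl fun c _ => ?_
    simp only [hψ₂]
    rw [mul_mul_mul_comm, Real.mul_self_sqrt (sub_nonneg.2 (hr01' c).2)]
    ring
  have hv : ∀ a, (∑ c, ψ₁ a c ^ 2) / 2 ≤
      2 * s ^ 2 / P.ν * ∑ i, (1 - m i) * rot U (π a) i ^ 2 := by
    intro a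
    have e : ∑ c, ψ₁ a c ^ 2 = ∑ i : Fin L, (s * x i * coef G i.val) ^ 2 *
        ((∏ g, movl P U (fun _ => 1) g (π a) (π a) ^ mexp G i.val g) -
          ∏ g, movl P U m g (π a) (π a) ^ mexp G i.val g) := by
      simp only [mul_sub, Finset.sum_sub_distrib, ← pcov_filter P (le_of_lt hN)]
      rw [← Finset.sum_sub_distrib]
      refine Finset.sum_congr rfl fun c _ => ?_
      simp only [hψ₁, mul_pow, Real.sq_sqrt (sub_nonneg.2 (hr01 c).2)]
      simp only [hr]
      simp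
      ring
    set D := (∑ i, (1 - m i) * rot U (π a) i ^ 2) / P.ν with hD
    have hD0 : 0 ≤ D := div_nonneg (Finset.sum_nonneg fun i _ =>
      mul_nonneg (sub_nonneg.2 (hm i).2) (sq_nonneg _)) hN.le
    rw [e, show 2 * s ^ 2 / P.ν * ∑ i, (1 - m i) * rot U (π a) i ^ 2 = 2 * s ^ 2 * D by
      rw [hD]; ring]
    have hb := fun g => mask_gap P hν hN U m hm g (π a)
    calc (∑ i : Fin L, (s * x i * coef G i.val) ^ 2 *
            ((∏ g, movl P U (fun _ => 1) g (π a) (π a) ^ mexp G i.val g) -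
              ∏ g, movl P U m g (π a) (π a) ^ mexp G i.val g)) / 2
        ≤ (∑ i : Fin L, 9 * s ^ 2 * D * (1 / 4) ^ (i.val + 1)) / 2 := by
          refine div_le_div_of_nonneg_right (Finset.sum_le_sum fun i _ => ?_) zero_le_two
          exact term_le (hx i) G i.val _ _ D hD0 hb
      _ ≤ 2 * s ^ 2 * D := by
          rw [← Finset.mul_sum]
          nlinarith [sum_quarter_le L, mul_nonneg (sq_nonneg s) hD0,
            mul_le_mul_of_nonneg_left (sum_quarter_le L)
              (mul_nonneg (by positivity : (0 : ℝ) ≤ 9 * s ^ 2) hD0)]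
  refine le_trans ?_ (Fig_mono P' s x U' π' fun a => add_le_add le_rfl (hv a))
  unfold Fig
  simp only [pert_eq_field]
  exact field_le A (fun a => pcoef P s x U (π a)) (fun a => pcoef P' s x U' (π' a)) φ₀ ψ₁ ψ₂
    h₁ h₂

end Vale.Agent.P166.Haar2.Cavity
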