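import Vale.Agent.P166.Haar2.Cavity.Blocks

/-!
A function squeezed between small tilts of the cavity weight has almost its mean.
-/

noncomputable section

open MeasureTheory ProbabilityTheory
open scoped BigOperators

namespace Vale.Agent.P166.Haar2.Cavity

open Vale.Agent.P157 (gam)
open Vale.Agent.P157.Parisi (Cube)

variable {N G L K : ℕ}

/-- The bound of the second moment. -/
def momBd (K : ℕ) (c : ℝ) : ℝ := 96 * (K + 1) / c

/-- The bound of the tilted weight. -/
def tiltBd (K : ℕ) (c η : ℝ) (θ b : Fin (K + 1) → ℝ) (κ : ℝ) : ℝ :=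
  3 * Real.exp ((∑ j, b j ^ 2) / (4 * η) + 1 / 2) + (∑ j, |θ j|) * momBd K c + κ + 1

/-- The slope in `pinch_mean`. -/
def pinchBd (K : ℕ) (c η : ℝ) (θ b : Fin (K + 1) → ℝ) (κ B m : ℝ) : ℝ :=
  1 + momBd K c + (tiltBd K c η θ b κ + 3 + |B| + |m|) / η

variable (P : Sys N G) (s : ℝ) (x : Fin L → ℝ) {T : Finset (Fin N)} (f : Fin (K + 1) → Fin N)
  {c η : ℝ} (θ b : Fin (K + 1) → ℝ) {κ : ℝ} (lin : Bool) (k : ℕ)

lemma integrable_Fi0 : Integrable (fun U => Fi P s x U fun _ => 0) (orthHaar N) :=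
  integrable_Fi P s x (orthHaar N) id measurable_id (fun _ _ => (0 : ℝ))
    (fun _ => measurable_const) (fun _ => (0 : ℝ)) (integrable_const _) fun _ _ => by simp

lemma integrable_Fi_Qc (e : ℝ) :
    Integrable (fun U => Fi P s x U fun σ => e * Qc f U σ) (orthHaar N) :=
  integrable_Fi P s x (orthHaar N) id measurable_id (fun U σ => e * Qc f U σ)
    (fun σ => (continuous_Qc f σ).measurable.const_mul e) (fun _ => |e| * ((K + 1 : ℝ) * N))
    (integrable_const _) fun U σ => by
      rw [abs_mul, abs_of_nonneg (Qc_nonneg f U σ)]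
      exact mul_le_mul_of_nonneg_left (Qc_le f U σ) (abs_nonneg e)

/-- A small positive tilt costs a constant. -/
lemma plain_up (hν : 0 ≤ P.ν) (hT : Uniform P T) (hf : ∀ j, f j ∈ T) (hcard : c * N ≤ T.card)
    {e : ℝ} (he : 0 ≤ e) (hec : e * (K + 1) ≤ c / 32) :
    ∫ U, Fi P s x U (fun σ => e * Qc f U σ) ∂orthHaar N ≤ P.free s x (unifBase N) + 3 := by
  have h := integral_mono ((integrable_Fi_Qc P s x f e).sub (integrable_Fi0 P s x))
    (integrable_Gm_Qc P s x f e).1
    fun U => (sub_le_Gm P s x U fun σ => e * Qc f U σ).trans (sub_le_self _ zero_le_one)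
  simp only [Pi.sub_apply] at h
  rw [integral_sub (integrable_Fi_Qc P s x f e) (integrable_Fi0 P s x), ← free_eq] at h
  linarith [coords_exp P hν s x hT f hf hcard he hec]

/-- The weight with a small positive tilt costs a constant. -/
lemma Lw_up (hν : 0 ≤ P.ν) (hT : Uniform P T) (hf : ∀ j, f j ∈ T) (hcard : c * N ≤ T.card)
    (hη : 0 < η) (hηc : 2 * η * (K + 1) ≤ c / 32) (hθ : ∀ j, 0 ≤ θ j) (hκ : 0 ≤ κ) :
    ∫ g, ∫ U, Fi P s x U (fun σ => Lw θ b κ lin f g U σ + η * Qc f U σ) ∂orthHaar N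
        ∂gam (TIdx N k) ≤
      P.free s x (unifBase N) + 3 * Real.exp ((∑ j, b j ^ 2) / (4 * η) + 1 / 2) := by
  set C := (∑ j, b j ^ 2) / (4 * η) + 1 / 2 with hC
  have hi := integrable_Fi_Lw P s x θ b κ lin hθ hκ k f η
  have hR : Integrable (fun U => Fi P s x U (fun _ => 0) +
      Real.exp C * Gm P s x U fun σ => Real.exp (2 * η * Qc f U σ)) (orthHaar N) :=
    (integrable_Fi0 P s x).add ((integrable_Gm_Qc P s x f (2 * η)).1.const_mul _)
  have h : ∀ (g : TIdx N k → ℝ) (U : OG N), Fi P s x U (fun σ => Lw θ b κ lin f g U σ + η * Qc f U σ) ≤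
      Fi P s x U (fun _ => 0) +
        Real.exp C * Gm P s x U fun σ => Real.exp (2 * η * Qc f U σ) := by
    intro g U
    have h1 := sub_le_Gm P s x U fun σ => Lw θ b κ lin f g U σ + η * Qc f U σ
    have h2 : Gm P s x U (fun σ => Real.exp (Lw θ b κ lin f g U σ + η * Qc f U σ)) ≤
        Real.exp C * Gm P s x U fun σ => Real.exp (2 * η * Qc f U σ) := by
      rw [← Gm_const_mul]
      refine Gm_mono P s x U fun σ => ?_
      rw [← Real.exp_add]
      exact Real.exp_le_exp.2 (by rw [hC]; linarith [Lw_le θ b κ lin hθ hκ hη f g U σ])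
    linarith
  have h2 : ∀ᵐ g ∂gam (TIdx N k),
      ∫ U, Fi P s x U (fun σ => Lw θ b κ lin f g U σ + η * Qc f U σ) ∂orthHaar N ≤
        P.free s x (unifBase N) + Real.exp C * 3 := by
    filter_upwards [hi.prod_right_ae] with g hg
    refine (integral_mono hg hR (h g)).trans ?_
    rw [integral_add (integrable_Fi0 P s x) ((integrable_Gm_Qc P s x f (2 * η)).1.const_mul _),
      ← free_eq, integral_const_mul]
    exact add_le_add le_rfl (mul_le_mul_of_nonneg_left
      (coords_exp P hν s x hT f hf hcard (by positivity) hηc) (Real.exp_pos C).le)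
  refine (integral_mono_ae hi.integral_prod_left (integrable_const _) h2).trans ?_
  simp [mul_comm (Real.exp C)]

/-- The weight with a negative tilt loses at most linearly. -/
lemma Lw_down (hN : 0 < N) (hν : 0 ≤ P.ν) (hT : Uniform P T) (hf : ∀ j, f j ∈ T) (hc : 0 < c)
    (hcard : c * N ≤ T.card) (hθ : ∀ j, 0 ≤ θ j) (hκ : 0 ≤ κ) {e : ℝ} (he : 0 ≤ e) :
    P.free s x (unifBase N) - ((∑ j, |θ j|) + e) * momBd K c - κ - 1 / 2 ≤
      ∫ g, ∫ U, Fi P s x U (fun σ => Lw θ b κ lin f g U σ + -e * Qc f U σ) ∂orthHaar N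
        ∂gam (TIdx N k) := by
  set μ := orthHaar N
  set γ := gam (TIdx N k)
  set S := (∑ j, |θ j|) + e with hS
  have hS0 : 0 ≤ S := add_nonneg (Finset.sum_nonneg fun j _ => abs_nonneg _) he
  have hi := integrable_Fi_Lw P s x θ b κ lin hθ hκ k f (-e)
  have hZ : Integrable (Function.uncurry fun (g : TIdx N k → ℝ) U =>
      Gm P s x U fun σ => testZ g σ ^ 2) (γ.prod μ) :=
    integrable_Gm P s x (γ.prod μ) Prod.snd measurable_snd (fun q σ => testZ q.1 σ ^ 2)
      (fun σ => ((measurable_testZ σ).comp measurable_fst).pow_const 2) (fun q => Zb q.1)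
      ((integrable_Zb k).comp_fst _) fun q σ => by
        rw [abs_of_nonneg (sq_nonneg _)]; exact testZ_sq_le_Zb _ _
  have hZ1 : ∫ g, ∫ U, Gm P s x U (fun σ => testZ g σ ^ 2) ∂μ ∂γ = 1 := by
    rw [integral_integral_swap hZ]
    have : ∀ U, ∫ g, Gm P s x U (fun σ => testZ g σ ^ 2) ∂γ = 1 := fun U => by
      simp only [Gm_eq_sum]
      rw [integral_finsetSum _ fun σ _ => ?_]
      · simp only [integral_const_mul, γ, integral_testZ_sq hN, mul_one, sum_pw]
      · exact ((integrable_Zb k).mono' ((measurable_testZ σ).pow_const 2).aestronglyMeasurable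
          (ae_of_all _ fun g => by
            rw [Real.norm_eq_abs, abs_of_nonneg (sq_nonneg _)]
            exact testZ_sq_le_Zb g σ)).const_mul _
    simp [this]
  have hg1 := (integrable_Gm_Qc P s x f 0).2
  have h : ∀ (g : TIdx N k → ℝ) (U : OG N), Fi P s x U (fun _ => 0) - S * Gm P s x U (Qc f U) -
      κ * Gm P s x U (fun σ => testZ g σ ^ 2) - 1 / 2 ≤
      Fi P s x U fun σ => Lw θ b κ lin f g U σ + -e * Qc f U σ := by
    intro g U
    have h1 := Gm_le_sub P s x U fun σ => Lw θ b κ lin f g U σ + -e * Qc f U σ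
    have h2 : -1 * (S * Gm P s x U (Qc f U) + κ * Gm P s x U (fun σ => testZ g σ ^ 2) + 1 / 2) ≤
        Gm P s x U fun σ => Lw θ b κ lin f g U σ + -e * Qc f U σ := by
      conv_lhs => rw [← Gm_const_mul, ← Gm_const_mul, ← Gm_const P s x U (1 / 2), ← Gm_add,
        ← Gm_add, ← Gm_const_mul]
      refine Gm_mono P s x U fun σ => ?_
      have := le_Lw θ b κ lin hκ f g U σ
      simp only [hS, add_mul]
      linarith
    linarith
  have hI : Integrable (fun q : (TIdx N k → ℝ) × OG N => Fi P s x q.2 (fun _ => 0) -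
      S * Gm P s x q.2 (Qc f q.2) - κ * Gm P s x q.2 (fun σ => testZ q.1 σ ^ 2) - 1 / 2)
      (γ.prod μ) :=
    ((((integrable_Fi0 P s x).comp_snd γ).sub ((hg1.comp_snd γ).const_mul S)).sub
      (hZ.const_mul κ)).sub (integrable_const _)
  have h3 := integral_mono hI hi fun q => h q.1 q.2
  have i1 := (integrable_Fi0 P s x).comp_snd γ
  have i2 := (hg1.comp_snd γ).const_mul S
  rw [integral_sub, integral_sub, integral_sub, integral_const_mul, integral_const_mul,
    integral_fun_snd (fun U => Fi P s x U fun _ => 0),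
    integral_fun_snd (fun U => Gm P s x U (Qc f U)), ← free_eq, integral_prod _ hi,
    show (∫ q : (TIdx N k → ℝ) × OG N, Gm P s x q.2 (fun σ => testZ q.1 σ ^ 2) ∂γ.prod μ) = 1 from
      (integral_prod _ hZ).trans hZ1] at h3
  rotate_left
  · exact i1
  · exact i2
  · exact i1.sub i2
  · exact hZ.const_mul κ
  · exact (i1.sub i2).sub (hZ.const_mul κ)
  · exact integrable_const _
  simp only [integral_const, probReal_univ, one_smul, mul_one] at h3
  have h4 := mul_le_mul_of_nonneg_left (coords_sq P hν s x hT f hf hc hcard) hS0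
  rw [momBd]
  linarith

/-- A function squeezed between tilts of the weight, with a crude upper bound. -/
theorem pinch_mean (hN : 0 < N) (hν : 0 ≤ P.ν) (hT : Uniform P T) (hf : ∀ j, f j ∈ T)
    (hc : 0 < c) (hcard : c * N ≤ T.card) (hη : 0 < η) (hηc : 2 * η * (K + 1) ≤ c / 32)
    (hθ : ∀ j, 0 ≤ θ j) (hκ : 0 ≤ κ) {ε e m B : ℝ} (hε : 0 ≤ ε) (he : 0 ≤ e) (heη : e ≤ η)
    (F : (TIdx N k → ℝ) → OG N → ℝ)
    (hF : Integrable (fun q : (TIdx N k → ℝ) × OG N => F q.1 q.2)
      ((gam (TIdx N k)).prod (orthHaar N)))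
    (hlo : ∀ g U, Fi P s x U (fun σ => Lw θ b κ lin f g U σ + -ε * Qc f U σ) + m - ε ≤ F g U)
    (hup : ∀ g U, F g U ≤ Fi P s x U (fun σ => Lw θ b κ lin f g U σ + ε * Qc f U σ) + m + ε)
    (hcr : ∀ g U, F g U ≤ Fi P s x U (fun σ => e * Qc f U σ) + B) :
    |(∫ g, ∫ U, F g U ∂orthHaar N ∂gam (TIdx N k)) -
      (P.freshLog s x (unifBase N) k f (stepX θ b κ lin) + P.free s x (unifBase N) + m)| ≤
      ε * pinchBd K c η θ b κ B m := by
  set μ := orthHaar N
  set γ := gam (TIdx N k)
  rw [freshLog_eq P s x θ b κ lin hθ hκ k f]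
  have iL := fun v => integrable_Fi_Lw P s x θ b κ lin hθ hκ k f v
  have i0 := iL 0
  simp only [zero_mul, add_zero] at i0
  rw [← integral_prod _ i0]
  have hη2 := Lw_up P s x f θ b lin k hν hT hf hcard hη hηc hθ hκ
  have h0 := Lw_down P s x f θ b lin k hN hν hT hf hc hcard hθ hκ le_rfl (e := 0)
  have hd := Lw_down P s x f θ b lin k hN hν hT hf hc hcard hθ hκ hε
  simp only [neg_zero, zero_mul, add_zero] at h0
  rw [← integral_prod _ (iL η)] at hη2
  rw [← integral_prod _ i0] at h0
  rw [← integral_prod _ (iL (-ε))] at hd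
  rw [← integral_prod (fun q : (TIdx N k → ℝ) × OG N => F q.1 q.2) hF]
  set IF := ∫ q : (TIdx N k → ℝ) × OG N, F q.1 q.2 ∂γ.prod μ
  set I0 := ∫ q : (TIdx N k → ℝ) × OG N, Fi P s x q.2 (Lw θ b κ lin f q.1 q.2) ∂γ.prod μ
  set Iη := ∫ q : (TIdx N k → ℝ) × OG N,
    Fi P s x q.2 (fun σ => Lw θ b κ lin f q.1 q.2 σ + η * Qc f q.2 σ) ∂γ.prod μ
  set Im := ∫ q : (TIdx N k → ℝ) × OG N,
    Fi P s x q.2 (fun σ => Lw θ b κ lin f q.1 q.2 σ + -ε * Qc f q.2 σ) ∂γ.prod μ
  set fr := P.free s x (unifBase N)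
  have hlo' : Im + m - ε ≤ IF := by
    have h := integral_mono (((iL (-ε)).add (integrable_const m)).sub (integrable_const ε)) hF
      fun q => hlo q.1 q.2
    simp only [Pi.sub_apply, Pi.add_apply] at h
    rw [integral_sub, integral_add] at h
    · simp only [integral_const, probReal_univ, one_smul] at h
      exact h
    · exact iL (-ε)
    · exact integrable_const m
    · exact (iL (-ε)).add (integrable_const m)
    · exact integrable_const ε
  have hcr' : IF ≤ fr + 3 + B := by
    have hec : e * (K + 1 : ℝ) ≤ c / 32 := by nlinarith [Nat.cast_nonneg (α := ℝ) K]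
    have h := integral_mono hF (((integrable_Fi_Qc P s x f e).comp_snd γ).add (integrable_const B))
      fun q => hcr q.1 q.2
    simp only [Pi.add_apply] at h
    rw [integral_add ((integrable_Fi_Qc P s x f e).comp_snd γ) (integrable_const B),
      integral_fun_snd (fun U => Fi P s x U fun σ => e * Qc f U σ)] at h
    simp only [integral_const, probReal_univ, one_smul] at h
    linarith [plain_up P s x f hν hT hf hcard he hec]
  have hM : 0 ≤ momBd K c := by unfold momBd; positivity
  have hT0 : 0 ≤ (∑ j, |θ j|) * momBd K c :=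
    mul_nonneg (Finset.sum_nonneg fun j _ => abs_nonneg _) hM
  set tb := tiltBd K c η θ b κ with htb
  have hgap : Iη - I0 ≤ tb := by
    simp only [htb, tiltBd]
    linarith
  have htb0 : 0 ≤ tb := by
    simp only [htb, tiltBd]
    linarith [Real.exp_pos ((∑ j, b j ^ 2) / (4 * η) + 1 / 2)]
  have hB0 := abs_nonneg B
  have hm0 := abs_nonneg m
  have hbd : ε * pinchBd K c η θ b κ B m =
      ε + ε * momBd K c + ε / η * tb + ε / η * (3 + |B| + |m|) := by
    rw [pinchBd, ← htb]; ring
  rw [hbd]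
  by_cases hεη : ε ≤ η
  · have hr : 0 ≤ ε / η := div_nonneg hε hη.le
    have u1 : ∀ q : (TIdx N k → ℝ) × OG N, F q.1 q.2 ≤
        Fi P s x q.2 (Lw θ b κ lin f q.1 q.2) + ε / η * (Fi P s x q.2
          (fun σ => Lw θ b κ lin f q.1 q.2 σ + η * Qc f q.2 σ) -
            Fi P s x q.2 (Lw θ b κ lin f q.1 q.2)) + (m + ε) := fun q => by
      linarith [hup q.1 q.2, (Fi_tilt_small P s x q.2 (Lw θ b κ lin f q.1 q.2) (Qc f q.2) hε hεη
        hη).1]
    have l1 : ∀ q : (TIdx N k → ℝ) × OG N,
        Fi P s x q.2 (Lw θ b κ lin f q.1 q.2) - ε / η * (Fi P s x q.2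
          (fun σ => Lw θ b κ lin f q.1 q.2 σ + η * Qc f q.2 σ) -
            Fi P s x q.2 (Lw θ b κ lin f q.1 q.2)) + (m - ε) ≤ F q.1 q.2 := fun q => by
      have := (Fi_tilt_small P s x q.2 (Lw θ b κ lin f q.1 q.2) (Qc f q.2) hε hεη hη).2
      simp only [sub_eq_add_neg, ← neg_mul] at this
      linarith [hlo q.1 q.2]
    have iu := ((iL η).sub i0).const_mul (ε / η)
    have hU := integral_mono hF ((i0.add iu).add (integrable_const (m + ε))) u1
    have hL := integral_mono ((i0.sub iu).add (integrable_const (m - ε))) hF l1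
    simp only [Pi.add_apply, Pi.sub_apply] at hU hL iu
    rw [integral_add, integral_add, integral_const_mul, integral_sub (iL η) i0] at hU
    rotate_left
    · exact i0
    · exact iu
    · exact i0.add iu
    · exact integrable_const _
    rw [integral_add, integral_sub, integral_const_mul, integral_sub (iL η) i0] at hL
    rotate_left
    · exact i0
    · exact iu
    · exact i0.sub iu
    · exact integrable_const _
    simp only [integral_const, probReal_univ, one_smul] at hU hL
    have h5 := mul_le_mul_of_nonneg_left hgap hr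
    have h6 := mul_nonneg hε hM
    have h7 : 0 ≤ ε / η * (3 + |B| + |m|) := by positivity
    rw [abs_le]
    constructor <;> linarith
  · have hr : 1 ≤ ε / η := (one_le_div hη).2 (not_le.1 hεη).le
    have h8 := le_mul_of_one_le_left htb0 hr
    have h9 : 3 + |B| + |m| ≤ ε / η * (3 + |B| + |m|) :=
      le_mul_of_one_le_left (by linarith) hr
    have hup0 : I0 ≤ fr + 3 * Real.exp ((∑ j, b j ^ 2) / (4 * η) + 1 / 2) := by
      refine le_trans (integral_mono i0 (iL η) fun q => Fi_mono P s x q.2 fun σ => ?_) hη2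
      exact le_add_of_nonneg_right (mul_nonneg hη.le (Qc_nonneg f q.2 σ))
    simp only [htb, tiltBd] at h8 ⊢
    rw [add_mul] at hd
    rw [abs_le]
    constructor <;> linarith [le_abs_self B, le_abs_self m, neg_abs_le m, mul_nonneg hε hM,
      Real.exp_pos ((∑ j, b j ^ 2) / (4 * η) + 1 / 2)]

end Vale.Agent.P166.Haar2.Cavity
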