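import Vale.Agent.P166.Haar2.Cavity.Fields

/-!
The free energy for a fixed rotation, annealed Gibbs averages, and the demotion weight.
-/

noncomputable section

open MeasureTheory ProbabilityTheory
open scoped BigOperators

namespace Vale.Agent.P166.Haar2.Cavity

open Vale.Agent.P157 (gam)
open Vale.Agent.P157.Parisi (Cube)
open Vale.Agent.P168.Limit (logZ gav gw)

variable {N G L K : ℕ}

/-- The energy without perturbation, with the uniform log-weight. -/
def base0 (P : Sys N G) (U : OG N) (σ : Cube N) : ℝ :=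
  1 / 2 * (∑ i, P.lam i * rot U σ i ^ 2) - N * Real.log 2

/-- The free energy at a fixed rotation, tilted by `δ`. -/
def Fi (P : Sys N G) (s : ℝ) (x : Fin L → ℝ) (U : OG N) (δ : Cube N → ℝ) : ℝ :=
  Fig P s x U id fun σ => base0 P U σ + δ σ

/-- The Gibbs average at a fixed rotation, averaged over the perturbation. -/
def Gm (P : Sys N G) (s : ℝ) (x : Fin L → ℝ) (U : OG N) (f : Cube N → ℝ) : ℝ :=
  ∫ J, gav (fun σ => base0 P U σ + P.pert s x U J σ) f ∂gam (PIdx G N L)

variable (P : Sys N G) (s : ℝ) (x : Fin L → ℝ)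

/-- The Gibbs weights at a fixed rotation, averaged over the perturbation. -/
def pw (U : OG N) (σ : Cube N) : ℝ :=
  ∫ J, gw (fun τ => base0 P U τ + P.pert s x U J τ) σ ∂gam (PIdx G N L)

lemma measurable_inner {Ω : Type*} [MeasurableSpace Ω] {u : Ω → OG N} (hu : Measurable u)
    (σ : Cube N) :
    Measurable fun q : Ω × (PIdx G N L → ℝ) =>
      base0 P (u q.1) σ + P.pert s x (u q.1) q.2 σ := by
  have h0 : Measurable fun q : Ω × (PIdx G N L → ℝ) => P.ham0 s x (u q.1) q.2 σ :=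
    Measurable.comp (g := fun q : OG N × (PIdx G N L → ℝ) => P.ham0 s x q.1 q.2 σ)
      (f := fun q : Ω × (PIdx G N L → ℝ) => (u q.1, q.2)) (measurable_ham0 P s x σ)
      ((hu.comp measurable_fst).prodMk measurable_snd)
  have e : (fun q : Ω × (PIdx G N L → ℝ) => base0 P (u q.1) σ + P.pert s x (u q.1) q.2 σ) =
      fun q => P.ham0 s x (u q.1) q.2 σ - N * Real.log 2 :=
    funext fun q => by simp only [base0, Sys.ham0]; ring
  rw [e]
  exact h0.sub_const _

lemma measurable_gw_inner {Ω : Type*} [MeasurableSpace Ω] {u : Ω → OG N} (hu : Measurable u)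
    (σ : Cube N) :
    Measurable fun q : Ω × (PIdx G N L → ℝ) =>
      gw (fun τ => base0 P (u q.1) τ + P.pert s x (u q.1) q.2 τ) σ :=
  (measurable_inner P s x hu σ).exp.div
    (Finset.measurable_sum _ fun τ _ => (measurable_inner P s x hu τ).exp)

lemma integrable_gw_inner (U : OG N) (σ : Cube N) :
    Integrable (fun J => gw (fun τ => base0 P U τ + P.pert s x U J τ) σ) (gam (PIdx G N L)) :=
  Integrable.of_bound ((measurable_gw_inner P s x (Ω := Unit) (u := fun _ => U) measurable_const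
    σ).comp ((measurable_const (a := ())).prodMk measurable_id)).aestronglyMeasurable 1
    (ae_of_all _ fun J => by
      rw [Real.norm_eq_abs, abs_of_nonneg (Vale.Agent.P168.Limit.gw_nonneg _ _)]
      exact Vale.Agent.P168.Limit.gw_le_one _ _)

lemma pw_nonneg (U : OG N) (σ : Cube N) : 0 ≤ pw P s x U σ :=
  integral_nonneg fun _ => Vale.Agent.P168.Limit.gw_nonneg _ _

lemma Gm_eq_sum (U : OG N) (f : Cube N → ℝ) : Gm P s x U f = ∑ σ, pw P s x U σ * f σ := by
  simp only [Gm, gav, pw]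
  rw [integral_finsetSum _ fun σ _ => (integrable_gw_inner P s x U σ).mul_const _]
  exact Finset.sum_congr rfl fun σ _ => integral_mul_const _ _

lemma sum_pw (U : OG N) : ∑ σ, pw P s x U σ = 1 := by
  simp only [pw]
  rw [← integral_finsetSum _ fun σ _ => integrable_gw_inner P s x U σ]
  simp [Vale.Agent.P168.Limit.sum_gw]

lemma integrable_Fig_inner (U : OG N) (δ : Cube N → ℝ) :
    Integrable (fun J => logZ fun σ => base0 P U σ + δ σ + P.pert s x U J σ)
      (gam (PIdx G N L)) := by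
  simp only [pert_eq_field]
  exact Vale.Agent.P168.Limit.SelfAvg.integrable_logZ_field (fun σ => base0 P U σ + δ σ) _

lemma Gm_mono (U : OG N) {f f' : Cube N → ℝ} (h : ∀ σ, f σ ≤ f' σ) :
    Gm P s x U f ≤ Gm P s x U f' := by
  rw [Gm_eq_sum, Gm_eq_sum]
  exact Finset.sum_le_sum fun σ _ => mul_le_mul_of_nonneg_left (h σ) (pw_nonneg P s x U σ)

lemma Gm_add (U : OG N) (f f' : Cube N → ℝ) :
    Gm P s x U (fun σ => f σ + f' σ) = Gm P s x U f + Gm P s x U f' := by
  simp only [Gm_eq_sum, mul_add, Finset.sum_add_distrib]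

lemma Gm_const_mul (U : OG N) (a : ℝ) (f : Cube N → ℝ) :
    Gm P s x U (fun σ => a * f σ) = a * Gm P s x U f := by
  simp only [Gm_eq_sum, Finset.mul_sum, mul_left_comm]

lemma Gm_const (U : OG N) (a : ℝ) : Gm P s x U (fun _ => a) = a := by
  rw [Gm_eq_sum, ← Finset.sum_mul, sum_pw, one_mul]

lemma Gm_le_sub (U : OG N) (δ : Cube N → ℝ) :
    Gm P s x U δ ≤ Fi P s x U δ - Fi P s x U (fun _ => 0) := by
  unfold Fi Fig
  simp only [id_eq, add_zero]
  rw [← integral_sub (integrable_Fig_inner P s x U δ)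
    (by simpa using integrable_Fig_inner P s x U fun _ => 0)]
  unfold Gm
  refine integral_mono (integrable_finsetSum _ fun σ _ =>
      (integrable_gw_inner P s x U σ).mul_const _)
    ((integrable_Fig_inner P s x U δ).sub (by simpa using integrable_Fig_inner P s x U fun _ => 0))
    fun J => ?_
  have h := Vale.Agent.P168.Limit.SelfAvg.gav_le_logZ_sub'
    (fun σ => base0 P U σ + P.pert s x U J σ) δ
  simp only [add_right_comm (base0 P U _) (δ _)]
  exact h

lemma sub_le_Gm (U : OG N) (δ : Cube N → ℝ) :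
    Fi P s x U δ - Fi P s x U (fun _ => 0) ≤ Gm P s x U (fun σ => Real.exp (δ σ)) - 1 := by
  unfold Fi Fig
  simp only [id_eq, add_zero]
  have i0 : Integrable (fun J => logZ fun σ => base0 P U σ + P.pert s x U J σ)
      (gam (PIdx G N L)) := by simpa using integrable_Fig_inner P s x U fun _ => 0
  have ig : Integrable (fun J => gav (fun σ => base0 P U σ + P.pert s x U J σ)
      fun σ => Real.exp (δ σ)) (gam (PIdx G N L)) :=
    integrable_finsetSum _ fun σ _ => (integrable_gw_inner P s x U σ).mul_const _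
  rw [← integral_sub (integrable_Fig_inner P s x U δ) i0]
  refine (integral_mono ((integrable_Fig_inner P s x U δ).sub i0)
    (ig.sub (integrable_const (1 : ℝ))) fun J => ?_).trans (le_of_eq ?_)
  · have h := Vale.Agent.P168.Limit.SelfAvg.logZ_tilt'
      (fun σ => base0 P U σ + P.pert s x U J σ) δ
    have h2 := Real.log_le_sub_one_of_pos (Vale.Agent.P168.Limit.gav_exp_pos
      (fun σ => base0 P U σ + P.pert s x U J σ) δ)
    simp only [Pi.sub_apply, add_right_comm (base0 P U _) (δ _)]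
    linarith
  · simp only [Pi.sub_apply]
    rw [integral_sub ig (integrable_const _)]
    simp [Gm]

lemma Fi_mono (U : OG N) {δ δ' : Cube N → ℝ} (h : ∀ σ, δ σ ≤ δ' σ) :
    Fi P s x U δ ≤ Fi P s x U δ' :=
  Fig_mono P s x U id fun σ => add_le_add le_rfl (h σ)

lemma Fi_add_const (U : OG N) (δ : Cube N → ℝ) (a : ℝ) :
    Fi P s x U (fun σ => δ σ + a) = Fi P s x U δ + a := by
  unfold Fi Fig
  have e : ∀ J, (logZ fun σ => base0 P U σ + (δ σ + a) + P.pert s x U J (id σ)) =
      (logZ fun σ => base0 P U σ + δ σ + P.pert s x U J (id σ)) + a := fun J => by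
    rw [← logZ_add_const]
    congr 1
    funext σ
    ring
  simp only [e]
  simp only [id_eq]
  rw [integral_add (integrable_Fig_inner P s x U δ) (integrable_const a)]
  simp

lemma Fi_tilt_small (U : OG N) (δ O : Cube N → ℝ) {e η : ℝ} (he : 0 ≤ e) (heη : e ≤ η)
    (hη : 0 < η) :
    Fi P s x U (fun σ => δ σ + e * O σ) - Fi P s x U δ ≤
        e / η * (Fi P s x U (fun σ => δ σ + η * O σ) - Fi P s x U δ) ∧
      Fi P s x U δ - Fi P s x U (fun σ => δ σ - e * O σ) ≤
        e / η * (Fi P s x U (fun σ => δ σ + η * O σ) - Fi P s x U δ) := by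
  have i1 := fun v => integrable_Fig_inner P s x U fun σ => δ σ + v * O σ
  have i0 := integrable_Fig_inner P s x U δ
  have i2 : Integrable (fun J => logZ fun σ => base0 P U σ + (δ σ - e * O σ) + P.pert s x U J σ)
      (gam (PIdx G N L)) := integrable_Fig_inner P s x U fun σ => δ σ - e * O σ
  have h := fun J => logZ_tilt_small (fun σ => base0 P U σ + δ σ + P.pert s x U J σ) O he heη hη
  have e1 : ∀ (v : ℝ) J, (fun σ => base0 P U σ + (δ σ + v * O σ) + P.pert s x U J σ) =
      fun σ => base0 P U σ + δ σ + P.pert s x U J σ + v * O σ :=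
    fun v J => funext fun σ => by ring
  have e2 : ∀ J, (fun σ => base0 P U σ + (δ σ - e * O σ) + P.pert s x U J σ) =
      fun σ => base0 P U σ + δ σ + P.pert s x U J σ - e * O σ :=
    fun J => funext fun σ => by ring
  unfold Fi Fig
  simp only [id_eq]
  constructor
  · rw [← integral_sub (i1 e) i0, ← integral_sub (i1 η) i0, ← integral_const_mul]
    refine integral_mono ((i1 e).sub i0) (((i1 η).sub i0).const_mul _) fun J => ?_
    rw [e1, e1]
    exact (h J).1
  · rw [← integral_sub i0 i2, ← integral_sub (i1 η) i0, ← integral_const_mul]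
    refine integral_mono (i0.sub i2) (((i1 η).sub i0).const_mul _) fun J => ?_
    rw [e1, e2]
    exact (h J).2

lemma integrable_Fi {Ω : Type*} [MeasurableSpace Ω] (μ : Measure Ω) [IsFiniteMeasure μ]
    (u : Ω → OG N) (hu : Measurable u) (δ : Ω → Cube N → ℝ)
    (hδ : ∀ σ, Measurable fun ω => δ ω σ) (b : Ω → ℝ) (hb : Integrable b μ)
    (h : ∀ ω σ, |δ ω σ| ≤ b ω) : Integrable (fun ω => Fi P s x (u ω) (δ ω)) μ := by
  set bd : Ω → (PIdx G N L → ℝ) → ℝ := fun ω J => |logZ (fun _ : Cube N => (0 : ℝ))| +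
    ((1 / 2 * ∑ i, |P.lam i| * N) + N * Real.log 2 +
      ∑ c, |J c| * (|s * x c.1 * coef G c.1.val| * featBd P c)) + b ω with hbd
  have iS : Integrable (fun J : PIdx G N L → ℝ =>
      ∑ c, |J c| * (|s * x c.1 * coef G c.1.val| * featBd P c)) (gam (PIdx G N L)) :=
    integrable_finsetSum _ fun c _ =>
      (Vale.Agent.P168.Toolkit.integrable_eval_gaussPi c).abs.mul_const _
  have ib : Integrable (fun q : Ω × (PIdx G N L → ℝ) => bd q.1 q.2)
      (μ.prod (gam (PIdx G N L))) :=
    ((((integrable_const (|logZ (fun _ : Cube N => (0 : ℝ))|)).add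
      ((integrable_const _).add (iS.comp_snd μ))))).add (hb.comp_fst _)
  have hm : Measurable fun q : Ω × (PIdx G N L → ℝ) =>
      logZ fun σ => base0 P (u q.1) σ + δ q.1 σ + P.pert s x (u q.1) q.2 σ := by
    unfold logZ
    refine (Finset.measurable_sum _ fun σ _ => Measurable.exp ?_).log
    simp only [add_right_comm (base0 P _ σ) (δ _ σ)]
    exact (measurable_inner P s x hu σ).add ((hδ σ).comp measurable_fst)
  have hbound : ∀ q : Ω × (PIdx G N L → ℝ),
      |logZ fun σ => base0 P (u q.1) σ + δ q.1 σ + P.pert s x (u q.1) q.2 σ| ≤ bd q.1 q.2 := by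
    intro q
    have h2 := Vale.Agent.P168.Limit.SelfAvg.abs_logZ_sub_le' (fun _ : Cube N => (0 : ℝ))
      (fun σ => base0 P (u q.1) σ + δ q.1 σ + P.pert s x (u q.1) q.2 σ)
      (c := bd q.1 q.2 - |logZ (fun _ : Cube N => (0 : ℝ))|) fun σ => by
        have a1 := abs_le.1 (abs_quad_le P (u q.1) σ)
        have a2 := abs_le.1 (abs_pert_le P s x (u q.1) q.2 σ)
        have a3 := abs_le.1 (h q.1 σ)
        have a4 : (0 : ℝ) ≤ N * Real.log 2 :=
          mul_nonneg N.cast_nonneg (Real.log_nonneg one_le_two)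
        simp only [hbd, base0]
        rw [abs_le]
        constructor <;> linarith
    simp only [zero_add] at h2
    linarith [abs_sub_abs_le_abs_sub
      (logZ fun σ => base0 P (u q.1) σ + δ q.1 σ + P.pert s x (u q.1) q.2 σ)
      (logZ fun _ : Cube N => (0 : ℝ))]
  have hi : Integrable (fun q : Ω × (PIdx G N L → ℝ) =>
      logZ fun σ => base0 P (u q.1) σ + δ q.1 σ + P.pert s x (u q.1) q.2 σ)
      (μ.prod (gam (PIdx G N L))) :=
    ib.mono' hm.aestronglyMeasurable (ae_of_all _ hbound)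
  exact hi.integral_prod_left

lemma integrable_Gm {Ω : Type*} [MeasurableSpace Ω] (μ : Measure Ω) [IsFiniteMeasure μ]
    (u : Ω → OG N) (hu : Measurable u) (f : Ω → Cube N → ℝ)
    (hf : ∀ σ, Measurable fun ω => f ω σ) (b : Ω → ℝ) (hb : Integrable b μ)
    (h : ∀ ω σ, |f ω σ| ≤ b ω) : Integrable (fun ω => Gm P s x (u ω) (f ω)) μ := by
  simp only [Gm_eq_sum]
  refine integrable_finsetSum _ fun σ _ => ?_
  have hp : Measurable fun ω => pw P s x (u ω) σ :=
    (measurable_gw_inner P s x hu σ).stronglyMeasurable.integral_prod_right'.measurable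
  refine hb.mono' (hp.mul (hf σ)).aestronglyMeasurable (ae_of_all _ fun ω => ?_)
  rw [Real.norm_eq_abs, abs_mul, abs_of_nonneg (pw_nonneg P s x (u ω) σ)]
  refine le_trans (mul_le_of_le_one_left (abs_nonneg _) ?_) (h ω σ)
  rw [← sum_pw P s x (u ω)]
  exact Finset.single_le_sum (fun τ _ => pw_nonneg P s x (u ω) τ) (Finset.mem_univ σ)

lemma free_eq : P.free s x (unifBase N) = ∫ U, Fi P s x U (fun _ => 0) ∂orthHaar N := by
  have e : ∀ z : Dz G L (unifBase N), P.ham s x (unifBase N) z =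
      fun σ => base0 P z.1 σ + 0 + P.pert s x z.1 z.2.1 σ := fun z => funext fun σ => by
    simp only [Sys.ham, Sys.ham0, base0, unifBase]; ring
  rw [Sys.free, dzLaw, integral_prod _ (by exact integrable_logZ P s x (unifBase N))]
  refine integral_congr_ae (ae_of_all _ fun U => ?_)
  simp only [e, Fi, Fig, id_eq]
  rw [integral_fun_fst (fun J => logZ fun σ => base0 P U σ + 0 + P.pert s x U J σ),
    probReal_univ, one_smul]

lemma lavg_eq (Y : OG N → Cube N → ℝ) (hY : ∀ σ, Measurable fun U => Y U σ)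
    (hpos : ∀ U σ, 0 < Y U σ) (b : ℝ) (hb : ∀ U σ, |Real.log (Y U σ)| ≤ b) :
    P.lavg s x (unifBase N) Y = ∫ U, (Fi P s x U (fun σ => Real.log (Y U σ)) -
      Fi P s x U fun _ => 0) ∂orthHaar N := by
  have iF : Integrable (fun U => Fi P s x U fun σ => Real.log (Y U σ)) (orthHaar N) :=
    integrable_Fi P s x (orthHaar N) id measurable_id (fun U σ => Real.log (Y U σ))
      (fun σ => (hY σ).log) (fun _ => b) (integrable_const b) hb
  have i0 : Integrable (fun U => Fi P s x U fun _ => 0) (orthHaar N) :=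
    integrable_Fi P s x (orthHaar N) id measurable_id (fun _ _ => (0 : ℝ))
      (fun _ => measurable_const) (fun _ => (0 : ℝ)) (integrable_const _) fun _ _ => by simp
  have hg : ∀ z : Dz G L (unifBase N), Real.log (gav (P.ham s x (unifBase N) z) (Y z.1)) =
      logZ (fun σ => P.ham s x (unifBase N) z σ + Real.log (Y z.1 σ)) -
        logZ (P.ham s x (unifBase N) z) := fun z => by
    rw [Vale.Agent.P168.Limit.SelfAvg.logZ_tilt']
    simp only [Real.exp_log (hpos z.1 _)]
  have hm : Measurable fun z : Dz G L (unifBase N) =>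
      Real.log (gav (P.ham s x (unifBase N) z) (Y z.1)) :=
    (measurable_gav P s x (unifBase N) (fun z σ => Y z.1 σ)
      fun σ => (hY σ).comp measurable_fst).log
  have hi : Integrable (fun z : Dz G L (unifBase N) =>
      Real.log (gav (P.ham s x (unifBase N) z) (Y z.1))) (dzLaw G L (unifBase N)) :=
    Integrable.of_bound hm.aestronglyMeasurable b (ae_of_all _ fun z => by
      rw [hg, Real.norm_eq_abs]
      exact Vale.Agent.P168.Limit.SelfAvg.abs_logZ_sub_le' _ _ (hb z.1))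
  have e : ∀ z : Dz G L (unifBase N),
      P.ham s x (unifBase N) z = fun σ => base0 P z.1 σ + P.pert s x z.1 z.2.1 σ :=
    fun z => funext fun σ => by
      simp only [Sys.ham, Sys.ham0, base0, unifBase]; ring
  rw [Sys.lavg, dzLaw, integral_prod _ (by exact hi)]
  refine integral_congr_ae (ae_of_all _ fun U => ?_)
  simp only [hg]
  simp only [e, Fi, Fig, id_eq]
  rw [integral_fun_fst (fun J =>
      (logZ fun σ => base0 P U σ + P.pert s x U J σ + Real.log (Y U σ)) -
        logZ fun σ => base0 P U σ + P.pert s x U J σ), probReal_univ, one_smul]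
  simp only [add_zero, add_right_comm (base0 P U _) (P.pert s x U _ _)]
  exact integral_sub (integrable_Fig_inner P s x U fun σ => Real.log (Y U σ))
    (by simpa using integrable_Fig_inner P s x U fun _ => 0)

/-! ### The demotion weight -/

/-- The squares of chosen coordinates. -/
def Qc (f : Fin (K + 1) → Fin N) (U : OG N) (σ : Cube N) : ℝ := ∑ j, rot U σ (f j) ^ 2

/-- The logarithm of the demotion weight. -/
def Lw (θ b : Fin (K + 1) → ℝ) (κ : ℝ) (lin : Bool) (f : Fin (K + 1) → Fin N) {k : ℕ}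
    (g : TIdx N k → ℝ) (U : OG N) (σ : Cube N) : ℝ :=
  Real.log (stepX θ b κ lin (Sum.elim (fun j => rot U σ (f j)) fun _ => testZ g σ))

variable (θ b : Fin (K + 1) → ℝ) (κ : ℝ) (lin : Bool)

/-- A bound of the test field, integrable in its coordinates. -/
def Zb {k : ℕ} (g : TIdx N k → ℝ) : ℝ := Fintype.card (TIdx N k) * ∑ t, g t ^ 2

lemma testZ_sq_le_Zb {k : ℕ} (g : TIdx N k → ℝ) (σ : Cube N) : testZ g σ ^ 2 ≤ Zb g := by
  have hu : ∀ i, |Vale.Agent.P157.Parisi.unitVec σ i| ≤ 1 := fun i => by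
    have h1 : (1 : ℝ) ≤ Real.sqrt N := Real.one_le_sqrt.2 (by exact_mod_cast Fin.pos i)
    rw [Vale.Agent.P157.Parisi.unitVec, abs_div, abs_of_nonneg (Real.sqrt_nonneg _)]
    refine (div_le_one (by linarith)).2 (le_trans (le_of_eq ?_) h1)
    unfold Vale.Agent.P157.Parisi.sv
    split_ifs <;> simp
  refine sq_sum_le_card_mul_sum_sq.trans ?_
  rw [Zb, Finset.card_univ]
  refine mul_le_mul_of_nonneg_left (Finset.sum_le_sum fun t _ => ?_) (Nat.cast_nonneg _)
  rw [mul_pow]
  refine mul_le_of_le_one_right (sq_nonneg _) ?_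
  rw [sq_le_one_iff_abs_le_one, Finset.abs_prod]
  exact Finset.prod_le_one (fun l _ => abs_nonneg _) fun l _ => hu _

lemma integrable_Zb (k : ℕ) : Integrable (Zb (N := N) (k := k)) (gam (TIdx N k)) :=
  (integrable_finsetSum _ fun t _ =>
    (measurePreserving_eval (fun _ : TIdx N k => gaussianReal 0 1) t).integrable_comp_of_integrable
      Vale.Agent.P168.Toolkit.integrable_gauss_sq).const_mul _

lemma measurable_testZ {k : ℕ} (σ : Cube N) : Measurable fun g : TIdx N k → ℝ => testZ g σ :=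
  Finset.measurable_sum _ fun t _ => (measurable_pi_apply t).mul_const _

lemma continuous_stepX : Continuous (stepX θ b κ lin) := by
  unfold stepX
  cases lin <;> simp only [Bool.false_eq_true, if_false, if_true] <;> fun_prop

lemma stepX_pos (z : Fin (K + 1) ⊕ Fin 1 → ℝ) : 0 < stepX θ b κ lin z :=
  mul_pos (Real.exp_pos _) (Real.cosh_pos _)

lemma Lw_eq (f : Fin (K + 1) → Fin N) {k : ℕ} (g : TIdx N k → ℝ) (U : OG N) (σ : Cube N) :
    Lw θ b κ lin f g U σ =
      -(∑ j, θ j * rot U σ (f j) ^ 2) / 2 - κ * testZ g σ ^ 2 / 2 +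
          (if lin then Real.sqrt κ * testZ g σ else 0) +
        Real.log (Real.cosh ((∑ j, b j * rot U σ (f j)) +
          if lin then 0 else Real.sqrt κ * testZ g σ)) := by
  rw [Lw, stepX, Real.log_mul (Real.exp_pos _).ne' (Real.cosh_pos _).ne', Real.log_exp]
  rfl

lemma Lw_le (hθ : ∀ j, 0 ≤ θ j) (hκ : 0 ≤ κ) {η : ℝ} (hη : 0 < η) (f : Fin (K + 1) → Fin N)
    {k : ℕ} (g : TIdx N k → ℝ) (U : OG N) (σ : Cube N) :
    Lw θ b κ lin f g U σ ≤ η * Qc f U σ + ((∑ j, b j ^ 2) / (4 * η) + 1 / 2) := by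
  rw [Lw_eq]
  set Z := testZ g σ
  have h1 : ∀ v : ℝ, Real.log (Real.cosh v) ≤ |v| := fun v => by
    rw [← Real.cosh_abs v]
    refine (Real.log_le_iff_le_exp (Real.cosh_pos _)).2 ?_
    rw [Real.cosh_eq]
    have : Real.exp (-|v|) ≤ Real.exp |v| := Real.exp_le_exp.2 (by linarith [abs_nonneg v])
    linarith
  have h2 : ∀ j, |b j * rot U σ (f j)| ≤ η * rot U σ (f j) ^ 2 + b j ^ 2 / (4 * η) := fun j => by
    rw [abs_le, ← sub_nonneg, ← sub_nonneg (a := η * rot U σ (f j) ^ 2 + b j ^ 2 / (4 * η))]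
    constructor <;>
      [(have e : b j * rot U σ (f j) - -(η * rot U σ (f j) ^ 2 + b j ^ 2 / (4 * η)) =
          (2 * η * rot U σ (f j) + b j) ^ 2 / (4 * η) := by field_simp; ring);
       (have e : η * rot U σ (f j) ^ 2 + b j ^ 2 / (4 * η) - b j * rot U σ (f j) =
          (2 * η * rot U σ (f j) - b j) ^ 2 / (4 * η) := by field_simp; ring)] <;>
      (rw [e]; positivity)
  have h4 : Real.sqrt κ * |Z| ≤ κ * Z ^ 2 / 2 + 1 / 2 := by
    nlinarith [sq_nonneg (Real.sqrt κ * |Z| - 1), Real.sq_sqrt hκ, sq_abs Z]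
  have h5 : |∑ j, b j * rot U σ (f j)| ≤ η * Qc f U σ + (∑ j, b j ^ 2) / (4 * η) := by
    refine (Finset.abs_sum_le_sum_abs _ _).trans ((Finset.sum_le_sum fun j _ => h2 j).trans_eq ?_)
    rw [Qc, Finset.mul_sum, Finset.sum_div, Finset.sum_add_distrib]
  have h6 : 0 ≤ ∑ j, θ j * rot U σ (f j) ^ 2 :=
    Finset.sum_nonneg fun j _ => mul_nonneg (hθ j) (sq_nonneg _)
  have h7 : |Real.sqrt κ * Z| = Real.sqrt κ * |Z| := by
    rw [abs_mul, abs_of_nonneg (Real.sqrt_nonneg κ)]
  cases lin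
  · simp only [Bool.false_eq_true, if_false]
    have := h1 ((∑ j, b j * rot U σ (f j)) + Real.sqrt κ * Z)
    have := abs_add_le (∑ j, b j * rot U σ (f j)) (Real.sqrt κ * Z)
    linarith
  · simp only [if_true, add_zero]
    have := h1 (∑ j, b j * rot U σ (f j))
    have := le_abs_self (Real.sqrt κ * Z)
    linarith

lemma le_Lw (hκ : 0 ≤ κ) (f : Fin (K + 1) → Fin N) {k : ℕ} (g : TIdx N k → ℝ) (U : OG N)
    (σ : Cube N) :
    -((∑ j, |θ j|) * Qc f U σ + κ * testZ g σ ^ 2 + 1 / 2) ≤ Lw θ b κ lin f g U σ := by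
  rw [Lw_eq]
  set Z := testZ g σ
  have h0 : ∀ v : ℝ, 0 ≤ Real.log (Real.cosh v) := fun v =>
    Real.log_nonneg (Real.one_le_cosh v)
  have h1 : ∑ j, θ j * rot U σ (f j) ^ 2 ≤ (∑ j, |θ j|) * Qc f U σ := by
    rw [Finset.sum_mul]
    refine Finset.sum_le_sum fun j _ => ?_
    refine (mul_le_mul_of_nonneg_right (le_abs_self _) (sq_nonneg _)).trans ?_
    exact mul_le_mul_of_nonneg_left (Finset.single_le_sum (f := fun i => rot U σ (f i) ^ 2)
      (fun i _ => sq_nonneg _) (Finset.mem_univ j)) (abs_nonneg _)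
  have h2 : 0 ≤ (∑ j, |θ j|) * Qc f U σ :=
    mul_nonneg (Finset.sum_nonneg fun j _ => abs_nonneg _)
      (Finset.sum_nonneg fun j _ => sq_nonneg _)
  have h3 : -(κ * Z ^ 2 / 2 + 1 / 2) ≤ if lin then Real.sqrt κ * Z else 0 := by
    split_ifs
    · nlinarith [sq_nonneg (Real.sqrt κ * Z + 1), Real.sq_sqrt hκ]
    · nlinarith [mul_nonneg hκ (sq_nonneg Z)]
  linarith [h0 ((∑ j, b j * rot U σ (f j)) + if lin then 0 else Real.sqrt κ * Z)]

lemma integral_testZ_sq (hN : 0 < N) {k : ℕ} (σ : Cube N) :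
    ∫ g : TIdx N k → ℝ, testZ g σ ^ 2 ∂gam (TIdx N k) = 1 := by
  set u : TIdx N k → ℝ := fun t => ∏ l, Vale.Agent.P157.Parisi.unitVec σ (t l)
  have hu : ∑ t, u t ^ 2 = 1 := by
    simp only [u, ← Finset.prod_pow]
    rw [← Fintype.sum_pow (fun i => Vale.Agent.P157.Parisi.unitVec σ i ^ 2),
      Vale.Agent.P157.Parisi.Cavity.sum_unitVec_sq hN σ, one_pow]
  exact (Vale.Agent.P157.Parisi.Cavity.integral_dot_unit hu (φ := fun v => v ^ 2)
    (by fun_prop)).trans Vale.Agent.P157.integral_sq_gam1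

lemma measurable_Lw (f : Fin (K + 1) → Fin N) {k : ℕ} (σ : Cube N) :
    Measurable fun q : (TIdx N k → ℝ) × OG N => Lw θ b κ lin f q.1 q.2 σ := by
  refine ((continuous_stepX θ b κ lin).measurable.comp (measurable_pi_lambda _ fun d => ?_)).log
  cases d with
  | inl j => exact (continuous_rot σ (f j)).measurable.comp measurable_snd
  | inr i => exact (measurable_testZ σ).comp measurable_fst

/-- A bound of the weight. -/
def LwBd {k : ℕ} (g : TIdx N k → ℝ) : ℝ :=
  (∑ j, |θ j|) * ((K + 1 : ℝ) * N) + κ * Zb g + (K + 1 : ℝ) * N + ((∑ j, b j ^ 2) / 4 + 1 / 2)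

lemma abs_Lw_le (hθ : ∀ j, 0 ≤ θ j) (hκ : 0 ≤ κ) (f : Fin (K + 1) → Fin N) {k : ℕ}
    (g : TIdx N k → ℝ) (U : OG N) (σ : Cube N) : |Lw θ b κ lin f g U σ| ≤ LwBd θ b κ g := by
  have h1 := Lw_le θ b κ lin hθ hκ one_pos f g U σ
  have h2 := le_Lw θ b κ lin hκ f g U σ
  rw [one_mul, mul_one] at h1
  have hQ : Qc f U σ ≤ (K + 1 : ℝ) * N := by
    refine (Finset.sum_le_sum fun j _ => rot_sq_le U σ (f j)).trans_eq ?_
    simp
  have hQ0 : 0 ≤ Qc f U σ := Finset.sum_nonneg fun j _ => sq_nonneg _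
  have hT : 0 ≤ ∑ j, |θ j| := Finset.sum_nonneg fun j _ => abs_nonneg _
  have hZ := mul_le_mul_of_nonneg_left (testZ_sq_le_Zb g σ) hκ
  have hb : 0 ≤ (∑ j, b j ^ 2) / 4 :=
    div_nonneg (Finset.sum_nonneg fun j _ => sq_nonneg _) (by norm_num)
  rw [abs_le, LwBd]
  constructor <;> nlinarith [mul_le_mul_of_nonneg_left hQ hT, mul_nonneg hT hQ0,
    mul_nonneg hκ (sq_nonneg (testZ g σ))]

lemma integrable_LwBd (k : ℕ) : Integrable (LwBd (N := N) (k := k) θ b κ) (gam (TIdx N k)) :=
  ((((integrable_const _).add ((integrable_Zb k).const_mul κ))).add (integrable_const _)).add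
    (integrable_const _)

lemma integrable_Fi_Lw (hθ : ∀ j, 0 ≤ θ j) (hκ : 0 ≤ κ) (k : ℕ) (f : Fin (K + 1) → Fin N)
    (e : ℝ) :
    Integrable (fun q : (TIdx N k → ℝ) × OG N =>
      Fi P s x q.2 fun σ => Lw θ b κ lin f q.1 q.2 σ + e * Qc f q.2 σ)
      ((gam (TIdx N k)).prod (orthHaar N)) := by
  refine integrable_Fi P s x _ Prod.snd measurable_snd
    (fun q σ => Lw θ b κ lin f q.1 q.2 σ + e * Qc f q.2 σ)
    (fun σ => (measurable_Lw θ b κ lin f σ).add (((continuous_finsetSum _ fun j _ =>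
      (continuous_rot σ (f j)).pow 2).measurable.comp measurable_snd).const_mul e))
    (fun q => LwBd θ b κ q.1 + |e| * ((K + 1 : ℝ) * N))
    (((integrable_LwBd θ b κ k).comp_fst _).add (integrable_const _)) fun q σ => ?_
  refine (abs_add_le _ _).trans (add_le_add (abs_Lw_le θ b κ lin hθ hκ f q.1 q.2 σ) ?_)
  rw [abs_mul]
  refine mul_le_mul_of_nonneg_left ?_ (abs_nonneg _)
  rw [Qc, abs_of_nonneg (Finset.sum_nonneg fun j _ => sq_nonneg _)]
  refine (Finset.sum_le_sum fun j _ => rot_sq_le q.2 σ (f j)).trans_eq ?_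
  simp

lemma integrable_Fi_Lw_right (hθ : ∀ j, 0 ≤ θ j) (hκ : 0 ≤ κ) (k : ℕ) (f : Fin (K + 1) → Fin N)
    (g : TIdx N k → ℝ) :
    Integrable (fun U : OG N => Fi P s x U (Lw θ b κ lin f g U)) (orthHaar N) := by
  have hm : ∀ σ, Measurable fun U : OG N => Lw θ b κ lin f g U σ := fun σ =>
    Measurable.comp (g := fun q : (TIdx N k → ℝ) × OG N => Lw θ b κ lin f q.1 q.2 σ)
      (f := fun U : OG N => (g, U)) (measurable_Lw θ b κ lin f σ) measurable_prodMk_left
  exact integrable_Fi P s x (orthHaar N) id measurable_id (fun U => Lw θ b κ lin f g U) hm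
    (fun _ => LwBd θ b κ g) (integrable_const _)
    fun U σ => abs_Lw_le θ b κ lin hθ hκ f g U σ

lemma freshLog_eq (hθ : ∀ j, 0 ≤ θ j) (hκ : 0 ≤ κ) (k : ℕ) (f : Fin (K + 1) → Fin N) :
    P.freshLog s x (unifBase N) k f (stepX θ b κ lin) + P.free s x (unifBase N) =
      ∫ g, ∫ U, Fi P s x U (Lw θ b κ lin f g U) ∂orthHaar N ∂gam (TIdx N k) := by
  have hi := integrable_Fi_Lw P s x θ b κ lin hθ hκ k f 0
  simp only [zero_mul, add_zero] at hi
  have e : ∀ g : TIdx N k → ℝ, P.lavg s x (unifBase N)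
      (fun U σ => stepX θ b κ lin (Sum.elim (fun j => rot U σ (f j)) fun _ => testZ g σ)) =
      (∫ U, Fi P s x U (Lw θ b κ lin f g U) ∂orthHaar N) - P.free s x (unifBase N) := fun g => by
    have hY : ∀ σ : Cube N, Measurable fun U : OG N =>
        stepX θ b κ lin (Sum.elim (fun j => rot U σ (f j)) fun _ => testZ g σ) := fun σ =>
      (continuous_stepX θ b κ lin).measurable.comp (measurable_pi_lambda _ fun d => by
        cases d with
        | inl j => exact (continuous_rot σ (f j)).measurable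
        | inr i => exact measurable_const)
    rw [lavg_eq P s x _ hY
      (fun U σ => stepX_pos θ b κ lin _) (LwBd θ b κ g)
      (fun U σ => abs_Lw_le θ b κ lin hθ hκ f g U σ), free_eq, ← integral_sub]
    · rfl
    · exact integrable_Fi_Lw_right P s x θ b κ lin hθ hκ k f g
    · exact integrable_Fi P s x (orthHaar N) id measurable_id (fun _ _ => (0 : ℝ))
        (fun _ => measurable_const) (fun _ => (0 : ℝ)) (integrable_const _) fun _ _ => by simp
  unfold Sys.freshLog
  simp only [e]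
  rw [integral_sub hi.integral_prod_left (integrable_const _)]
  simp

lemma freshLog_anti {θ' : Fin (K + 1) → ℝ} (hθ0 : ∀ j, 0 ≤ θ j) (hκ : 0 ≤ κ)
    (hθ : ∀ j, θ j ≤ θ' j) (k : ℕ)
    (f : Fin (K + 1) → Fin N) :
    P.freshLog s x (unifBase N) k f (stepX θ' b κ lin) ≤
      P.freshLog s x (unifBase N) k f (stepX θ b κ lin) := by
  have h := freshLog_eq P s x θ b κ lin hθ0 hκ k f
  have h' := freshLog_eq P s x θ' b κ lin (fun j => (hθ0 j).trans (hθ j)) hκ k f
  have i := integrable_Fi_Lw P s x θ b κ lin hθ0 hκ k f 0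
  have i' := integrable_Fi_Lw P s x θ' b κ lin (fun j => (hθ0 j).trans (hθ j)) hκ k f 0
  simp only [zero_mul, add_zero] at i i'
  have hle : (∫ g : TIdx N k → ℝ, ∫ U, Fi P s x U (Lw θ' b κ lin f g U) ∂orthHaar N
      ∂gam (TIdx N k)) ≤
      ∫ g : TIdx N k → ℝ, ∫ U, Fi P s x U (Lw θ b κ lin f g U) ∂orthHaar N ∂gam (TIdx N k) := by
    rw [← integral_prod _ i', ← integral_prod _ i]
    refine integral_mono i' i fun q => Fi_mono P s x q.2 fun σ => ?_
    simp only [Lw_eq]
    have := Finset.sum_le_sum fun j (_ : j ∈ Finset.univ) =>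
      mul_le_mul_of_nonneg_right (hθ j) (sq_nonneg (rot q.2 σ (f j)))
    linarith
  linarith

end Vale.Agent.P166.Haar2.Cavity
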