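import Vale.Agent.P166.Haar2.Cavity.Core

/-!
Cavity: permuting the eigen-coordinates changes nothing in mean.
-/

noncomputable section

open MeasureTheory ProbabilityTheory
open scoped BigOperators

namespace Vale.Agent.P166.Haar2.Cavity

open Vale.Agent.P157 (gam)
open Vale.Agent.P157.Parisi (Cube)
open Vale.Agent.P168.Limit (logZ gav)

variable {N G L : ℕ}

/-- The permutation of coordinates as an orthogonal matrix. -/
def permOG (π : Equiv.Perm (Fin N)) : OG N :=
  ⟨Matrix.of fun i j => if π i = j then (1 : ℝ) else 0, by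
    refine (Matrix.mem_orthogonalGroup_iff (Fin N) ℝ).2 ?_
    ext i j
    simp [Matrix.mul_apply, Matrix.one_apply, π.injective.eq_iff, eq_comm]⟩

theorem rot_permOG (π : Equiv.Perm (Fin N)) (U : OG N) (σ : Cube N) (i : Fin N) :
    rot (permOG π * U) σ i = rot U σ (π i) := by
  simp only [rot, act_mul]
  simp [act, permOG, Matrix.mulVec, dotProduct]

/-- Renaming the positions of a word. -/
def wordPerm (π : Equiv.Perm (Fin N)) : PIdx G N L ≃ PIdx G N L :=
  Equiv.sigmaCongrRight fun i => Equiv.arrowCongr (Equiv.refl (Word G i.val)) π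

theorem wordPerm_apply (π : Equiv.Perm (Fin N)) (c : PIdx G N L) :
    wordPerm π c = ⟨c.1, fun p => π (c.2 p)⟩ := rfl

/-- The disorder in the renamed coordinates. -/
def permDz (π : Equiv.Perm (Fin N)) {B : RBase N} (z : Dz G L B) : Dz G L B :=
  (permOG π * z.1, fun c => z.2.1 (wordPerm π c), z.2.2)

theorem measurePreserving_permDz (π : Equiv.Perm (Fin N)) (B : RBase N) :
    MeasurePreserving (permDz π (G := G) (L := L) (B := B)) (dzLaw G L B) (dzLaw G L B) := by
  have h1 : MeasurePreserving (fun U : OG N => permOG π * U) (orthHaar N) (orthHaar N) :=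
    measurePreserving_mul_left _ _
  have h2 : MeasurePreserving (fun (J : PIdx G N L → ℝ) c => J (wordPerm π c))
      (gam (PIdx G N L)) (gam (PIdx G N L)) :=
    measurePreserving_piCongrLeft (fun _ : PIdx G N L => gaussianReal 0 1)
      (wordPerm π).symm
      |> fun h => by
        convert h using 2 with J
        funext c
        rw [MeasurableEquiv.coe_piCongrLeft, Equiv.piCongrLeft_apply]
        simp
  exact h1.prod (h2.prod (MeasurePreserving.id B.law))

theorem ham_permDz {K : ℕ} (a : Fin (K + 1) → ℝ) (w : Fin N → Fin (K + 1))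
    (π : Equiv.Perm (Fin N)) (s : ℝ) (x : Fin L → ℝ) (B : RBase N) (z : Dz (K + 2) L B)
    (σ : Cube N) :
    (stdSys a (w ∘ π)).ham s x B (permDz π z) σ = (stdSys a w).ham s x B z σ := by
  have hS : ∀ g i, i ∈ (stdSys a (w ∘ π)).S g ↔ π i ∈ (stdSys a w).S g := by
    intro g i
    refine Fin.cases ?_ (fun k => ?_) g <;> simp [stdSys]
  have hl : ∑ i, (stdSys a (w ∘ π)).lam i * rot (permOG π * z.1) σ i ^ 2 =
      ∑ i, (stdSys a w).lam i * rot z.1 σ i ^ 2 := by
    rw [← Equiv.sum_comp π fun i => (stdSys a w).lam i * rot z.1 σ i ^ 2]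
    exact Finset.sum_congr rfl fun i _ => by rw [rot_permOG]; rfl
  have hp : (stdSys a (w ∘ π)).pert s x (permOG π * z.1) (fun c => z.2.1 (wordPerm π c)) σ =
      (stdSys a w).pert s x z.1 z.2.1 σ := by
    unfold Sys.pert
    rw [← Equiv.sum_comp (wordPerm π) fun c => z.2.1 c *
      (s * x c.1 * coef (K + 2) c.1.val * (stdSys a w).feat z.1 σ c)]
    refine Finset.sum_congr rfl fun c _ => ?_
    congr 2
    refine Finset.prod_congr rfl fun p _ => ?_
    show (if c.2 p ∈ (stdSys a (w ∘ π)).S p.1 then rot (permOG π * z.1) σ (c.2 p) / _ else 0) =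
      if π (c.2 p) ∈ (stdSys a w).S p.1 then rot z.1 σ (π (c.2 p)) / _ else 0
    rw [rot_permOG]
    simp only [hS]
    rfl
  show B.lw _ σ + (1 / 2 * _ + _) = B.lw _ σ + (1 / 2 * _ + _)
  rw [show (permDz π z).1 = permOG π * z.1 from rfl, hl]
  simp only [permDz]
  rw [hp]

/-- Renaming the coordinates does not change the free energy. -/
theorem free_perm {K : ℕ} (a : Fin (K + 1) → ℝ) (w : Fin N → Fin (K + 1))
    (π : Equiv.Perm (Fin N)) (s : ℝ) (x : Fin L → ℝ) (B : RBase N) :
    (stdSys a (w ∘ π)).free s x B = (stdSys a w).free s x B := by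
  have hT := measurePreserving_permDz (G := K + 2) (L := L) π B
  unfold Sys.free
  conv_lhs => rw [← hT.map_eq]
  rw [integral_map hT.measurable.aemeasurable (measurable_logZ _ s x B).aestronglyMeasurable]
  refine integral_congr_ae (Filter.Eventually.of_forall fun z => ?_)
  exact congrArg logZ (funext fun σ => ham_permDz a w π s x B z σ)

/-- The mean squared coordinate only depends on the block. -/
theorem mom_single_eq {K : ℕ} (a : Fin (K + 1) → ℝ) (w : Fin N → Fin (K + 1))
    (s : ℝ) (x : Fin L → ℝ) (B : RBase N) {i j : Fin N} (h : w i = w j) :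
    mom (stdSys a w) s x B {i} = mom (stdSys a w) s x B {j} := by
  set π := Equiv.swap i j
  have hw : w ∘ π = w := by
    funext m
    show w (Equiv.swap i j m) = w m
    rw [Equiv.swap_apply_def]
    split_ifs with h1 h2
    · rw [h1, h]
    · rw [h2, h]
    · rfl
  have hT := measurePreserving_permDz (G := K + 2) (L := L) π B
  unfold mom
  conv_lhs => rw [← hT.map_eq]
  rw [integral_map hT.measurable.aemeasurable
    (measurable_gav _ s x B (fun z σ => mass {i} z.1 σ)
      (measurable_mass_z {i})).aestronglyMeasurable]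
  refine integral_congr_ae (Filter.Eventually.of_forall fun z => ?_)
  have e : (stdSys a w).ham s x B (permDz π z) = (stdSys a w).ham s x B z := funext fun σ => by
    have := ham_permDz a w π s x B z σ
    rwa [hw] at this
  have e2 : mass {i} (permDz π z).1 = mass {j} z.1 := funext fun σ => by
    simp [mass, permDz, rot_permOG, π]
  show gav _ (mass {i} (permDz π z).1) = gav _ (mass {j} z.1)
  rw [e, e2]

end Vale.Agent.P166.Haar2.Cavity
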