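import Vale.Agent.P166.Haar2.Cavity.Blocks

/-!
The orthogonal group of one more coordinate: extensions, embedded small rotations, and the
second and fourth moments of a column.
-/

noncomputable section

open MeasureTheory ProbabilityTheory
open scoped BigOperators Matrix

namespace Vale.Agent.P166.Haar2.Cavity

variable {N m n : ℕ}

/-- The rotation of the first coordinates, fixing the last. -/
def ext (h : OG N) : OG (N + 1) :=
  ⟨Matrix.of fun i j => Fin.lastCases (Fin.lastCases (1 : ℝ) (fun _ => 0) j)
      (fun i' => Fin.lastCases (0 : ℝ) (fun j' => (h : Matrix (Fin N) (Fin N) ℝ) i' j') j) i, by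
    refine (Matrix.mem_orthogonalGroup_iff (Fin (N + 1)) ℝ).2 ?_
    have hh := (Matrix.mem_orthogonalGroup_iff (Fin N) ℝ).1 h.2
    ext i j
    induction i using Fin.lastCases with
    | last =>
      induction j using Fin.lastCases with
      | last => simp [Matrix.mul_apply, Fin.sum_univ_castSucc]
      | cast j' => simp [Matrix.mul_apply, Fin.sum_univ_castSucc,
          Matrix.one_apply_ne (Fin.castSucc_lt_last j').ne']
    | cast i' =>
      induction j using Fin.lastCases with
      | last => simp [Matrix.mul_apply, Fin.sum_univ_castSucc,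
          Matrix.one_apply_ne (Fin.castSucc_lt_last i').ne]
      | cast j' =>
        have e := congrFun (congrFun hh i') j'
        simp [Matrix.mul_apply, Matrix.one_apply] at e ⊢
        simp [Fin.sum_univ_castSucc, e]⟩

lemma act_ext (h : OG N) (v : Fin N → ℝ) (t : ℝ) :
    act (ext h) (Fin.snoc v t) = Fin.snoc (act h v) t := by
  funext i
  induction i using Fin.lastCases with
  | last => simp [act, ext, Matrix.mulVec, dotProduct, Fin.sum_univ_castSucc]
  | cast i' => simp [act, ext, Matrix.mulVec, dotProduct, Fin.sum_univ_castSucc]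

lemma snoc_eta (v : Fin (N + 1) → ℝ) :
    v = Fin.snoc (fun i => v i.castSucc) (v (Fin.last N)) :=
  (Fin.snoc_init_self v).symm

lemma ext_mul (g h : OG N) : ext (g * h) = ext g * ext h := by
  refine og_ext fun v => ?_
  rw [snoc_eta v, act_mul, act_ext, act_ext, act_ext, act_mul]

lemma continuous_ext : Continuous (ext : OG N → OG (N + 1)) := by
  refine Continuous.subtype_mk (continuous_matrix fun i j => ?_) _
  induction i using Fin.lastCases with
  | last => simp only [Matrix.of_apply, Fin.lastCases_last]; exact continuous_const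
  | cast i' =>
    induction j using Fin.lastCases with
    | last => simp only [Matrix.of_apply, Fin.lastCases_castSucc, Fin.lastCases_last]
              exact continuous_const
    | cast j' => simp only [Matrix.of_apply, Fin.lastCases_castSucc]
                 exact continuous_subtype_val.matrix_elem i' j'

lemma ev_last_eq : (ev (Fin.last N) : Fin (N + 1) → ℝ) = Fin.snoc (0 : Fin N → ℝ) 1 := by
  funext i
  induction i using Fin.lastCases with
  | last => simp [ev]
  | cast i' => simp [ev, (Fin.castSucc_lt_last i').ne]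

/-- A rotation fixing the last vector is an extension. -/
lemma exists_ext (U : OG (N + 1)) (hU : act U (ev (Fin.last N)) = ev (Fin.last N)) :
    ∃ h : OG N, U = ext h := by
  set M : Matrix (Fin N) (Fin N) ℝ :=
    Matrix.of fun i j => (U : Matrix (Fin (N + 1)) (Fin (N + 1)) ℝ) i.castSucc j.castSucc with hM
  have hcol : ∀ i : Fin N, (U : Matrix (Fin (N + 1)) (Fin (N + 1)) ℝ) i.castSucc (Fin.last N) = 0 :=
    fun i => by
      have := congrFun hU i.castSucc
      simpa [act, ev, Matrix.mulVec_single, (Fin.castSucc_lt_last i).ne] using this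
  have hfix : U ∈ fixSub (N + 1) N := fun j hj => by
    have : j = Fin.last N := Fin.ext (le_antisymm (Nat.le_of_lt_succ j.isLt) hj)
    rw [this, hU]
  have horth : M * M.transpose = 1 := by
    have hh := (Matrix.mem_orthogonalGroup_iff (Fin (N + 1)) ℝ).1 U.2
    ext i j
    have e := congrFun (congrFun hh i.castSucc) j.castSucc
    simp [Matrix.mul_apply, Fin.sum_univ_castSucc, hcol, Matrix.one_apply] at e
    simp [Matrix.mul_apply, Matrix.one_apply, hM, e]
  refine ⟨⟨M, (Matrix.mem_orthogonalGroup_iff (Fin N) ℝ).2 horth⟩, og_ext fun v => ?_⟩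
  rw [snoc_eta v, act_ext]
  funext i
  induction i using Fin.lastCases with
  | last => rw [act_apply_fixed hfix _ _ le_rfl]; simp
  | cast i' =>
    simp [act, Matrix.mulVec, dotProduct, Fin.sum_univ_castSucc, hcol, hM]

/-- Fubini and right invariance: the last column can be frozen. -/
lemma integral_ext (G : OG (N + 1) → ℝ)
    (hI : Integrable (fun q : OG (N + 1) × OG N => G (q.1 * ext q.2))
      ((orthHaar (N + 1)).prod (orthHaar N))) :
    ∫ U, G U ∂orthHaar (N + 1) =
      ∫ U, ∫ h, G (U * ext h) ∂orthHaar N ∂orthHaar (N + 1) := by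
  rw [integral_integral_swap hI]
  simp [integral_mul_right_eq_self (μ := orthHaar (N + 1))]

/-- Coordinates of the embedded rotation. -/
def phiMat (f : Fin m → Fin n) : Matrix (Fin n) (Fin m) ℝ :=
  Matrix.of fun i l => if f l = i then 1 else 0

lemma phi_gram {f : Fin m → Fin n} (hf : Function.Injective f) :
    (phiMat f).transpose * phiMat f = 1 := by
  ext l l'
  simp [phiMat, Matrix.mul_apply, Matrix.one_apply, hf.eq_iff, eq_comm]

/-- A small rotation acting on chosen coordinates. -/
def emb (f : Fin m → Fin n) (hf : Function.Injective f) (O : OG m) : OG n :=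
  ⟨1 + phiMat f * ((O : Matrix (Fin m) (Fin m) ℝ) - 1) * (phiMat f).transpose, by
    refine (Matrix.mem_orthogonalGroup_iff (Fin n) ℝ).2 ?_
    set Φ := phiMat f
    set D := (O : Matrix (Fin m) (Fin m) ℝ) - 1 with hD
    have hO := (Matrix.mem_orthogonalGroup_iff (Fin m) ℝ).1 O.2
    have h0 : D + D.transpose + D * D.transpose = 0 := by
      simp only [hD, Matrix.transpose_sub, Matrix.transpose_one, sub_mul, mul_sub, hO, one_mul,
        mul_one]
      abel
    have h1 : (Φ * D * Φ.transpose) * (Φ * D.transpose * Φ.transpose) =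
        Φ * (D * D.transpose) * Φ.transpose := by
      rw [Matrix.mul_assoc (Φ * D), ← Matrix.mul_assoc Φ.transpose (Φ * D.transpose),
        ← Matrix.mul_assoc Φ.transpose Φ, phi_gram hf, Matrix.one_mul, ← Matrix.mul_assoc,
        Matrix.mul_assoc Φ D]
    rw [Matrix.transpose_add, Matrix.transpose_one, Matrix.transpose_mul, Matrix.transpose_mul,
      Matrix.transpose_transpose, ← Matrix.mul_assoc, add_mul, mul_add, mul_add, one_mul, one_mul,
      mul_one, h1]
    have : Φ * (D + D.transpose + D * D.transpose) * Φ.transpose = 0 := by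
      rw [h0, Matrix.mul_zero, Matrix.zero_mul]
    rw [Matrix.mul_add, Matrix.mul_add, Matrix.add_mul, Matrix.add_mul] at this
    calc _ = 1 + (Φ * D * Φ.transpose + Φ * D.transpose * Φ.transpose +
          Φ * (D * D.transpose) * Φ.transpose) := by abel
      _ = 1 := by rw [this, add_zero]⟩

lemma act_emb (f : Fin m → Fin n) (hf : Function.Injective f) (O : OG m) (v : Fin n → ℝ) :
    (∀ l, act (emb f hf O) v (f l) = act O (fun i => v (f i)) l) ∧
      ∀ i, (∀ l, f l ≠ i) → act (emb f hf O) v i = v i := by
  have e : (phiMat f).transpose *ᵥ v = fun l => v (f l) := by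
    funext l
    simp [phiMat, Matrix.mulVec, dotProduct]
  have e2 : act (emb f hf O) v = v + phiMat f *ᵥ (act O (fun i => v (f i)) - fun i => v (f i)) := by
    simp only [act, emb]
    rw [Matrix.add_mulVec, Matrix.one_mulVec, ← Matrix.mulVec_mulVec, ← Matrix.mulVec_mulVec, e,
      Matrix.sub_mulVec, Matrix.one_mulVec]
  refine ⟨fun l => ?_, fun i hi => ?_⟩
  · rw [e2]
    simp [phiMat, Matrix.mulVec, dotProduct, hf.eq_iff]
  · rw [e2]
    simp [phiMat, Matrix.mulVec, dotProduct, hi]

/-! ### A column of a uniform rotation -/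

lemma col_inv (B : OG n) (e : Fin n) (φ : (Fin n → ℝ) → ℝ) :
    ∫ U, φ (act B (act U (ev e))) ∂orthHaar n = ∫ U, φ (act U (ev e)) ∂orthHaar n := by
  simp only [← act_mul]
  exact integral_mul_left_eq_self (μ := orthHaar n) (fun U => φ (act U (ev e))) B

lemma col_unit (U : OG n) (e : Fin n) : ∑ i, act U (ev e) i ^ 2 = 1 := by
  have h := act_dot U (ev e) (ev e)
  rw [ev_dot] at h
  simpa [dotProduct, sq, ev] using h

lemma continuous_col (e i : Fin n) : Continuous fun U : OG n => act U (ev e) i :=
  (continuous_apply i).comp (continuous_act (ev e))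

/-- Squared mass of a set of coordinates of a column. -/
theorem col_mass (S : Finset (Fin n)) (e : Fin n) :
    ∫ U, |(∑ i ∈ S, act U (ev e) i ^ 2) - (S.card : ℝ) / n| ∂orthHaar n ≤
      Real.sqrt (2 / n) := by
  have hn : (0 : ℝ) < n := by exact_mod_cast Fin.pos e
  set μ := orthHaar n
  set u : OG n → Fin n → ℝ := fun U => act U (ev e) with hu
  have hc : ∀ i, Continuous fun U => u U i := fun i => continuous_col e i
  set p : Fin n → ℝ := fun i => ∫ U, u U i ^ 2 ∂μ with hp
  set q : Fin n → Fin n → ℝ := fun i j => ∫ U, u U i ^ 2 * u U j ^ 2 ∂μ with hq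
  have iq : ∀ i j, Integrable (fun U => u U i ^ 2 * u U j ^ 2) μ := fun i j =>
    integrable_cont (((hc i).pow 2).mul ((hc j).pow 2))
  have ip : ∀ i, Integrable (fun U => u U i ^ 2) μ := fun i => integrable_cont ((hc i).pow 2)
  have hswap : ∀ a b, p a = p b ∧ q a a = q b b := by
    intro a b
    by_cases hab : a = b
    · subst hab; exact ⟨rfl, rfl⟩
    have h1 := col_inv (refl (ev a - ev b)) e fun v => v b ^ 2
    have h2 := col_inv (refl (ev a - ev b)) e fun v => v b ^ 2 * v b ^ 2
    simp only [act_refl_swap hab, Equiv.swap_apply_right] at h1 h2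
    exact ⟨h1, h2⟩
  have hpsum : ∑ i, p i = 1 := by
    simp only [hp]
    rw [← integral_finsetSum _ fun i _ => ip i]
    simp [hu, col_unit]
  have hpv : ∀ i, p i = 1 / n := fun i => by
    have h : ∑ j, p j = (n : ℝ) * p i := by
      rw [Finset.sum_congr rfl fun j _ => (hswap j i).1]; simp
    rw [hpsum] at h
    field_simp
    linarith
  set m4 := q e e
  have hoff : ∀ i j, i ≠ j → q i j = m4 / 3 := by
    intro i j hij
    set t := (Real.sqrt 2)⁻¹ with ht
    have ht2 : t ^ 2 = 1 / 2 := by rw [ht, inv_pow, Real.sq_sqrt zero_le_two, one_div]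
    have key : ∀ σ : ℝ, σ ^ 2 = 1 →
        ∫ U, (t * (u U i + σ * u U j)) ^ 4 ∂μ = ∫ U, u U i ^ 4 ∂μ := by
      intro σ hσ
      set r : Fin n → ℝ := fun a => t * (ev i a + σ * ev j a) with hr
      have hrr : r ⬝ᵥ r = 1 := by
        have e1 : r = t • (ev i + σ • ev j) := funext fun a => by simp [hr]
        rw [e1, smul_dotProduct, dotProduct_smul, add_dotProduct, dotProduct_add, dotProduct_add,
          smul_dotProduct, dotProduct_smul, smul_dotProduct, dotProduct_smul, ev_dot, ev_dot,
          ev_dot, ev_dot]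
        simp only [ev, Pi.single_eq_same, Pi.single_eq_of_ne hij, Pi.single_eq_of_ne hij.symm,
          smul_eq_mul]
        linear_combination (1 + σ ^ 2) * ht2 + (1 / 2 : ℝ) * hσ
      have hB : ∀ v, act (refl (ev i - r)) v i = r ⬝ᵥ v := fun v => by
        have hBi : act (refl (ev i - r)) (ev i) = r := by
          simpa using refl_sub_apply (ev i) r 0 (by rw [ev_dot, hrr]; simp [ev])
            (dotProduct_zero _) (dotProduct_zero _)
        rw [← ev_dot i (act _ v)]
        conv_lhs => rw [← refl_inv (ev i - r)]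
        rw [dotProduct_comm, act_inv_dot, hBi, dotProduct_comm]
      have h := col_inv (refl (ev i - r)) e fun v => v i ^ 4
      simp only [hB] at h
      rw [← h]
      refine integral_congr_ae (ae_of_all _ fun U => ?_)
      simp [hr, hu, dotProduct, mul_add, add_mul, Finset.sum_add_distrib, mul_assoc,
        ev, Pi.single_apply]
    have i4 : ∀ σ : ℝ, Integrable (fun U => (t * (u U i + σ * u U j)) ^ 4) μ := fun σ =>
      integrable_cont ((continuous_const.mul ((hc i).add (continuous_const.mul (hc j)))).pow 4)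
    have e4 : ∀ a, ∫ U, u U a ^ 4 ∂μ = m4 := fun a => by
      rw [show (fun U => u U a ^ 4) = fun U => u U a ^ 2 * u U a ^ 2 from
        funext fun U => by ring]
      exact (hswap a e).2
    have hs := congrArg₂ (· + ·) (key 1 (one_pow 2)) (key (-1) (by norm_num))
    simp only [e4] at hs
    rw [← integral_add (i4 1) (i4 (-1))] at hs
    have t4 : t ^ 4 = 1 / 4 := by rw [show t ^ 4 = (t ^ 2) ^ 2 by ring, ht2]; norm_num
    have hx : ∀ U, (t * (u U i + 1 * u U j)) ^ 4 + (t * (u U i + -1 * u U j)) ^ 4 =
        1 / 2 * (u U i ^ 2 * u U i ^ 2) + 3 * (u U i ^ 2 * u U j ^ 2) +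
          1 / 2 * (u U j ^ 2 * u U j ^ 2) := fun U => by
      simp only [mul_pow, t4]; ring
    simp only [hx] at hs
    rw [integral_add, integral_add, integral_const_mul, integral_const_mul,
      integral_const_mul] at hs
    rotate_left
    · exact (iq i i).const_mul _
    · exact (iq i j).const_mul _
    · exact ((iq i i).const_mul _).add ((iq i j).const_mul _)
    · exact (iq j j).const_mul _
    have a1 : q i i = m4 := (hswap i e).2
    have a2 : q j j = m4 := (hswap j e).2
    simp only [hq] at a1 a2 ⊢
    linarith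
  have hsum : ∀ T : Finset (Fin n), ∑ i ∈ T, ∑ j ∈ T, q i j =
      (T.card : ℝ) * ((T.card : ℝ) + 2) * (m4 / 3) := by
    intro T
    have hi : ∀ i ∈ T, ∑ j ∈ T, q i j = ((T.card : ℝ) + 2) * (m4 / 3) := fun i hi => by
      rw [← Finset.add_sum_erase _ _ hi, Finset.sum_congr rfl fun j hj =>
        hoff i j (Finset.ne_of_mem_erase hj).symm, Finset.sum_const, Finset.card_erase_of_mem hi,
        nsmul_eq_mul, Nat.cast_sub (Finset.card_pos.2 ⟨i, hi⟩), (hswap i e).2, Nat.cast_one]
      ring
    rw [Finset.sum_congr rfl hi, Finset.sum_const, nsmul_eq_mul]; ring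
  have hsq : ∀ T : Finset (Fin n),
      ∫ U, (∑ i ∈ T, u U i ^ 2) ^ 2 ∂μ = ∑ i ∈ T, ∑ j ∈ T, q i j := by
    intro T
    simp only [sq (∑ i ∈ T, u _ i ^ 2), Finset.sum_mul_sum]
    rw [integral_finsetSum _ fun i _ => integrable_finsetSum _ fun j _ => iq i j]
    exact Finset.sum_congr rfl fun i _ => integral_finsetSum _ fun j _ => iq i j
  have hm4 : m4 / 3 = 1 / (n * (n + 2)) := by
    have h := hsq Finset.univ
    rw [hsum] at h
    simp only [hu, col_unit, one_pow, integral_const, probReal_univ, one_smul,
      Finset.card_univ, Fintype.card_fin] at h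
    rw [eq_div_iff (by positivity)]
    linarith
  set w : ℝ := (S.card : ℝ) / n with hw
  set X : OG n → ℝ := fun U => (∑ i ∈ S, u U i ^ 2) - w with hX
  have cX : Continuous X := (continuous_finsetSum _ fun i _ => (hc i).pow 2).sub continuous_const
  have hS : (S.card : ℝ) ≤ n := by exact_mod_cast (Finset.card_le_univ S).trans_eq (by simp)
  have hV : ∫ U, X U ^ 2 ∂μ ≤ 2 / n := by
    have e : ∀ U, X U ^ 2 = (∑ i ∈ S, u U i ^ 2) ^ 2 - 2 * w * (∑ i ∈ S, u U i ^ 2) + w ^ 2 :=
      fun U => by simp only [hX]; ring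
    have a := integrable_cont (μ := μ) ((continuous_finsetSum S fun i _ => (hc i).pow 2).pow 2)
    have b := (integrable_finsetSum S fun i _ => ip i).const_mul (2 * w)
    simp only [e]
    rw [integral_add, integral_sub, hsq, hsum, hm4, integral_const_mul,
      integral_finsetSum _ fun i _ => ip i]
    rotate_left
    · exact a
    · exact b
    · exact a.sub b
    · exact integrable_const _
    simp only [integral_const, probReal_univ, one_smul]
    rw [Finset.sum_congr rfl fun i _ => hpv i, Finset.sum_const, nsmul_eq_mul]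
    have h0 : (0 : ℝ) ≤ S.card := Nat.cast_nonneg _
    rw [show (S.card : ℝ) * ((S.card : ℝ) + 2) * (1 / ((n : ℝ) * (n + 2))) -
        2 * w * ((S.card : ℝ) * (1 / n)) + w ^ 2 =
      2 * S.card * ((n : ℝ) - S.card) / ((n : ℝ) ^ 2 * (n + 2)) by rw [hw]; field_simp; ring,
      div_le_div_iff₀ (by positivity) hn]
    nlinarith [mul_nonneg h0 (sub_nonneg.2 hS), mul_nonneg (mul_nonneg h0 h0) hn.le,
      mul_le_mul_of_nonneg_right hS (sq_nonneg (n : ℝ))]
  set t := Real.sqrt (2 / n) with ht
  have ht0 : 0 < t := Real.sqrt_pos.2 (by positivity)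
  calc ∫ U, |(∑ i ∈ S, act U (ev e) i ^ 2) - (S.card : ℝ) / n| ∂μ
      ≤ ∫ U, ((2 * t)⁻¹ * X U ^ 2 + t / 2) ∂μ := by
        refine integral_mono (integrable_cont cX.abs)
          (((integrable_cont (cX.pow 2)).const_mul _).add (integrable_const _)) fun U => ?_
        have key : ∀ y : ℝ, |y| ≤ (2 * t)⁻¹ * y ^ 2 + t / 2 := fun y => by
          rw [← sub_nonneg, ← sq_abs y, show (2 * t)⁻¹ * |y| ^ 2 + t / 2 - |y| =
            (|y| - t) ^ 2 / (2 * t) by field_simp; ring]
          positivity
        exact key (X U)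
    _ = (2 * t)⁻¹ * (∫ U, X U ^ 2 ∂μ) + t / 2 := by
        rw [integral_add, integral_const_mul]
        · simp
        · exact (integrable_cont (cX.pow 2)).const_mul _
        · exact integrable_const _
    _ ≤ (2 * t)⁻¹ * (2 / n) + t / 2 :=
        add_le_add (mul_le_mul_of_nonneg_left hV (by positivity)) le_rfl
    _ = t := by
        have h2 : 2 / (n : ℝ) = t ^ 2 := (Real.sq_sqrt (by positivity)).symm
        rw [h2]; field_simp; ring

end Vale.Agent.P166.Haar2.Cavity
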