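import Vale.Agent.P166.Haar2.Cavity.Frame
import Vale.Agent.P166.Haar2.Cavity.Turn

/-!
One more site in a fixed frame: the system of `N + 1` sites is squeezed between tilts of the
cavity weight of the promoted system of `N` sites.
-/

noncomputable section

open MeasureTheory ProbabilityTheory
open scoped BigOperators Matrix

namespace Vale.Agent.P166.Haar2.Cavity

open Vale.Agent.P157 (gam)
open Vale.Agent.P157.Parisi (Cube scale)
open Vale.Agent.P168.Limit (logZ)

variable {N K L : ℕ}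

/-- Chosen first coordinates of the blocks. -/
structure Firsts (w : Fin N → Fin (K + 1)) (f : Fin (K + 1) → Fin N) : Prop where
  inj : Function.Injective f
  lab : ∀ l, w (f l) = l
  top : ∀ l, promote w (f l) = Fin.last K
  off : ∀ i, (∀ l, f l ≠ i) → promote w i = w i

lemma exists_firsts (w : Fin N → Fin (K + 1)) (hne : ∀ k, 0 < blockCard w k) :
    ∃ f, Firsts w f := by
  have h : ∀ k, (Finset.univ.filter fun i => w i = k).Nonempty := fun k => Finset.card_pos.1 (hne k)
  set f : Fin (K + 1) → Fin N := fun k => (Finset.univ.filter fun i => w i = k).min' (h k)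
  have hw : ∀ k, w (f k) = k := fun k => (Finset.mem_filter.1 (Finset.min'_mem _ (h k))).2
  have hmin : ∀ i, f (w i) ≤ i := fun i => Finset.min'_le _ i (by simp)
  refine ⟨f, fun a b e => by rw [← hw a, ← hw b, e], hw, fun l => if_pos fun i hi he => ?_,
    fun i hi => if_neg fun hall => ?_⟩
  · have := hmin i
    rw [he, hw] at this
    exact absurd this (not_le.2 hi)
  · exact hall (f (w i)) (lt_of_le_of_ne (hmin i) (hi _)) (hw _)

/-- The rotation carrying the new site onto the first coordinates. -/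
def turnM (f : Fin (K + 1) → Fin N) (hf : Function.Injective f) (O : OG (K + 1)) : OG (N + 1) :=
  emb (fun l => (f l).castSucc) ((Fin.castSucc_injective N).comp hf) O *
    refl (ev (f (Fin.last K)).castSucc - ev (Fin.last N))

/-- The arguments of the small rotation. -/
def qv (f : Fin (K + 1) → Fin N) (V : Fin N → ℝ) (t : ℝ) : Fin (K + 1) → ℝ :=
  Fin.snoc (fun i : Fin K => V (f i.castSucc)) t

lemma act_turn (f : Fin (K + 1) → Fin N) (hf : Function.Injective f) (O : OG (K + 1))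
    (V : Fin N → ℝ) (t : ℝ) :
    (∀ l, act (turnM f hf O) (Fin.snoc V t) (f l).castSucc = act O (qv f V t) l) ∧
    (∀ i, (∀ l, f l ≠ i) → act (turnM f hf O) (Fin.snoc V t) i.castSucc = V i) ∧
      act (turnM f hf O) (Fin.snoc V t) (Fin.last N) = V (f (Fin.last K)) := by
  set v : Fin (N + 1) → ℝ := Fin.snoc V t
  set r := refl (ev (f (Fin.last K)).castSucc - ev (Fin.last N))
  have hne : (f (Fin.last K)).castSucc ≠ Fin.last N := (Fin.castSucc_lt_last _).ne
  obtain ⟨h1, h2⟩ := act_emb (fun l => (f l).castSucc) ((Fin.castSucc_injective N).comp hf) O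
    (act r v)
  simp only [turnM, act_mul]
  refine ⟨fun l => ?_, fun i hi => ?_, ?_⟩
  · rw [h1 l]
    refine congrFun (congrArg (act O) (funext fun i => ?_)) l
    induction i using Fin.lastCases with
    | last => rw [act_refl_swap hne, Equiv.swap_apply_left]; simp [qv, v]
    | cast i =>
      rw [act_refl_swap hne, Equiv.swap_apply_of_ne_of_ne
        (fun e => (Fin.castSucc_lt_last i).ne (hf (Fin.castSucc_injective _ e)))
        (Fin.castSucc_lt_last _).ne]
      simp [qv, v]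
  · rw [h2 _ fun l e => hi l (Fin.castSucc_injective _ e), act_refl_swap hne,
      Equiv.swap_apply_of_ne_of_ne (fun e => hi _ (Fin.castSucc_injective _ e).symm)
        (Fin.castSucc_lt_last _).ne]
    simp [v]
  · rw [h2 _ fun l => (Fin.castSucc_lt_last _).ne, act_refl_swap hne, Equiv.swap_apply_right]
    simp [v]

/-! ### The small rotation -/

lemma dot_self_eq {m : ℕ} (v : Fin m → ℝ) : v ⬝ᵥ v = ∑ l, v l ^ 2 := by
  simp [dotProduct, sq]

lemma coord_le_norm {m : ℕ} (v : Fin m → ℝ) (l : Fin m) : |v l| ≤ Real.sqrt (v ⬝ᵥ v) := by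
  rw [dot_self_eq]
  exact Real.abs_le_sqrt (Finset.single_le_sum (f := fun i => v i ^ 2) (fun i _ => sq_nonneg _)
    (Finset.mem_univ l))

/-- The rotation carrying one unit vector to a nearby one is nearly the identity. -/
lemma near_rot {m : ℕ} (a ρ : Fin m → ℝ) (ha : a ⬝ᵥ a = 1) (hρ : ρ ⬝ᵥ ρ = 1)
    (haρ : 0 ≤ a ⬝ᵥ ρ) :
    act (refl (a + ρ) * refl a) a = ρ ∧ ∀ x l, |act (refl (a + ρ) * refl a) x l - x l| ≤
      6 * (∑ i, |ρ i - a i|) * Real.sqrt (x ⬝ᵥ x) := by
  have hbb : (a + ρ) ⬝ᵥ (a + ρ) = 2 + 2 * (a ⬝ᵥ ρ) := by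
    rw [add_dotProduct, dotProduct_add, dotProduct_add, ha, hρ, dotProduct_comm ρ a]; ring
  have hbb0 : (2 : ℝ) + 2 * (a ⬝ᵥ ρ) ≠ 0 := by linarith
  have hy : ∀ x, act (refl a) x = x - (2 * (a ⬝ᵥ x)) • a := fun x => by
    rw [act_refl, ha, div_one]
  constructor
  · rw [act_mul, hy a, ha, act_refl, hbb, dotProduct_sub, dotProduct_smul, add_dotProduct, ha,
      dotProduct_comm ρ a, smul_eq_mul]
    funext l
    simp only [Pi.sub_apply, Pi.smul_apply, Pi.add_apply, smul_eq_mul]
    field_simp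
    ring
  intro x l
  set D := ∑ i, |ρ i - a i| with hD
  set S := Real.sqrt (x ⬝ᵥ x) with hS
  set y := act (refl a) x
  have hD0 : 0 ≤ D := Finset.sum_nonneg fun i _ => abs_nonneg _
  have hS0 : 0 ≤ S := Real.sqrt_nonneg _
  have hyS : ∀ i, |y i| ≤ S := fun i => by
    refine (coord_le_norm y i).trans_eq ?_
    rw [hS, act_dot]
  have hal : ∀ i, |a i| ≤ 1 := fun i => (coord_le_norm a i).trans_eq (by rw [ha, Real.sqrt_one])
  have hρl : |ρ l| ≤ 1 := (coord_le_norm ρ l).trans_eq (by rw [hρ, Real.sqrt_one])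
  have hax : |a ⬝ᵥ x| ≤ S := Real.abs_le_sqrt (by simpa [ha] using dot_sq_le a x)
  have hdd : ∀ v : Fin m → ℝ, ∀ R, (∀ i, |v i| ≤ R) → |(ρ - a) ⬝ᵥ v| ≤ D * R := fun v R hv => by
    refine (Finset.abs_sum_le_sum_abs _ _).trans ?_
    rw [hD, Finset.sum_mul]
    exact Finset.sum_le_sum fun i _ => by
      rw [abs_mul]; exact mul_le_mul_of_nonneg_left (hv i) (abs_nonneg _)
  have hdy : |(ρ - a) ⬝ᵥ y| ≤ D * S := hdd y S hyS
  have hda : |(ρ - a) ⬝ᵥ a| ≤ D := (hdd a 1 hal).trans_eq (mul_one D)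
  have hdl : |ρ l - a l| ≤ D :=
    Finset.single_le_sum (f := fun i => |ρ i - a i|) (fun i _ => abs_nonneg _) (Finset.mem_univ l)
  have hay : a ⬝ᵥ y = -(a ⬝ᵥ x) := by
    show a ⬝ᵥ act (refl a) x = _
    rw [hy, dotProduct_sub, dotProduct_smul, ha, smul_eq_mul]; ring
  have hby : (a + ρ) ⬝ᵥ y = -2 * (a ⬝ᵥ x) + (ρ - a) ⬝ᵥ y := by
    rw [add_dotProduct, sub_dotProduct, hay]; ring
  have hyl : y l = x l - 2 * (a ⬝ᵥ x) * a l := by
    show act (refl a) x l = _
    rw [hy]; simp
  have e : act (refl (a + ρ) * refl a) x l - x l =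
      (-4 * (a ⬝ᵥ x) * ((ρ - a) ⬝ᵥ a) * a l + 4 * (a ⬝ᵥ x) * (ρ l - a l) -
        2 * ((ρ - a) ⬝ᵥ y) * (a l + ρ l)) / (2 + 2 * (a ⬝ᵥ ρ)) := by
    rw [act_mul, act_refl, hbb]
    show y l - 2 * ((a + ρ) ⬝ᵥ y) / _ * (a l + ρ l) - x l = _
    rw [hby, hyl, sub_dotProduct ρ a a, ha, dotProduct_comm ρ a]
    field_simp
    ring
  rw [e, abs_div, abs_of_pos (by linarith : (0 : ℝ) < 2 + 2 * (a ⬝ᵥ ρ)),
    div_le_iff₀ (by linarith)]
  have t1 : |-4 * (a ⬝ᵥ x) * ((ρ - a) ⬝ᵥ a) * a l| ≤ 4 * S * D := by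
    rw [abs_mul, abs_mul, abs_mul, abs_neg, abs_of_nonneg (by norm_num : (0 : ℝ) ≤ 4)]
    calc 4 * |a ⬝ᵥ x| * |(ρ - a) ⬝ᵥ a| * |a l| ≤ 4 * S * D * 1 := by
          gcongr; exact hal l
      _ = _ := mul_one _
  have t2 : |4 * (a ⬝ᵥ x) * (ρ l - a l)| ≤ 4 * S * D := by
    rw [abs_mul, abs_mul, abs_of_nonneg (by norm_num : (0 : ℝ) ≤ 4)]
    gcongr
  have t3 : |2 * ((ρ - a) ⬝ᵥ y) * (a l + ρ l)| ≤ 4 * S * D := by
    rw [abs_mul, abs_mul, abs_of_nonneg (by norm_num : (0 : ℝ) ≤ 2)]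
    calc 2 * |(ρ - a) ⬝ᵥ y| * |a l + ρ l| ≤ 2 * (D * S) * 2 := by
          gcongr
          exact (abs_add_le _ _).trans (by linarith [hal l])
      _ = _ := by ring
  have h12 := mul_nonneg (mul_nonneg hD0 hS0) haρ
  refine le_trans ((abs_sub _ _).trans (add_le_add ((abs_add_le _ _).trans (add_le_add t1 t2)) t3)) ?_
  linarith

variable (A : Atoms K) (Cp : Compr A)

/-- The compression as a rotation. -/
def compO : OG (K + 1) := ⟨Cp.O, (Matrix.mem_orthogonalGroup_iff' _ _).2 Cp.orth⟩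

lemma act_compO_last : act (compO A Cp) (ev (Fin.last K)) = fun i => Real.sqrt (A.c i) := by
  funext i
  simp [act, compO, ev, Matrix.mulVec_single, Cp.last_col]

lemma compr_quad (u : Fin K → ℝ) (t : ℝ) :
    ∑ l, A.a l * act (compO A Cp) (Fin.snoc u t) l ^ 2 =
      (∑ i, Cp.z i * u i ^ 2) + 2 * t * (∑ i, Cp.b i * u i) + t ^ 2 * A.mean := by
  have hll : ∑ l, Cp.O l (Fin.last K) * A.a l * Cp.O l (Fin.last K) = A.mean := by
    simp only [Cp.last_col, Atoms.mean]
    refine Finset.sum_congr rfl fun l _ => ?_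
    rw [mul_right_comm, Real.mul_self_sqrt (A.pos l).le]
  have e : ∑ l, A.a l * act (compO A Cp) (Fin.snoc u t) l ^ 2 =
      ∑ p : Fin (K + 1), ∑ p' : Fin (K + 1), (Fin.snoc u t : Fin (K + 1) → ℝ) p *
        (Fin.snoc u t : Fin (K + 1) → ℝ) p' * ∑ l, Cp.O l p * A.a l * Cp.O l p' := by
    simp only [act, compO, Matrix.mulVec, dotProduct, pow_two, Finset.mul_sum, Finset.sum_mul]
    rw [Finset.sum_comm]
    refine Finset.sum_congr rfl fun p _ => ?_
    rw [Finset.sum_comm]
    exact Finset.sum_congr rfl fun p' _ => Finset.sum_congr rfl fun l _ => by ring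
  have hrow : ∀ j : Fin K, ∑ l, Cp.O l (Fin.last K) * A.a l * Cp.O l j.castSucc = Cp.b j :=
    fun j => by
      rw [← Cp.conj_row j]
      exact Finset.sum_congr rfl fun l _ => by ring
  set S : Fin (K + 1) → Fin (K + 1) → ℝ := fun p p' => ∑ l, Cp.O l p * A.a l * Cp.O l p' with hS
  have h1 : ∀ i j : Fin K, S i.castSucc j.castSucc = if i = j then Cp.z i else 0 := Cp.conj_block
  have h2 : ∀ j : Fin K, S j.castSucc (Fin.last K) = Cp.b j := Cp.conj_row
  have h3 : ∀ j : Fin K, S (Fin.last K) j.castSucc = Cp.b j := hrow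
  have h4 : S (Fin.last K) (Fin.last K) = A.mean := hll
  change _ = ∑ p : Fin (K + 1), ∑ p' : Fin (K + 1), (Fin.snoc u t : Fin (K + 1) → ℝ) p *
    (Fin.snoc u t : Fin (K + 1) → ℝ) p' * S p p' at e
  clear_value S
  simp only [Fin.sum_univ_castSucc (n := K), Fin.snoc_castSucc, Fin.snoc_last, h1, h2, h3, h4,
    mul_ite, mul_zero, Finset.sum_ite_eq, Finset.mem_univ, if_true,
    Finset.sum_add_distrib] at e ⊢
  rw [e]
  have e1 : ∑ j, u j * u j * Cp.z j = ∑ j, Cp.z j * u j ^ 2 :=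
    Finset.sum_congr rfl fun j _ => by ring
  have e2 : ∑ j, u j * t * Cp.b j = t * ∑ j, Cp.b j * u j := by
    rw [Finset.mul_sum]; exact Finset.sum_congr rfl fun j _ => by ring
  have e3 : ∑ j, t * u j * Cp.b j = t * ∑ j, Cp.b j * u j := by
    rw [Finset.mul_sum]; exact Finset.sum_congr rfl fun j _ => by ring
  rw [e1, e2, e3]
  ring

/-- The rotation of the first coordinates with prescribed last column. -/
def stepO (ρ : Fin (K + 1) → ℝ) : OG (K + 1) :=
  refl ((fun i => Real.sqrt (A.c i)) + ρ) * refl (fun i => Real.sqrt (A.c i)) * compO A Cp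

/-- The distance of the block norms to their limits. -/
def colDist (ρ : Fin (K + 1) → ℝ) : ℝ := ∑ i, |ρ i - Real.sqrt (A.c i)|

lemma stepO_spec {ρ : Fin (K + 1) → ℝ} (hρ : ∑ l, ρ l ^ 2 = 1) (hρ0 : ∀ l, 0 ≤ ρ l) :
    act (stepO A Cp ρ) (ev (Fin.last K)) = ρ ∧ ∀ p l,
      |act (stepO A Cp ρ) p l - act (compO A Cp) p l| ≤ 6 * colDist A ρ * Real.sqrt (p ⬝ᵥ p) := by
  obtain ⟨h1, h2⟩ := near_rot (fun i => Real.sqrt (A.c i)) ρ
    (by simp [dotProduct, Real.mul_self_sqrt (A.pos _).le, A.sum_one])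
    ((dot_self_eq ρ).trans hρ)
    (Finset.sum_nonneg fun i _ => mul_nonneg (Real.sqrt_nonneg _) (hρ0 i))
  refine ⟨by rw [stepO, act_mul, act_compO_last, h1], fun p l => ?_⟩
  rw [stepO, act_mul]
  refine (h2 (act (compO A Cp) p) l).trans_eq ?_
  rw [act_dot]
  rfl

/-- The excitations of the new site. -/
def thetaK (k : Fin (K + 1)) : Fin (K + 1) → ℝ :=
  Fin.snoc (fun i => A.top - Cp.z i) (A.gapTop k)

/-- The exponent of the test weight at the larger system. -/
def tau (κ : ℝ) (lin : Bool) {deg : ℕ} (g : TIdx N deg → ℝ) (σ : Cube (N + 1)) : ℝ :=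
  Real.sqrt κ * (if lin then 1 else if σ (Fin.last N) then 1 else -1) *
      testZ g (fun i => σ i.castSucc) -
    κ * testZ g (fun i => σ i.castSucc) ^ 2 / 2

lemma tau_le (κ : ℝ) (hκ : 0 ≤ κ) (lin : Bool) {deg : ℕ} (g : TIdx N deg → ℝ)
    (σ : Cube (N + 1)) :
    tau κ lin g σ ≤ 1 / 2 ∧
      |tau κ lin g σ| ≤ 1 / 2 + κ * testZ g (fun i => σ i.castSucc) ^ 2 := by
  set Z := testZ g (fun i => σ i.castSucc)
  set c : ℝ := if lin then 1 else if σ (Fin.last N) then 1 else -1
  have hc : c ^ 2 = 1 := by simp only [c]; split_ifs <;> norm_num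
  have h := Real.sq_sqrt hκ
  have e : (Real.sqrt κ * c * Z) ^ 2 = κ * Z ^ 2 := by rw [mul_pow, mul_pow, h, hc, mul_one]
  have e' : tau κ lin g σ = Real.sqrt κ * c * Z - κ * Z ^ 2 / 2 := rfl
  rw [e', abs_le]
  exact ⟨by nlinarith [sq_nonneg (Real.sqrt κ * c * Z - 1)],
    by nlinarith [sq_nonneg (Real.sqrt κ * c * Z + 1)],
    by nlinarith [sq_nonneg (Real.sqrt κ * c * Z - 1)]⟩

/-- Forgetting the last site. -/
def front (σ : Cube (N + 1)) : Cube N := fun i => σ i.castSucc

lemma rot_step (f : Fin (K + 1) → Fin N) (hf : Function.Injective f) (O : OG (K + 1)) (h : OG N)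
    (σ : Cube (N + 1)) :
    rot (turnM f hf O * ext h) σ =
      act (turnM f hf O) (Fin.snoc (rot h (front σ)) (spin σ (Fin.last N))) := by
  rw [rot, act_mul, snoc_eta (spin σ), act_ext, Fin.snoc_last]
  rfl

/-- Summing out the last site. -/
lemma Fig_front (P : Sys N (K + 2)) (s : ℝ) (x : Fin L → ℝ) (h : OG N) (C : Cube N → ℝ)
    (ψ : Cube (N + 1) → ℝ) :
    Fig P s x h front (fun σ => C (front σ) + ψ σ) =
      Fig P s x h id (fun τ => C τ + Real.log (Real.exp (ψ (Fin.snoc τ true)) +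
        Real.exp (ψ (Fin.snoc τ false)))) := by
  refine integral_congr_ae (ae_of_all _ fun J => ?_)
  unfold logZ
  dsimp only
  congr 1
  rw [← (Fin.snocEquiv fun _ : Fin (N + 1) => Bool).sum_comp, Fintype.sum_prod_type_right]
  refine Finset.sum_congr rfl fun τ _ => ?_
  have hfr : ∀ b, front (Fin.snocEquiv (fun _ : Fin (N + 1) => Bool) (b, τ)) = τ := fun b => by
    funext i
    simp [front, Fin.snocEquiv]
  simp only [Fintype.sum_bool, hfr, id_eq, Real.exp_add,
    Real.exp_log (add_pos (Real.exp_pos _) (Real.exp_pos _))]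
  show _ = _
  simp only [Fin.snocEquiv, Equiv.coe_fn_mk]
  ring

variable (a : Fin (K + 1) → ℝ) (w : Fin N → Fin (K + 1)) (k : Fin (K + 1))

/-- The slope of the energy. -/
def epsE (ρ : Fin (K + 1) → ℝ) : ℝ :=
  2 * (∑ l, |a l - A.a l|) + 6 * (∑ l, |A.a l|) * colDist A ρ

lemma epsE_nonneg (ρ : Fin (K + 1) → ℝ) : 0 ≤ epsE A a ρ :=
  add_nonneg (mul_nonneg zero_le_two (Finset.sum_nonneg fun _ _ => abs_nonneg _))
    (mul_nonneg (mul_nonneg (by norm_num) (Finset.sum_nonneg fun _ _ => abs_nonneg _))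
      (Finset.sum_nonneg fun _ _ => abs_nonneg _))

lemma qv_norm (f : Fin (K + 1) → Fin N) (h : OG N) (σ : Cube (N + 1)) :
    qv f (rot h (front σ)) (spin σ (Fin.last N)) ⬝ᵥ qv f (rot h (front σ)) (spin σ (Fin.last N)) +
        rot h (front σ) (f (Fin.last K)) ^ 2 = 1 + Qc f h (front σ) := by
  rw [dot_self_eq, Fin.sum_univ_castSucc, Qc, Fin.sum_univ_castSucc]
  simp only [qv, Fin.snoc_castSucc, Fin.snoc_last, spin_sq]
  ring

/-- The energy of the new system in the frame. -/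
theorem energy {f : Fin (K + 1) → Fin N} (hF : Firsts w f) {ρ : Fin (K + 1) → ℝ}
    (hρ : ∑ l, ρ l ^ 2 = 1) (hρ0 : ∀ l, 0 ≤ ρ l) (h : OG N) (σ : Cube (N + 1)) :
    let d : ℝ := base0 (stdSys a (Fin.snoc w k)) (turnM f hF.inj (stepO A Cp ρ) * ext h) σ -
      base0 (stdSys a (promote w)) h (front σ)
    |d - (A.mean / 2 + spin σ (Fin.last N) *
        (∑ j, (Fin.snoc Cp.b 0 : Fin (K + 1) → ℝ) j * rot h (front σ) (f j)) -
        (∑ j, thetaK A Cp k j * rot h (front σ) (f j) ^ 2) / 2 - Real.log 2)| ≤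
        epsE A a ρ * (1 + Qc f h (front σ)) ∧
      ((∀ l, a l ≤ a (Fin.last K)) → d ≤ a (Fin.last K) / 2 - Real.log 2) := by
  intro d
  classical
  set O := stepO A Cp ρ
  set V := rot h (front σ) with hV
  set t := spin σ (Fin.last N) with ht
  set q := qv f V t with hq
  set u := V (f (Fin.last K)) with hu
  obtain ⟨hy1, hy2, hy3⟩ := act_turn f hF.inj O V t
  have hd : d = ((∑ l, a l * act O q l ^ 2) + a k * u ^ 2 -
      a (Fin.last K) * Qc f h (front σ)) / 2 - Real.log 2 := by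
    have hs : ∀ g : Fin N → ℝ, ∑ i, g i =
        (∑ i ∈ Finset.univ \ Finset.univ.image f, g i) + ∑ l, g (f l) := fun g => by
      rw [← Finset.sum_image (s := Finset.univ) (f := g) fun x _ y _ e => hF.inj e,
        Finset.sum_sdiff (Finset.subset_univ _)]
    show base0 _ (turnM f hF.inj O * ext h) σ - base0 _ _ _ = _
    simp only [base0, rot_step, ← hV, ← ht, Fin.sum_univ_castSucc (n := N), stdSys,
      Fin.snoc_castSucc, Fin.snoc_last, hy3]
    rw [hs fun i => a (w i) * act (turnM f hF.inj O) (Fin.snoc V t) i.castSucc ^ 2,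
      hs fun i => a (promote w i) * V i ^ 2]
    simp only [hy1, hF.lab, hF.top, ← hq, ← Finset.mul_sum, Qc, ← hu, ← hV]
    rw [Finset.sum_congr rfl (g := fun i => a (promote w i) * V i ^ 2) fun i hi => by
      have hne : ∀ l, f l ≠ i := fun l e =>
        (Finset.mem_sdiff.1 hi).2 (Finset.mem_image.2 ⟨l, Finset.mem_univ _, e⟩)
      rw [hy2 i hne, hF.off i hne]]
    push_cast
    ring
  set S2 := q ⬝ᵥ q with hS2
  have hS : S2 + u ^ 2 = 1 + Qc f h (front σ) := qv_norm f h σ
  have hS0 : 0 ≤ S2 := by rw [hS2, dot_self_eq]; exact Finset.sum_nonneg fun l _ => sq_nonneg _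
  have hy : ∑ l, act O q l ^ 2 = S2 := by rw [← dot_self_eq, act_dot]
  have hQ0 := Qc_nonneg f h (front σ)
  constructor
  · set p := act (compO A Cp) q with hp
    set D := colDist A ρ with hD
    set SA := ∑ l, |A.a l|
    set da := ∑ l, |a l - A.a l|
    have hD0 : 0 ≤ D := Finset.sum_nonneg fun _ _ => abs_nonneg _
    have hda : ∀ l, |a l - A.a l| ≤ da := fun l =>
      Finset.single_le_sum (f := fun i => |a i - A.a i|) (fun i _ => abs_nonneg _)
        (Finset.mem_univ l)
    have hr := Real.mul_self_sqrt hS0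
    have hterm : ∀ l, |A.a l * act O q l ^ 2 - A.a l * p l ^ 2| ≤ |A.a l| * (12 * D * S2) := by
      intro l
      have h1 := (stepO_spec A Cp hρ hρ0).2 q l
      have h2 : |act O q l + p l| ≤ 2 * Real.sqrt S2 := by
        have a1 : |act O q l| ≤ Real.sqrt S2 :=
          (coord_le_norm _ l).trans_eq (by rw [act_dot])
        have a2 : |p l| ≤ Real.sqrt S2 := (coord_le_norm _ l).trans_eq (by rw [hp, act_dot])
        exact (abs_add_le _ _).trans (by linarith)
      rw [← mul_sub, abs_mul]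
      refine mul_le_mul_of_nonneg_left ?_ (abs_nonneg _)
      rw [sq_sub_sq, abs_mul]
      calc |act O q l + p l| * |act O q l - p l| ≤
            2 * Real.sqrt S2 * (6 * D * Real.sqrt S2) :=
            mul_le_mul h2 h1 (abs_nonneg _) (by positivity)
        _ = 12 * D * (Real.sqrt S2 * Real.sqrt S2) := by ring
        _ = _ := by rw [hr]
    have h1 : |(∑ l, A.a l * act O q l ^ 2) - ∑ l, A.a l * p l ^ 2| ≤ SA * (12 * D * S2) := by
      rw [← Finset.sum_sub_distrib, Finset.sum_mul]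
      exact (Finset.abs_sum_le_sum_abs _ _).trans (Finset.sum_le_sum fun l _ => hterm l)
    have h2 : |(∑ l, a l * act O q l ^ 2) - ∑ l, A.a l * act O q l ^ 2| ≤ da * S2 := by
      rw [← Finset.sum_sub_distrib, ← hy, Finset.mul_sum]
      refine (Finset.abs_sum_le_sum_abs _ _).trans (Finset.sum_le_sum fun l _ => ?_)
      rw [← sub_mul, abs_mul, abs_of_nonneg (sq_nonneg (act O q l))]
      exact mul_le_mul_of_nonneg_right (hda l) (sq_nonneg _)
    have hc := compr_quad A Cp (fun i => V (f i.castSucc)) t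
    rw [show t ^ 2 = 1 from spin_sq σ _, one_mul] at hc
    change ∑ l, A.a l * p l ^ 2 = _ at hc
    have hsb : ∑ j, (Fin.snoc Cp.b 0 : Fin (K + 1) → ℝ) j * V (f j) =
        ∑ i : Fin K, Cp.b i * V (f i.castSucc) := by
      rw [Fin.sum_univ_castSucc]; simp
    have hsθ : ∑ j, thetaK A Cp k j * V (f j) ^ 2 =
        (A.top * ∑ i : Fin K, V (f i.castSucc) ^ 2) - (∑ i, Cp.z i * V (f i.castSucc) ^ 2) +
          (A.a (Fin.last K) - A.a k) * u ^ 2 := by
      rw [Fin.sum_univ_castSucc, Finset.mul_sum, ← Finset.sum_sub_distrib]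
      simp only [thetaK, Fin.snoc_castSucc, Fin.snoc_last, sub_mul, Atoms.gapTop, Atoms.top, ← hu]
    rw [hd, hsb, hsθ]
    simp only [Atoms.top]
    have hQs : Qc f h (front σ) = (∑ i : Fin K, V (f i.castSucc) ^ 2) + u ^ 2 := by
      rw [Qc, Fin.sum_univ_castSucc]
    have a1 := abs_le.1 h1
    have a2 := abs_le.1 h2
    have b1 := abs_le.1 (hda k)
    have b2 := abs_le.1 (hda (Fin.last K))
    have c1 := mul_le_mul_of_nonneg_right b1.1 (sq_nonneg u)
    have c2 := mul_le_mul_of_nonneg_right b1.2 (sq_nonneg u)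
    have c3 := mul_le_mul_of_nonneg_right b2.1 hQ0
    have c4 := mul_le_mul_of_nonneg_right b2.2 hQ0
    have hda0 : 0 ≤ da := Finset.sum_nonneg fun _ _ => abs_nonneg _
    have hSA0 : 0 ≤ SA * D := mul_nonneg (Finset.sum_nonneg fun _ _ => abs_nonneg _) hD0
    have e1 := mul_le_mul_of_nonneg_left (by linarith [sq_nonneg u] : S2 ≤ 1 + Qc f h (front σ))
      hSA0
    have e2 := mul_le_mul_of_nonneg_left (by linarith : S2 + u ^ 2 ≤ 1 + Qc f h (front σ)) hda0
    have e3 := mul_le_mul_of_nonneg_left (le_add_of_nonneg_left zero_le_one :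
      Qc f h (front σ) ≤ 1 + Qc f h (front σ)) hda0
    rw [hQs] at c3 c4 e1 e2 e3 ⊢
    rw [abs_le, epsE, ← hD]
    constructor <;> linarith [mul_nonneg hda0 hS0, mul_nonneg hda0 (sq_nonneg u)]
  · intro hmax
    have h1 : ∑ l, a l * act O q l ^ 2 ≤ a (Fin.last K) * S2 := by
      rw [← hy, Finset.mul_sum]
      exact Finset.sum_le_sum fun l _ => mul_le_mul_of_nonneg_right (hmax l) (sq_nonneg _)
    have h2 := mul_le_mul_of_nonneg_right (hmax k) (sq_nonneg u)
    have h3 : a (Fin.last K) * (S2 + u ^ 2) = a (Fin.last K) * (1 + Qc f h (front σ)) := by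
      rw [hS]
    rw [hd]
    linarith

lemma movl_sum {M G : ℕ} (P : Sys M G) (U : OG M) (m : Fin M → ℝ) (g : Fin G) (σ τ : Cube M) :
    movl P U m g σ τ =
      (∑ i, if i ∈ P.S g then m i * (rot U σ i * rot U τ i) else 0) / P.ν := by
  rw [movl, Finset.sum_ite_mem, Finset.univ_inter]

open scoped Classical in
/-- The perturbations of the two systems, through masks. -/
theorem pert_pinch {f : Fin (K + 1) → Fin N} (hF : Firsts w f) (hN : 0 < N) (O : OG (K + 1))
    (h : OG N) (s : ℝ) (x : Fin L → ℝ) (hx : ∀ i, |x i| ≤ 3) (C : Cube (N + 1) → ℝ) :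
    Fig (stdSys a (Fin.snoc w k)) s x (turnM f hF.inj O * ext h) id C ≤
        Fig (stdSys a (promote w)) s x h front
          (fun σ => C σ + 2 * s ^ 2 / N * (1 + Qc f h (front σ))) ∧
      Fig (stdSys a (promote w)) s x h front
          (fun σ => C σ - 2 * s ^ 2 / N * (1 + Qc f h (front σ))) ≤
        Fig (stdSys a (Fin.snoc w k)) s x (turnM f hF.inj O * ext h) id C := by
  set U := turnM f hF.inj O * ext h
  set P1 := stdSys a (Fin.snoc w k : Fin (N + 1) → Fin (K + 1))
  set P0 := stdSys a (promote w)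
  set I := Finset.univ.image f with hI
  set m : Fin N → ℝ := fun i => if i ∈ I then 0 else (N : ℝ) / (N + 1) with hm
  set m' : Fin (N + 1) → ℝ := Fin.snoc (fun i => if i ∈ I then 0 else 1) 0 with hm'
  have hN' : (0 : ℝ) < N := Nat.cast_pos.2 hN
  have hm01 : ∀ i, m i ∈ Set.Icc (0 : ℝ) 1 := fun i => by
    simp only [hm]
    split_ifs
    · simp
    · exact ⟨by positivity, (div_le_one (by positivity)).2 (by linarith)⟩
  have hm01' : ∀ i, m' i ∈ Set.Icc (0 : ℝ) 1 := fun i => by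
    induction i using Fin.lastCases with
    | last => simp [hm']
    | cast i => simp only [hm', Fin.snoc_castSucc]; split_ifs <;> simp
  have hy : ∀ σ i, i ∉ I → rot U σ i.castSucc = rot h (front σ) i := fun σ i hi => by
    rw [rot_step]
    exact (act_turn f hF.inj O _ _).2.1 i fun l e =>
      hi (Finset.mem_image.2 ⟨l, Finset.mem_univ _, e⟩)
  have hS : ∀ g i, i ∉ I → (i.castSucc ∈ P1.S g ↔ i ∈ P0.S g) := fun g i hi => by
    have hp := hF.off i fun l e => hi (Finset.mem_image.2 ⟨l, Finset.mem_univ _, e⟩)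
    refine Fin.cases ?_ (fun l => ?_) g <;> simp [P0, P1, stdSys, hp]
  have hcore : ∀ g σ τ, movl P1 U m' g σ τ = movl P0 h m g (front σ) (front τ) := by
    intro g σ τ
    rw [movl_sum, movl_sum, Fin.sum_univ_castSucc]
    simp only [hm', Fin.snoc_last, zero_mul, ite_self, add_zero, Finset.sum_div, Fin.snoc_castSucc]
    refine Finset.sum_congr rfl fun i _ => ?_
    by_cases hi : i ∈ I
    · simp [hm, hi]
    · simp only [hm, if_neg hi, hy σ i hi, hy τ i hi, hS g i hi]
      split_ifs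
      · show _ / ((N + 1 : ℕ) : ℝ) = _ / (N : ℝ)
        push_cast
        field_simp
      · simp
  have hv1 : ∀ σ, 2 * s ^ 2 / P1.ν * ∑ i, (1 - m' i) * rot U σ i ^ 2 ≤
      2 * s ^ 2 / N * (1 + Qc f h (front σ)) := by
    intro σ
    have e : ∑ i, (1 - m' i) * rot U σ i ^ 2 = 1 + Qc f h (front σ) := by
      have hq := qv_norm f h σ
      rw [← act_dot O, dot_self_eq] at hq
      rw [← hq, Fin.sum_univ_castSucc]
      simp only [hm', Fin.snoc_castSucc, Fin.snoc_last, sub_zero, one_mul, sub_mul, ite_mul,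
        zero_mul, Finset.sum_sub_distrib]
      have e2 : (∑ i : Fin N, rot U σ i.castSucc ^ 2) -
          ∑ i : Fin N, (if i ∈ I then 0 else rot U σ i.castSucc ^ 2) =
          ∑ l, rot U σ (f l).castSucc ^ 2 := by
        have e3 : ∑ i, (if i ∈ I then rot U σ i.castSucc ^ 2 else 0) =
            ∑ i ∈ I, rot U σ i.castSucc ^ 2 := by rw [Finset.sum_ite_mem, Finset.univ_inter]
        rw [← Finset.sum_image (f := fun i => rot U σ i.castSucc ^ 2)
          (s := Finset.univ) (g := f) fun a _ b _ e => hF.inj e, ← hI, ← e3,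
          ← Finset.sum_sub_distrib]
        exact Finset.sum_congr rfl fun i _ => by split_ifs <;> ring
      rw [e2]
      congr 1
      · exact Finset.sum_congr rfl fun l _ => by rw [rot_step, (act_turn f hF.inj O _ _).1]
      · rw [rot_step, (act_turn f hF.inj O _ _).2.2]
    rw [e]
    refine mul_le_mul_of_nonneg_right (div_le_div_of_nonneg_left (by positivity) hN' ?_)
      (by linarith [Qc_nonneg f h (front σ)])
    show (N : ℝ) ≤ ((N + 1 : ℕ) : ℝ)
    push_cast; linarith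
  have hv0 : ∀ σ, 2 * s ^ 2 / P0.ν * ∑ i, (1 - m i) * rot h (front σ) i ^ 2 ≤
      2 * s ^ 2 / N * (1 + Qc f h (front σ)) := by
    intro σ
    refine mul_le_mul_of_nonneg_left ?_ (by positivity)
    set V := rot h (front σ) with hV
    calc ∑ i, (1 - m i) * V i ^ 2
        ≤ ∑ i, ((if i ∈ I then V i ^ 2 else 0) + 1 / (N + 1 : ℝ) * V i ^ 2) := by
          refine Finset.sum_le_sum fun i _ => ?_
          simp only [hm]
          split_ifs
          · linarith [mul_nonneg (by positivity : (0 : ℝ) ≤ 1 / (N + 1)) (sq_nonneg (V i))]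
          · refine le_of_eq ?_
            field_simp
            ring
      _ = Qc f h (front σ) + (N : ℝ) / (N + 1) := by
          rw [Finset.sum_add_distrib, Finset.sum_ite_mem, Finset.univ_inter, ← Finset.mul_sum,
            hI, Finset.sum_image fun a _ b _ e => hF.inj e, hV, sum_rot_sq]
          rw [Qc]; ring
      _ ≤ _ := by
          rw [add_comm]
          exact add_le_add ((div_le_one (by positivity)).2 (by linarith)) le_rfl
  refine ⟨?_, ?_⟩
  · refine (Fig_compare P1 P0 le_rfl le_rfl (show (0 : ℝ) < ((N + 1 : ℕ) : ℝ) by positivity) hN'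
      s x hx U h id front m' m hm01' hm01 hcore C).trans ?_
    exact Fig_mono P0 s x h front fun σ => add_le_add le_rfl (hv1 σ)
  · refine (Fig_compare P0 P1 le_rfl le_rfl hN' (show (0 : ℝ) < ((N + 1 : ℕ) : ℝ) by positivity)
      s x hx h U front id m m' hm01 hm01' (fun g σ τ => (hcore g σ τ).symm) _).trans ?_
    exact Fig_mono P1 s x U id fun σ => by linarith [hv0 σ]

/-- The site is pinched between small tilts of the weight, and crudely above. -/
theorem site_pinch {f : Fin (K + 1) → Fin N} (hF : Firsts w f) (hN : 0 < N)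
    {ρ : Fin (K + 1) → ℝ} (hρ : ∑ l, ρ l ^ 2 = 1) (hρ0 : ∀ l, 0 ≤ ρ l) (s : ℝ) (x : Fin L → ℝ)
    (hx : ∀ i, |x i| ≤ 3) (κ : ℝ) (hκ : 0 ≤ κ) (lin : Bool) {deg : ℕ} (g : TIdx N deg → ℝ)
    (h : OG N) :
    let F : ℝ := Fi (stdSys a (Fin.snoc w k)) s x (turnM f hF.inj (stepO A Cp ρ) * ext h)
      (tau κ lin g)
    let ε : ℝ := epsE A a ρ + 2 * s ^ 2 / N
    let L0 : Cube N → ℝ := Lw (thetaK A Cp k) (Fin.snoc Cp.b 0) κ lin f g h
    Fi (stdSys a (promote w)) s x h (fun σ => L0 σ + -ε * Qc f h σ) + A.mean / 2 - ε ≤ F ∧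
      F ≤ Fi (stdSys a (promote w)) s x h (fun σ => L0 σ + ε * Qc f h σ) + A.mean / 2 + ε ∧
      ((∀ l, a l ≤ a (Fin.last K)) → F ≤ Fi (stdSys a (promote w)) s x h
        (fun σ => 2 * s ^ 2 / N * Qc f h σ) + (2 * s ^ 2 / N + a (Fin.last K) / 2 + 1 / 2)) := by
  intro F ε L0
  set P0 := stdSys a (promote w)
  set P1 := stdSys a (Fin.snoc w k : Fin (N + 1) → Fin (K + 1))
  set U := turnM f hF.inj (stepO A Cp ρ) * ext h
  set lam := fun τ : Cube N => ∑ j, thetaK A Cp k j * rot h τ (f j) ^ 2 with hlam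
  set bu := fun τ : Cube N =>
    ∑ j, (Fin.snoc Cp.b 0 : Fin (K + 1) → ℝ) j * rot h τ (f j) with hbu
  set ψ : Cube (N + 1) → ℝ := fun σ =>
    spin σ (Fin.last N) * bu (front σ) - lam (front σ) / 2 + tau κ lin g σ - Real.log 2 with hψ
  have hspin : ∀ (τ : Cube N) (b : Bool),
      spin (Fin.snoc τ b : Cube (N + 1)) (Fin.last N) = if b then 1 else -1 := fun τ b => by
    simp [spin]
  have hfr : ∀ (τ : Cube N) (b : Bool), front (Fin.snoc τ b : Cube (N + 1)) = τ := fun τ b => by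
    funext i; simp [front]
  have hL : ∀ τ, Real.log (Real.exp (ψ (Fin.snoc τ true)) + Real.exp (ψ (Fin.snoc τ false))) =
      L0 τ := by
    intro τ
    have key : ∀ c v : ℝ, Real.log (Real.exp (c + v - Real.log 2) + Real.exp (c - v - Real.log 2)) =
        c + Real.log (Real.cosh v) := fun c v => by
      rw [← Real.log_exp c, Real.log_exp c, ← Real.log_exp c, ← Real.log_mul (Real.exp_pos c).ne'
        (Real.cosh_pos v).ne', Real.log_exp, Real.cosh_eq, Real.exp_sub, Real.exp_sub,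
        Real.exp_add, Real.exp_sub, Real.exp_log two_pos, Real.exp_neg]
      congr 1
      ring
    show _ = Lw _ _ κ lin f g h τ
    rw [Lw_eq]
    simp only [hψ, hfr, hspin, tau, Fin.snoc_last, Fin.snoc_castSucc]
    cases lin
    · simp only [Bool.false_eq_true, if_false, if_true]
      rw [← key]
      congr 2 <;> congr 1 <;> simp only [hlam, hbu] <;> ring
    · simp only [if_true, Bool.false_eq_true, if_false]
      rw [← key]
      congr 2 <;> congr 1 <;> simp only [hlam, hbu] <;> ring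
  have hEq : ∀ (C : Cube N → ℝ), Fig P0 s x h front (fun σ => C (front σ) + ψ σ) =
      Fig P0 s x h id fun τ => C τ + L0 τ := fun C => by
    rw [Fig_front]; simp only [hL]
  obtain ⟨hu, hl⟩ := pert_pinch a w k hF hN (stepO A Cp ρ) h s x hx
    (fun σ => base0 P1 U σ + tau κ lin g σ)
  have hen := fun σ => (energy A Cp a w k hF hρ hρ0 h σ).1
  refine ⟨?_, ?_, fun hmax => ?_⟩
  · refine le_trans ?_ hl
    have e : Fi P0 s x h (fun σ => L0 σ + -ε * Qc f h σ) + A.mean / 2 - ε =
        Fig P0 s x h front fun σ =>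
          (base0 P0 h (front σ) + (A.mean / 2 - ε) + -ε * Qc f h (front σ)) + ψ σ := by
      rw [hEq fun τ => base0 P0 h τ + (A.mean / 2 - ε) + -ε * Qc f h τ, add_sub_assoc,
        ← Fi_add_const]
      unfold Fi
      congr 1
      funext τ
      ring
    rw [e]
    refine Fig_mono P0 s x h front fun σ => ?_
    have := abs_le.1 (hen σ)
    simp only [hψ, hlam, hbu, ε, P0, P1, U]
    linarith
  · refine hu.trans ?_
    have e : Fi P0 s x h (fun σ => L0 σ + ε * Qc f h σ) + A.mean / 2 + ε =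
        Fig P0 s x h front fun σ =>
          (base0 P0 h (front σ) + (A.mean / 2 + ε) + ε * Qc f h (front σ)) + ψ σ := by
      rw [hEq fun τ => base0 P0 h τ + (A.mean / 2 + ε) + ε * Qc f h τ, add_assoc,
        ← Fi_add_const]
      unfold Fi
      congr 1
      funext τ
      ring
    rw [e]
    refine Fig_mono P0 s x h front fun σ => ?_
    have := abs_le.1 (hen σ)
    simp only [hψ, hlam, hbu, ε, P0, P1, U]
    linarith
  · refine hu.trans ?_
    set B := 2 * s ^ 2 / N + a (Fin.last K) / 2 + 1 / 2 with hB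
    have e : Fi P0 s x h (fun σ => 2 * s ^ 2 / N * Qc f h σ) + B =
        Fig P0 s x h front fun σ =>
          (base0 P0 h (front σ) + (B + 2 * s ^ 2 / N * Qc f h (front σ))) + -Real.log 2 := by
      rw [Fig_front P0 s x h (fun τ => base0 P0 h τ + (B + 2 * s ^ 2 / N * Qc f h τ))
        fun _ => -Real.log 2, ← Fi_add_const]
      unfold Fi
      congr 1
      funext τ
      rw [Real.exp_neg, Real.exp_log two_pos,
        show ((2 : ℝ)⁻¹ + 2⁻¹) = 1 by norm_num, Real.log_one]
      ring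
    rw [e]
    refine Fig_mono P0 s x h front fun σ => ?_
    have h1 := (energy A Cp a w k hF hρ hρ0 h σ).2 hmax
    have h2 := (tau_le κ hκ lin g σ).1
    simp only [hB, P0, P1, U]
    linarith

end Vale.Agent.P166.Haar2.Cavity
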