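import Vale.Agent.P166.Haar2.Cavity.Site

/-!
Cavity: adding one site in terms of the promoted labelling.
-/

noncomputable section

open MeasureTheory ProbabilityTheory Filter
open scoped BigOperators Topology Matrix

namespace Vale.Agent.P166.Haar2.Cavity

open Vale.Agent.P157 (gam)
open Vale.Agent.P157.Parisi (Cube scale)

variable {N K L : ℕ}

lemma measurable_tau (κ : ℝ) (lin : Bool) {deg : ℕ} (σ : Cube (N + 1)) :
    Measurable fun g : TIdx N deg → ℝ => tau κ lin g σ :=
  ((measurable_testZ (front σ)).const_mul _).sub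
    ((((measurable_testZ (front σ)).pow_const 2).const_mul κ).div_const 2)

lemma abs_tau_le (κ : ℝ) (hκ : κ ∈ Set.Icc (0 : ℝ) 1) (lin : Bool) {deg : ℕ} (g : TIdx N deg → ℝ)
    (σ : Cube (N + 1)) : |tau κ lin g σ| ≤ 1 / 2 + Zb g :=
  (tau_le κ hκ.1 lin g σ).2.trans (add_le_add le_rfl
    ((mul_le_of_le_one_left (sq_nonneg _) hκ.2).trans (testZ_sq_le_Zb g _)))

lemma integrable_Fi_tau (P : Sys (N + 1) (K + 2)) (s : ℝ) (x : Fin L → ℝ) {Ω : Type*}
    [MeasurableSpace Ω] (μ : Measure Ω) [IsFiniteMeasure μ] {deg : ℕ}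
    (gf : Ω → TIdx N deg → ℝ) (hgf : Measurable gf)
    (hZ : Integrable (fun ω => Zb (gf ω)) μ) (u : Ω → OG (N + 1)) (hu : Measurable u) (κ : ℝ)
    (hκ : κ ∈ Set.Icc (0 : ℝ) 1) (lin : Bool) :
    Integrable (fun ω => Fi P s x (u ω) (tau κ lin (gf ω))) μ :=
  integrable_Fi P s x μ u hu (fun ω => tau κ lin (gf ω))
    (fun σ => (measurable_tau κ lin σ).comp hgf) (fun ω => 1 / 2 + Zb (gf ω))
    ((integrable_const _).add hZ) fun ω σ => abs_tau_le κ hκ lin (gf ω) σ

/-- The pressure with a test field is an integral of fixed-rotation free energies. -/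
lemma testFree_eq (a : Fin (K + 1) → ℝ) (w : Fin (N + 1) → Fin (K + 1)) (x : Fin N → ℝ)
    (deg : ℕ) {κ : ℝ} (hκ : κ ∈ Set.Icc (0 : ℝ) 1) (lin : Bool) :
    testFree a w x deg κ lin =
      ∫ g : TIdx N deg → ℝ, ∫ U, Fi (stdSys a w) (scale N) x U (tau κ lin g) ∂orthHaar (N + 1)
        ∂gam (TIdx N deg) := by
  set P := stdSys a w
  set s := scale N
  have i0 := integrable_Fi0 P s x
  have e : ∀ g : TIdx N deg → ℝ, P.lavg s x (unifBase (N + 1)) (fun _ σ =>
      Real.exp (tau κ lin g σ)) =
      (∫ U, Fi P s x U (tau κ lin g) ∂orthHaar (N + 1)) - P.free s x (unifBase (N + 1)) := by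
    intro g
    rw [lavg_eq P s x (fun _ σ => Real.exp (tau κ lin g σ)) (fun _ => measurable_const)
      (fun _ σ => Real.exp_pos _) (1 / 2 + Zb g) fun _ σ => by
        rw [Real.log_exp]; exact abs_tau_le κ hκ lin g σ]
    simp only [Real.log_exp]
    rw [integral_sub _ i0, ← free_eq]
    exact integrable_Fi_tau P s x (orthHaar (N + 1)) (fun _ => g) measurable_const
      (integrable_const _) id measurable_id κ hκ lin
  have hi := integrable_Fi_tau P s x ((gam (TIdx N deg)).prod (orthHaar (N + 1)))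
    (fun q => q.1) measurable_fst ((integrable_Zb deg).comp_fst _) Prod.snd measurable_snd κ hκ lin
  show P.free s x (unifBase (N + 1)) + ∫ g, P.lavg s x (unifBase (N + 1))
    (fun _ σ => Real.exp (tau κ lin g σ)) ∂gam (TIdx N deg) = _
  simp only [e]
  rw [integral_sub hi.integral_prod_left (integrable_const _)]
  simp

/-- The block norms of the last column. -/
def colRho (w : Fin N → Fin (K + 1)) (U : OG N) (e : Fin N) (l : Fin (K + 1)) : ℝ :=
  Real.sqrt (∑ i ∈ Finset.univ.filter fun i => w i = l, act U (ev e) i ^ 2)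

lemma colRho_sum (w : Fin N → Fin (K + 1)) (U : OG N) (e : Fin N) :
    ∑ l, colRho w U e l ^ 2 = 1 := by
  simp only [colRho, Real.sq_sqrt (Finset.sum_nonneg fun i _ => sq_nonneg _)]
  rw [Finset.sum_fiberwise (Finset.univ : Finset (Fin N)) w fun i => act U (ev e) i ^ 2]
  exact col_unit U e

/-- Block rotations align two vectors with the same block norms. -/
lemma exists_align (P : Sys N (K + 2)) (hν : 0 ≤ P.ν) (s : ℝ) (x : Fin L → ℝ)
    (w : Fin N → Fin (K + 1))
    (hP : ∀ l, Uniform P (Finset.univ.filter fun i => w i = l)) (u v : Fin N → ℝ)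
    (huv : ∀ l, ∑ i ∈ Finset.univ.filter (fun i => w i = l), u i ^ 2 =
      ∑ i ∈ Finset.univ.filter (fun i => w i = l), v i ^ 2) :
    ∃ B : OG N, (∀ U δ, Fi P s x (B * U) δ = Fi P s x U δ) ∧ act B u = v := by
  classical
  suffices h : ∀ S : Finset (Fin (K + 1)), ∃ B : OG N,
      (∀ U δ, Fi P s x (B * U) δ = Fi P s x U δ) ∧
        ∀ i, act B u i = if w i ∈ S then v i else u i by
    obtain ⟨B, h1, h2⟩ := h Finset.univ
    exact ⟨B, h1, funext fun i => by simp [h2 i]⟩
  intro S
  induction S using Finset.induction_on with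
  | empty => exact ⟨1, fun U δ => by rw [one_mul], fun i => by simp [act_one]⟩
  | insert l S hl ih =>
    obtain ⟨B, h1, h2⟩ := ih
    set a : Fin N → ℝ := fun i => if w i = l then u i else 0 with ha
    set b : Fin N → ℝ := fun i => if w i = l then v i else 0 with hb
    set r : Fin N → ℝ := fun i => if w i = l then 0 else act B u i with hr
    have hB' : Fixes (Finset.univ.filter fun i => w i = l) (refl (a - b)) :=
      refl_fixes fun i hi => by
        have : w i ≠ l := fun e => hi (Finset.mem_filter.2 ⟨Finset.mem_univ _, e⟩)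
        simp [ha, hb, this]
    refine ⟨refl (a - b) * B, fun U δ => by
      rw [mul_assoc, Fi_mul_left P hν s x (hP l) hB', h1], fun i => ?_⟩
    have hu : act B u = a + r := funext fun j => by
      simp only [Pi.add_apply, ha, hr]
      split_ifs with e
      · rw [h2 j, e, if_neg hl, add_zero]
      · rw [zero_add]
    rw [act_mul, hu, refl_sub_apply a b r]
    · simp only [Pi.add_apply, hb, hr, h2 i, Finset.mem_insert]
      by_cases e : w i = l
      · simp [e]
      · simp [e]
    · simp only [dotProduct, ha, hb, ite_mul, zero_mul, mul_ite, mul_zero]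
      simp only [Finset.sum_ite, Finset.sum_const_zero, add_zero, Finset.filter_filter, and_self,
        ← pow_two]
      exact huv l
    · exact Finset.sum_eq_zero fun j _ => by simp only [ha, hr]; split_ifs <;> simp
    · exact Finset.sum_eq_zero fun j _ => by simp only [hb, hr]; split_ifs <;> simp

variable (A : Atoms K) (Cp : Compr A)

/-- Freezing the last column: the frame may replace the rotation. -/
lemma integral_frame (a : Fin (K + 1) → ℝ) (w : Fin N → Fin (K + 1)) (k : Fin (K + 1))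
    {f : Fin (K + 1) → Fin N} (hF : Firsts w f) (s : ℝ) (x : Fin L → ℝ) (U : OG (N + 1))
    (δ : Cube (N + 1) → ℝ) :
    ∫ h, Fi (stdSys a (Fin.snoc w k)) s x (U * ext h) δ ∂orthHaar N =
      ∫ h, Fi (stdSys a (Fin.snoc w k)) s x
        (turnM f hF.inj (stepO A Cp (colRho (Fin.snoc w k) U (Fin.last N))) * ext h) δ
          ∂orthHaar N := by
  set w' : Fin (N + 1) → Fin (K + 1) := Fin.snoc w k
  set ρ := colRho w' U (Fin.last N) with hρdef
  set P := stdSys a w'
  set T := turnM f hF.inj (stepO A Cp ρ) with hT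
  have hρ := colRho_sum w' U (Fin.last N)
  have hρ0 : ∀ l, 0 ≤ ρ l := fun l => Real.sqrt_nonneg _
  obtain ⟨t1, t2, t3⟩ := act_turn f hF.inj (stepO A Cp ρ) 0 1
  rw [← ev_last_eq] at t1 t2 t3
  have hq : qv f (0 : Fin N → ℝ) 1 = ev (Fin.last K) := funext fun i => by
    induction i using Fin.lastCases with
    | last => simp [qv, ev]
    | cast i => simp [qv, ev, (Fin.castSucc_lt_last i).ne]
  rw [hq] at t1
  have hcol := (stepO_spec A Cp hρ hρ0).1
  rw [hcol] at t1
  rw [← hT] at t1 t2 t3
  have hblock : ∀ l, ∑ i ∈ Finset.univ.filter (fun i => w' i = l),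
      act U (ev (Fin.last N)) i ^ 2 =
      ∑ i ∈ Finset.univ.filter (fun i => w' i = l), act T (ev (Fin.last N)) i ^ 2 := fun l => by
    have hm : (f l).castSucc ∈ Finset.univ.filter (fun i => w' i = l) := by
      simp [w', hF.lab]
    symm
    rw [Finset.sum_eq_single_of_mem _ hm fun i hi hne => ?_]
    · rw [t1 l, colRho, Real.sq_sqrt (Finset.sum_nonneg fun i _ => sq_nonneg _)]
    · induction i using Fin.lastCases with
      | last => rw [t3]; simp
      | cast i =>
        have hil : w i = l := by simpa [w'] using hi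
        rw [t2 i fun m e => hne (by rw [← e] at hil ⊢; rw [hF.lab] at hil; rw [hil])]
        simp
  obtain ⟨B, hB, hBu⟩ := exists_align P (Nat.cast_nonneg _) s x w' (uniform_std a w') _ _ hblock
  obtain ⟨h0, hh0⟩ := exists_ext (T⁻¹ * (B * U)) (by rw [act_mul, act_mul, hBu, act_inv_act])
  have hBU : B * U = T * ext h0 := by rw [← hh0, mul_inv_cancel_left]
  calc ∫ h, Fi P s x (U * ext h) δ ∂orthHaar N
      = ∫ h, Fi P s x (T * ext (h0 * h)) δ ∂orthHaar N := by
        refine integral_congr_ae (ae_of_all _ fun h => ?_)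
        dsimp only
        rw [← hB (U * ext h) δ, ← mul_assoc, hBU, mul_assoc, ← ext_mul]
    _ = ∫ h, Fi P s x (T * ext h) δ ∂orthHaar N :=
        integral_mul_left_eq_self (μ := orthHaar N) (fun h => Fi P s x (T * ext h) δ) h0

lemma continuous_colDist (w : Fin N → Fin (K + 1)) (e : Fin N) :
    Continuous fun U : OG N => colDist A (colRho w U e) :=
  continuous_finsetSum _ fun _ _ =>
    ((Real.continuous_sqrt.comp (continuous_finsetSum _ fun i _ =>
      (continuous_col e i).pow 2)).sub continuous_const).abs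

/-- The block norms are near their limits in mean. -/
lemma colDist_mean (w : Fin N → Fin (K + 1)) (k : Fin (K + 1)) (hN : 0 < N) :
    ∫ U, colDist A (colRho (Fin.snoc w k) U (Fin.last N)) ∂orthHaar (N + 1) ≤
      ∑ l, (Real.sqrt (2 / N) + (|frac w l - A.c l| + 1 / N)) / Real.sqrt (A.c l) := by
  set w' : Fin (N + 1) → Fin (K + 1) := Fin.snoc w k
  set μ := orthHaar (N + 1)
  set e := Fin.last N
  have hN' : (0 : ℝ) < N := Nat.cast_pos.2 hN
  have hc : ∀ l, Continuous fun U : OG (N + 1) => colRho w' U e l := fun l =>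
    Real.continuous_sqrt.comp (continuous_finsetSum _ fun i _ => (continuous_col e i).pow 2)
  have hi : ∀ l, Integrable (fun U => |colRho w' U e l - Real.sqrt (A.c l)|) μ := fun l =>
    integrable_cont ((hc l).sub continuous_const).abs
  simp only [colDist]
  rw [integral_finsetSum _ fun l _ => hi l]
  refine Finset.sum_le_sum fun l _ => ?_
  set S := Finset.univ.filter fun i => w' i = l with hS
  have hcl : 0 < Real.sqrt (A.c l) := Real.sqrt_pos.2 (A.pos l)
  have hfr : |((S.card : ℝ) / (N + 1 : ℕ)) - frac w l| ≤ 1 / N := by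
    have hcard : (S.card : ℝ) = (N : ℝ) * frac w l + if k = l then 1 else 0 := by
      have e1 : S.card = ∑ i, if w' i = l then 1 else 0 := by rw [hS, Finset.card_filter]
      rw [e1, Fin.sum_univ_castSucc, frac, Finset.card_filter]
      simp only [w', Fin.snoc_castSucc, Fin.snoc_last]
      push_cast
      field_simp
    have hf0 : 0 ≤ frac w l := by unfold frac; positivity
    have hf1 : frac w l ≤ 1 := by
      rw [frac, div_le_one hN']
      exact_mod_cast (Finset.card_le_univ _).trans_eq (Fintype.card_fin N)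
    rw [hcard, show (((N : ℝ) * frac w l + if k = l then 1 else 0) / (N + 1 : ℕ) - frac w l) =
      ((if k = l then 1 else 0) - frac w l) / (N + 1 : ℝ) by push_cast; field_simp; ring,
      abs_div, abs_of_pos (by positivity : (0 : ℝ) < N + 1)]
    refine div_le_div₀ zero_le_one ?_ hN' (by linarith)
    rw [abs_le]
    split_ifs <;> constructor <;> linarith
  have hpt : ∀ U, |colRho w' U e l - Real.sqrt (A.c l)| ≤
      (|(∑ i ∈ S, act U (ev e) i ^ 2) - (S.card : ℝ) / (N + 1 : ℕ)| +
        (|frac w l - A.c l| + 1 / N)) / Real.sqrt (A.c l) := by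
    intro U
    set X := ∑ i ∈ S, act U (ev e) i ^ 2
    have hX : 0 ≤ X := Finset.sum_nonneg fun i _ => sq_nonneg _
    show |Real.sqrt X - _| ≤ _
    rw [le_div_iff₀ hcl]
    have h1 : |Real.sqrt X - Real.sqrt (A.c l)| * Real.sqrt (A.c l) ≤ |X - A.c l| := by
      conv_rhs => rw [← Real.mul_self_sqrt hX, ← Real.mul_self_sqrt (A.pos l).le,
        mul_self_sub_mul_self, mul_comm, abs_mul]
      refine mul_le_mul_of_nonneg_left ?_ (abs_nonneg _)
      rw [abs_of_nonneg (add_nonneg (Real.sqrt_nonneg _) hcl.le)]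
      exact le_add_of_nonneg_left (Real.sqrt_nonneg _)
    refine h1.trans ?_
    calc |X - A.c l| = |(X - (S.card : ℝ) / (N + 1 : ℕ)) +
          (((S.card : ℝ) / (N + 1 : ℕ) - frac w l) + (frac w l - A.c l))| := by ring_nf
      _ ≤ _ := (abs_add_le _ _).trans (add_le_add le_rfl
          ((abs_add_le _ _).trans (by linarith)))
  have iX : Integrable (fun U => |(∑ i ∈ S, act U (ev e) i ^ 2) - (S.card : ℝ) / (N + 1 : ℕ)|) μ :=
    integrable_cont ((continuous_finsetSum _ fun i _ => (continuous_col e i).pow 2).sub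
      continuous_const).abs
  refine (integral_mono (hi l) ((iX.add (integrable_const _)).div_const _) hpt).trans ?_
  simp only [Pi.add_apply]
  rw [integral_div, integral_add iX (integrable_const _)]
  simp only [integral_const, probReal_univ, one_smul]
  refine div_le_div_of_nonneg_right (add_le_add ((col_mass S e).trans ?_) le_rfl) hcl.le
  refine Real.sqrt_le_sqrt (div_le_div_of_nonneg_left zero_le_two hN' ?_)
  push_cast; linarith

lemma tendsto_pert : Tendsto (fun N : ℕ => 2 * scale N ^ 2 / (N : ℝ)) atTop (𝓝 0) := by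
  have h := tendsto_rate.const_mul (2 / 3 : ℝ)
  rw [mul_zero] at h
  exact h.congr fun N => by ring

lemma thetaK_nonneg (k : Fin (K + 1)) (j : Fin (K + 1)) : 0 ≤ thetaK A Cp k j := by
  induction j using Fin.lastCases with
  | last =>
    simp only [thetaK, Fin.snoc_last, Atoms.gapTop, Atoms.top, sub_nonneg]
    exact A.mono.monotone (Fin.le_last k)
  | cast i =>
    simp only [thetaK, Fin.snoc_castSucc, sub_nonneg]
    exact (Cp.lt_top i).le

/-- At a fixed last column the system is near the cavity value. -/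
lemma frame_mean (a : Fin (K + 1) → ℝ) (w : Fin N → Fin (K + 1)) (k : Fin (K + 1))
    {f : Fin (K + 1) → Fin N} (hF : Firsts w f) (hN : 0 < N) (s : ℝ) (x : Fin L → ℝ)
    (hx : ∀ i, |x i| ≤ 3) (deg : ℕ) {κ : ℝ} (hκ : κ ∈ Set.Icc (0 : ℝ) 1) (lin : Bool) {c η : ℝ}
    (hc : 0 < c)
    (hcard : c * (N : ℝ) ≤ (Finset.univ.filter fun i => promote w i = Fin.last K).card)
    (hη : 0 < η) (hηc : 2 * η * (K + 1) ≤ c / 32) (he : 2 * s ^ 2 / (N : ℝ) ≤ min η 1)
    (htop : a (Fin.last K) ≤ A.top + 2) (hmax : ∀ l, a l ≤ a (Fin.last K)) (U : OG (N + 1)) :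
    |(∫ g : TIdx N deg → ℝ, ∫ h, Fi (stdSys a (Fin.snoc w k)) s x (U * ext h) (tau κ lin g)
          ∂orthHaar N ∂gam (TIdx N deg)) -
      ((stdSys a (promote w)).freshLog s x (unifBase N) deg f
          (stepX (thetaK A Cp k) (Fin.snoc Cp.b 0) κ lin) +
        (stdSys a (promote w)).free s x (unifBase N) + A.mean / 2)| ≤
      (epsE A a (colRho (Fin.snoc w k) U (Fin.last N)) + 2 * s ^ 2 / N) *
        pinchBd K c η (thetaK A Cp k) (Fin.snoc Cp.b 0) κ (|A.top| + 3) (A.mean / 2) := by
  set ρ := colRho (Fin.snoc w k : Fin (N + 1) → Fin (K + 1)) U (Fin.last N) with hρdef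
  have hρ : ∑ l, ρ l ^ 2 = 1 := colRho_sum _ U (Fin.last N)
  have hρ0 : ∀ l, 0 ≤ ρ l := fun l => Real.sqrt_nonneg _
  set M := turnM f hF.inj (stepO A Cp ρ) with hMdef
  have hfr : ∀ g : TIdx N deg → ℝ,
      ∫ h, Fi (stdSys a (Fin.snoc w k)) s x (U * ext h) (tau κ lin g) ∂orthHaar N =
        ∫ h, Fi (stdSys a (Fin.snoc w k)) s x (M * ext h) (tau κ lin g) ∂orthHaar N := fun g =>
    integral_frame A Cp a w k hF s x U (tau κ lin g)
  rw [integral_congr_ae (ae_of_all _ hfr)]
  have he0 : 0 ≤ 2 * s ^ 2 / (N : ℝ) := by positivity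
  have hu : Measurable fun q : (TIdx N deg → ℝ) × OG N => M * ext q.2 :=
    ((continuous_const.mul continuous_ext).measurable).comp measurable_snd
  have hM := integrable_Fi_tau (stdSys a (Fin.snoc w k)) s x
    ((gam (TIdx N deg)).prod (orthHaar N)) (fun q : (TIdx N deg → ℝ) × OG N => q.1)
    measurable_fst ((integrable_Zb deg).comp_fst _) (fun q => M * ext q.2) hu κ hκ lin
  have hp := fun (g : TIdx N deg → ℝ) h => site_pinch A Cp a w k hF hN hρ hρ0 s x hx κ hκ.1 lin g h
  refine pinch_mean (stdSys a (promote w)) s x f (thetaK A Cp k) (Fin.snoc Cp.b 0) lin deg hN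
    (Nat.cast_nonneg _) (uniform_std a (promote w) _)
    (fun l => Finset.mem_filter.2 ⟨Finset.mem_univ _, hF.top l⟩) hc hcard hη hηc
    (thetaK_nonneg A Cp k) hκ.1 (add_nonneg (epsE_nonneg A a ρ) he0) he0
    (he.trans (min_le_left _ _))
    (fun g h => Fi (stdSys a (Fin.snoc w k)) s x (M * ext h) (tau κ lin g)) hM
    (fun g h => (hp g h).1) (fun g h => (hp g h).2.1)
    fun g h => ((hp g h).2.2 hmax).trans (add_le_add le_rfl ?_)
  have h1 := he.trans (min_le_right η 1)
  linarith [le_abs_self A.top, neg_abs_le A.top]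

/-- One more site. -/
theorem step : StepStmt := by
  intro K A Cp Q hQ hB coords hco k deg κ lin hκ δ₀ hδ₀
  classical
  obtain ⟨δ, hδ, hδ0, hδz⟩ : ∃ δ : ℝ, 0 < δ ∧ δ ≤ δ₀ ∧ ∀ i : Fin K, δ ≤ A.top - Cp.z i := by
    have hp : ∀ i, 0 < A.top - Cp.z i := fun i => sub_pos.2 (Cp.lt_top i)
    have hsum : 0 ≤ ∑ i, (A.top - Cp.z i)⁻¹ :=
      Finset.sum_nonneg fun i _ => (inv_pos.2 (hp i)).le
    refine ⟨(δ₀⁻¹ + ∑ i, (A.top - Cp.z i)⁻¹)⁻¹, by positivity,
      inv_le_of_inv_le₀ hδ₀ (le_add_of_nonneg_right hsum), fun i => ?_⟩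
    refine inv_le_of_inv_le₀ (hp i) (le_trans (Finset.single_le_sum
      (f := fun m => (A.top - Cp.z m)⁻¹) (fun m _ => (inv_pos.2 (hp m)).le) (Finset.mem_univ i))
      (le_add_of_nonneg_left (inv_pos.2 hδ₀).le))
  refine ⟨δ, ⟨hδ, hδ0⟩, ?_⟩
  set θ := thetaK A Cp k
  set b : Fin (K + 1) → ℝ := Fin.snoc Cp.b 0
  set c := A.ctop / 2 with hcdef
  have hc : 0 < c := half_pos (A.pos _)
  set η := c / (64 * (K + 1)) with hη
  have hη0 : 0 < η := by positivity
  have hηc : 2 * η * (K + 1) ≤ c / 32 := le_of_eq (by rw [hη]; field_simp; ring)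
  set B := |A.top| + 3 with hBdef
  set Λ := pinchBd K c η θ b κ B (A.mean / 2) with hΛ
  have hΛ0 : 0 ≤ Λ := by
    rw [hΛ, pinchBd, tiltBd, momBd]
    have := Finset.sum_nonneg fun j (_ : j ∈ Finset.univ) => abs_nonneg (θ j)
    have := hκ.1
    positivity
  set SA := ∑ l, |A.a l|
  set E : ℕ → ℝ := fun j => Λ * (2 * (∑ l, |Q.a j l - A.a l|) +
    6 * SA * (∑ l, (Real.sqrt (2 / (Q.N j : ℝ)) + (|frac (Q.w j) l - A.c l| + 1 / (Q.N j : ℝ))) /
      Real.sqrt (A.c l)) + 2 * scale (Q.N j) ^ 2 / (Q.N j : ℝ)) with hE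
  have hN' : Tendsto (fun j => (Q.N j : ℝ)) atTop atTop :=
    tendsto_natCast_atTop_atTop.comp hQ.size
  have hε0 : Tendsto (fun j => 2 * scale (Q.N j) ^ 2 / (Q.N j : ℝ)) atTop (𝓝 0) :=
    tendsto_pert.comp hQ.size
  have hlim : Tendsto E atTop (𝓝 0) := by
    have h1 : Tendsto (fun j => ∑ l, |Q.a j l - A.a l|) atTop (𝓝 0) := by
      have := tendsto_finsetSum Finset.univ fun l _ => ((hQ.atoms l).sub_const (A.a l)).abs
      simpa using this
    have h2 : Tendsto (fun j => ∑ l, (Real.sqrt (2 / (Q.N j : ℝ)) +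
        (|frac (Q.w j) l - A.c l| + 1 / (Q.N j : ℝ))) / Real.sqrt (A.c l)) atTop (𝓝 0) := by
      have := tendsto_finsetSum Finset.univ fun l _ =>
        ((((hN'.const_div_atTop 2).sqrt).add ((((hQ.fracs l).sub_const (A.c l)).abs).add
          (hN'.const_div_atTop 1))).div_const (Real.sqrt (A.c l)))
      simpa using this
    have := (((h1.const_mul 2).add (h2.const_mul (6 * SA))).add hε0).const_mul Λ
    simpa [hE] using this
  have hev1 : ∀ᶠ j in atTop, ∀ l, l ≠ Fin.last K → Q.a j l ≤ Q.a j (Fin.last K) :=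
    eventually_all.2 fun l => by
      by_cases hl : l = Fin.last K
      · exact Eventually.of_forall fun j h => absurd hl h
      · have hlt : A.a l < A.a (Fin.last K) :=
          A.mono (lt_of_le_of_ne (Fin.le_last l) hl)
        filter_upwards [(hQ.atoms l).eventually (eventually_lt_nhds
            (by linarith : A.a l < (A.a l + A.a (Fin.last K)) / 2)),
          (hQ.atoms (Fin.last K)).eventually (eventually_gt_nhds
            (by linarith : (A.a l + A.a (Fin.last K)) / 2 < A.a (Fin.last K)))] with j h1 h2 _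
        linarith
  have hev2 : ∀ᶠ j in atTop, ∀ l, 0 < frac (Q.w j) l := eventually_all.2 fun l =>
    (hQ.fracs l).eventually (eventually_gt_nhds (A.pos l))
  have hev3 : ∀ᶠ j in atTop, c ≤ frac (Q.w j) (Fin.last K) :=
    (hQ.fracs _).eventually (eventually_ge_nhds (half_lt_self (A.pos _)))
  have hev4 : ∀ᶠ j in atTop, 2 * scale (Q.N j) ^ 2 / (Q.N j : ℝ) ≤ min η 1 :=
    hε0.eventually (eventually_le_nhds (lt_min hη0 one_pos))
  have hev5 : ∀ᶠ j in atTop, Q.a j (Fin.last K) ≤ A.top + 2 :=
    (hQ.atoms _).eventually (eventually_le_nhds (by show A.a (Fin.last K) < A.a (Fin.last K) + 2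
                                                    linarith))
  have hev6 : ∀ᶠ j in atTop, E j ≤ δ₀ := hlim.eventually (eventually_le_nhds hδ₀)
  filter_upwards [hev1, hev2, hev3, hev4, hev5, hev6] with j hmax' hpos hfc he htop hEj
  have hN : 0 < Q.N j := hQ.pos j
  set N := Q.N j
  set a := Q.a j
  set w := Q.w j
  set x := Q.x j
  set s := scale N
  have hmax : ∀ l, a l ≤ a (Fin.last K) := fun l => by
    by_cases hl : l = Fin.last K
    · rw [hl]
    · exact hmax' l hl
  obtain ⟨f, hF⟩ := exists_firsts w fun l => blockCard_pos (hpos l)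
  set P0 := stdSys a (promote w)
  set P1 := stdSys a (Fin.snoc w k : Fin (N + 1) → Fin (K + 1))
  set T := Finset.univ.filter fun i => promote w i = Fin.last K with hTdef
  have hTu : Uniform P0 T := uniform_std a (promote w) _
  have hfT : ∀ l, f l ∈ T := fun l => Finset.mem_filter.2 ⟨Finset.mem_univ _, hF.top l⟩
  have hcT : ∀ l, coords j l ∈ T := fun l => Finset.mem_filter.2 ⟨Finset.mem_univ _, (hco j).2 l⟩
  have hν : (0 : ℝ) ≤ P0.ν := Nat.cast_nonneg _
  have hcard : c * (N : ℝ) ≤ T.card := by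
    have h1 : (blockCard w (Fin.last K) : ℝ) ≤ T.card :=
      Nat.cast_le.2 (blockCard_promote_top w)
    have h2 := mul_le_mul_of_nonneg_right hfc (Nat.cast_nonneg N : (0 : ℝ) ≤ N)
    rw [frac_eq, div_mul_cancel₀ _ (Nat.cast_pos.2 hN).ne'] at h2
    linarith
  have hθ : ∀ i, 0 ≤ θ i := thetaK_nonneg A Cp k
  have hcoords : ∀ θ' : Fin (K + 1) → ℝ, (∀ i, 0 ≤ θ' i) →
      P0.freshLog s x (unifBase N) deg (coords j) (stepX θ' b κ lin) =
        P0.freshLog s x (unifBase N) deg f (stepX θ' b κ lin) := fun θ' h' =>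
    freshLog_coords P0 hν s x hTu (coords j) f (hco j).1 hF.inj hcT hfT h' hκ.1 lin deg
  set μ1 := orthHaar (N + 1)
  set μ := orthHaar N
  set γ := gam (TIdx N deg)
  set B0 := P0.freshLog s x (unifBase N) deg f (stepX θ b κ lin) + P0.free s x (unifBase N) +
    A.mean / 2 with hB0
  have hu : Measurable fun q : ((TIdx N deg → ℝ) × OG (N + 1)) × OG N => q.1.2 * ext q.2 :=
    ((continuous_fst.mul (continuous_ext.comp continuous_snd)).measurable).comp
      ((measurable_snd.comp measurable_fst).prodMk measurable_snd)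
  have hI : Integrable (fun q : ((TIdx N deg → ℝ) × OG (N + 1)) × OG N =>
      Fi P1 s x (q.1.2 * ext q.2) (tau κ lin q.1.1)) ((γ.prod μ1).prod μ) :=
    integrable_Fi_tau P1 s x ((γ.prod μ1).prod μ) (fun q => q.1.1)
      (measurable_fst.comp measurable_fst) (((integrable_Zb deg).comp_fst μ1).comp_fst μ)
      (fun q => q.1.2 * ext q.2) hu κ hκ lin
  have hG : Integrable (Function.uncurry fun (g : TIdx N deg → ℝ) (U : OG (N + 1)) =>
      ∫ h, Fi P1 s x (U * ext h) (tau κ lin g) ∂μ) (γ.prod μ1) := hI.integral_prod_left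
  have htest : testFree a (Fin.snoc w k) x deg κ lin =
      ∫ U, ∫ g, ∫ h, Fi P1 s x (U * ext h) (tau κ lin g) ∂μ ∂γ ∂μ1 := by
    rw [testFree_eq a _ x deg hκ lin, ← integral_integral_swap hG]
    refine integral_congr_ae (ae_of_all _ fun g => ?_)
    exact integral_ext (fun U => Fi P1 s x U (tau κ lin g))
      (integrable_Fi_tau P1 s x (μ1.prod μ) (fun _ => g) measurable_const (integrable_const _)
        (fun q => q.1 * ext q.2)
        (continuous_fst.mul (continuous_ext.comp continuous_snd)).measurable κ hκ lin)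
  have hpt := fun U : OG (N + 1) => frame_mean A Cp a w k hF hN s x (hQ.box j) deg hκ lin hc
    hcard hη0 hηc he htop hmax U
  have key : |testFree a (Fin.snoc w k) x deg κ lin - B0| ≤ E j := by
    have hiD : Integrable (fun U : OG (N + 1) =>
        colDist A (colRho (Fin.snoc w k) U (Fin.last N))) μ1 :=
      integrable_cont (continuous_colDist A _ _)
    have hiG : Integrable (fun U => ∫ g, ∫ h, Fi P1 s x (U * ext h) (tau κ lin g) ∂μ ∂γ) μ1 :=
      hG.integral_prod_right
    rw [htest, ← Real.norm_eq_abs,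
      show (∫ U, ∫ g, ∫ h, Fi P1 s x (U * ext h) (tau κ lin g) ∂μ ∂γ ∂μ1) - B0 =
        ∫ U, ((∫ g, ∫ h, Fi P1 s x (U * ext h) (tau κ lin g) ∂μ ∂γ) - B0) ∂μ1 by
        rw [integral_sub hiG (integrable_const _)]; simp]
    refine (norm_integral_le_integral_norm _).trans ?_
    have hR : Integrable (fun U : OG (N + 1) =>
        ((2 * ∑ l, |a l - A.a l|) + 2 * s ^ 2 / (N : ℝ) +
          6 * SA * colDist A (colRho (Fin.snoc w k) U (Fin.last N))) * Λ) μ1 :=
      ((integrable_const _).add (hiD.const_mul _)).mul_const _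
    refine (integral_mono (hiG.sub (integrable_const _)).norm hR fun U => ?_).trans ?_
    · rw [Real.norm_eq_abs]
      exact (hpt U).trans_eq (by rw [epsE]; ring)
    rw [integral_mul_const, integral_add (integrable_const _) (hiD.const_mul _),
      integral_const_mul]
    simp only [integral_const, probReal_univ, one_smul]
    refine (mul_le_mul_of_nonneg_right (add_le_add le_rfl
      (mul_le_mul_of_nonneg_left (colDist_mean A w k hN) (by positivity))) hΛ0).trans_eq ?_
    simp only [hE]
    ring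
  obtain ⟨key1, key2⟩ := abs_le.1 (key.trans hEj)
  set θp : Fin (K + 1) → ℝ := Fin.snoc (fun i => A.top - Cp.z i + δ) (A.gapTop k) with hθp
  set θm : Fin (K + 1) → ℝ := Fin.snoc (fun i => A.top - Cp.z i + -δ) (A.gapTop k) with hθm
  have hcmp : ∀ i, θ i ≤ θp i ∧ 0 ≤ θm i ∧ θm i ≤ θ i := fun i => by
    induction i using Fin.lastCases with
    | last =>
      simp only [θ, hθp, hθm, thetaK, Fin.snoc_last, le_refl, and_true, true_and]
      have := hθ (Fin.last K)
      simpa [θ, thetaK] using this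
    | cast i =>
      simp only [θ, hθp, hθm, thetaK, Fin.snoc_castSucc]
      have := hδz i
      refine ⟨by linarith, by linarith, by linarith⟩
  have hp := freshLog_anti P0 s x θ b κ lin hθ hκ.1 (fun i => (hcmp i).1) deg f
  have hm := freshLog_anti P0 s x θm b κ lin (fun i => (hcmp i).2.1) hκ.1
    (fun i => (hcmp i).2.2) deg f
  have e1 := hcoords θp fun i => (hθ i).trans (hcmp i).1
  have e2 := hcoords θm fun i => (hcmp i).2.1
  show P0.freshLog s x (unifBase N) deg (coords j) (stepX θp b κ lin) - δ₀ ≤ _ ∧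
    _ ≤ P0.freshLog s x (unifBase N) deg (coords j) (stepX θm b κ lin) + δ₀
  rw [e1, e2]
  simp only [hB0] at key1 key2
  constructor <;> linarith

end Vale.Agent.P166.Haar2.Cavity
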